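import Vale.Agent.P048.Full.Gain

/-!
The clique neighbourhood lemma: if `D` is a clique with `#D < m ≤ 2 #D` and `7 ≤ m`, every vertex of degree at
least `m - 1` and no cycle on `m` vertices, then every nonempty `U ⊆ D` has an independent set of
`#U` vertices among the neighbours of `U` outside `D`.
-/

namespace Vale.Agent.P048.Full

open Finset

variable {V : Type*} [DecidableEq V] {G : SimpleGraph V}

/-- The ends of a set of links. -/
def endsF (S : Finset (Link V)) : Finset V := S.biUnion fun L => {L.1, L.2.2}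

theorem mem_endsF {S : Finset (Link V)} {x : V} :
    x ∈ endsF S ↔ ∃ L ∈ S, x = L.1 ∨ x = L.2.2 := by simp [endsF]

theorem card_endsF (S : Finset (Link V)) : #(endsF S) ≤ 2 * #S :=
  (card_biUnion_le_card_mul _ _ 2 fun _ _ => card_le_two).trans (Nat.mul_comm _ _).le

theorem LinksIn.ends {U W : Finset V} {Ls : List (Link V)} {l₀ : List V}
    (h : LinksIn G U W Ls l₀) {L : Link V} (hL : L ∈ Ls) : L.1 ∈ U ∧ L.2.2 ∈ U ∧ L.1 ≠ L.2.2 := by
  have hp : s(L.1, L.2.2) ∈ epairs l₀ := h.mem L hL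
  refine ⟨?_, ?_, ?_⟩
  · rw [← h.order]; exact List.mem_toFinset.2 (mem_of_mem_epairs hp (Sym2.mem_mk_left _ _))
  · rw [← h.order]; exact List.mem_toFinset.2 (mem_of_mem_epairs hp (Sym2.mem_mk_right _ _))
  · intro he
    obtain ⟨i, hi, hie⟩ := mem_epairs_iff.1 hp
    rw [he] at hie
    rcases Sym2.eq_iff.1 hie with ⟨e1, e2⟩ | ⟨e1, e2⟩ <;>
    · have := (h.nd.getElem_inj_iff).1 (e1.symm.trans e2)
      omega

theorem LinksIn.endsF_subset {U W : Finset V} {Ls : List (Link V)} {l₀ : List V}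
    (h : LinksIn G U W Ls l₀) {S : Finset (Link V)} (hS : ∀ L ∈ S, L ∈ Ls) : endsF S ⊆ U := by
  intro x hx
  obtain ⟨L, hL, rfl | rfl⟩ := mem_endsF.1 hx
  · exact (h.ends (hS L hL)).1
  · exact (h.ends (hS L hL)).2.1

theorem LinksIn.disjoint {U W : Finset V} {Ls : List (Link V)} {l₀ : List V}
    (h : LinksIn G U W Ls l₀) {L M : Link V} (hL : L ∈ Ls) (hM : M ∈ Ls) (hne : L ≠ M) :
    List.Disjoint (lmid L) (lmid M) := by
  have : Std.Symm (Function.onFun List.Disjoint (lmid (V := V))) := ⟨fun _ _ h => h.symm⟩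
  exact (List.nodup_flatMap.1 h.midNodup).2.forall hL hM hne

/-- The total length of a set of links. -/
def tot (S : Finset (Link V)) : ℕ := ∑ L ∈ S, (lmid L).length

/-- Links from one system close up with the clique to a cycle of exact length. -/
theorem close {U W D : Finset V} {Ls : List (Link V)} {l₀ : List V}
    (hsys : LinksIn G U W Ls l₀) (hUD : U ⊆ D) (hWD : ∀ x ∈ W, x ∉ D)
    (hclq : ∀ x ∈ D, ∀ y ∈ D, x ≠ y → G.Adj x y) {S : Finset (Link V)} (hS : ∀ L ∈ S, L ∈ Ls)
    {t z m : ℕ} (htot : tot S = t + z) (hm : m = #D + t) (hfree : #(endsF S) + z ≤ #D)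
    (h3 : z + 3 ≤ #D) : Close.HasCycle G m := by
  classical
  obtain ⟨Ls', hperm, hsub⟩ := List.subperm_of_subset (nodup_toList S)
    (fun L hL => hS L (mem_toList.1 hL))
  have h' := hsys.sublist hsub
  have hends : endsF S ⊆ D := (hsys.endsF_subset hS).trans hUD
  obtain ⟨Z, hZ, hZc⟩ := exists_subset_card_eq (s := D \ endsF S) (n := z)
    (by rw [card_sdiff_of_subset hends]; omega)
  set l := (l₀ ++ (D \ U).toList).filter fun x => decide (x ∉ Z) with hl
  have hl0 : (l₀ ++ (D \ U).toList).Nodup := by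
    rw [List.nodup_append']
    refine ⟨hsys.nd, nodup_toList _, fun x hx hx' => (mem_sdiff.1 (mem_toList.1 hx')).2 ?_⟩
    rw [← hsys.order]; exact List.mem_toFinset.2 hx
  have hlD : l.toFinset = D \ Z := by
    ext x
    simp only [hl, List.toFinset_filter, mem_filter, List.toFinset_append, hsys.order,
      toList_toFinset, mem_union, mem_sdiff, decide_eq_true_eq]
    constructor
    · rintro ⟨hx | hx, hxZ⟩
      exacts [⟨hUD hx, hxZ⟩, ⟨hx.1, hxZ⟩]
    · rintro ⟨hx, hxZ⟩
      exact ⟨(em (x ∈ U)).imp id fun h => ⟨hx, h⟩, hxZ⟩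
  have hcard : #(D \ Z) = #D - z := by
    rw [card_sdiff_of_subset (hZ.trans sdiff_subset), hZc]
  have hlen : l.length = #D - z := by
    rw [← hcard, ← hlD, List.toFinset_card_of_nodup (hl0.filter _)]
  have hX : ∀ x ∈ Ls'.flatMap lmid, x ∉ D \ Z := fun x hx hx' =>
    hWD x (h'.midSub x hx) (mem_sdiff.1 hx').1
  have hcyc := cycle_of_order (G := G) (D \ Z) Ls' l (hl0.filter _) hlD (by omega) ?_ ?_ h'.pn h'.chain
    h'.midNodup hX
  · have htot' : (Ls'.flatMap lmid).length = t + z := by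
      rw [List.length_flatMap, (hperm.map fun L => (lmid L).length).sum_eq, sum_map_toList]
      exact htot
    rw [htot', hcard] at hcyc
    rwa [show #D - z + (t + z) = m by omega] at hcyc
  · intro L hL
    refine mem_cpairs_of_epairs ?_
    have hLS : L ∈ S := mem_toList.1 (hperm.mem_iff.1 hL)
    have hnot : ∀ x, x = L.1 ∨ x = L.2.2 → decide (x ∉ Z) = true := fun x hx => by
      rw [decide_eq_true_eq]
      exact fun hxZ => (mem_sdiff.1 (hZ hxZ)).2 (mem_endsF.2 ⟨L, hLS, hx⟩)
    exact epairs_filter _ (mem_epairs_append_left (hsys.mem L (hS L hLS)))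
      (hnot _ (Or.inl rfl)) (hnot _ (Or.inr rfl))
  · intro p hp
    right
    induction p using Sym2.inductionOn with
    | _ x y =>
      have hne := cpairs_not_diag (hl0.filter _) (by rw [hlen]; omega) hp
      have hx := mem_of_mem_cpairs hp (Sym2.mem_mk_left x y)
      have hy := mem_of_mem_cpairs hp (Sym2.mem_mk_right x y)
      rw [← List.mem_toFinset, hlD, mem_sdiff] at hx hy
      exact (SimpleGraph.mem_edgeSet G).2 (hclq x hx.1 y hy.1 hne)

omit [DecidableEq V] in
theorem exists_first {l : List V} {P : V → Prop} (h : ∃ x ∈ l, P x) :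
    ∃ i, ∃ hi : i < l.length, P l[i] ∧ ∀ j (hj : j < l.length), P l[j] → i ≤ j := by
  classical
  obtain ⟨x, hx, hPx⟩ := h
  obtain ⟨k, hk, rfl⟩ := List.getElem_of_mem hx
  have hex : ∃ i, ∃ hi : i < l.length, P l[i] := ⟨k, hk, hPx⟩
  obtain ⟨hi, hP⟩ := Nat.find_spec hex
  exact ⟨_, hi, hP, fun j hj hPj => Nat.find_le ⟨hj, hPj⟩⟩

/-- Some end of a set of links from one system is the end of only one of them. -/
theorem exists_leaf {U W : Finset V} {Ls : List (Link V)} {l₀ : List V}
    (hsys : LinksIn G U W Ls l₀) {S : Finset (Link V)} (hS : ∀ L ∈ S, L ∈ Ls) (hne : S.Nonempty) :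
    ∃ A ∈ S, ∃ x ∈ endsF {A}, x ∉ endsF (S.erase A) := by
  classical
  obtain ⟨L₀, hL₀⟩ := hne
  have hex : ∃ x ∈ l₀, x ∈ endsF S := ⟨L₀.1,
    List.mem_toFinset.1 (hsys.order ▸ (hsys.ends (hS L₀ hL₀)).1),
    mem_endsF.2 ⟨L₀, hL₀, Or.inl rfl⟩⟩
  obtain ⟨i, hi, hend, hmin⟩ := exists_first hex
  obtain ⟨A, hA, hAx⟩ := mem_endsF.1 hend
  refine ⟨A, hA, l₀[i], mem_endsF.2 ⟨A, mem_singleton_self A, hAx⟩, fun hx => ?_⟩
  obtain ⟨B, hB, hBx⟩ := mem_endsF.1 hx
  obtain ⟨hBA, hBS⟩ := mem_erase.1 hB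
  have key : ∀ C ∈ S, l₀[i] = C.1 ∨ l₀[i] = C.2.2 →
      ∃ h : i + 1 < l₀.length, pair C = s(l₀[i], l₀[i + 1]) := by
    intro C hC hCx
    obtain ⟨j, hj, hje⟩ := mem_epairs_iff.1 (hsys.mem C (hS C hC))
    have hmem : l₀[i] ∈ pair C := by
      rcases hCx with h | h <;> simp [pair, h]
    rw [hje] at hmem
    have hji : i ≤ j := hmin j (by omega) (mem_endsF.2 ⟨C, hC, by
      have := (show l₀[j] ∈ pair C by rw [hje]; simp)
      simpa [pair] using this⟩)
    rcases Sym2.mem_iff.1 hmem with h | h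
    · obtain rfl := (hsys.nd.getElem_inj_iff).1 h
      exact ⟨hj, hje⟩
    · have := (hsys.nd.getElem_inj_iff).1 h
      omega
  obtain ⟨_, h1⟩ := key A hA hAx
  obtain ⟨_, h2⟩ := key B hBS hBx
  exact hBA (List.inj_on_of_nodup_map hsys.pn (hS B hBS) (hS A hA) (h2.trans h1.symm))

/-- Links with a prescribed partial order of `U`. -/
theorem linksIn_of_pre {U W : Finset V} (pre : List V) (Ls : List (Link V)) (hpre : pre.Nodup)
    (hsub : ∀ x ∈ pre, x ∈ U) (hmem : ∀ L ∈ Ls, pair L ∈ epairs pre)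
    (hpn : (Ls.map pair).Nodup) (hch : ∀ L ∈ Ls, (L.1 :: (lmid L ++ [L.2.2])).IsChain G.Adj)
    (hX : (Ls.flatMap lmid).Nodup) (hXW : ∀ x ∈ Ls.flatMap lmid, x ∈ W) :
    LinksIn G U W Ls (pre ++ (U \ pre.toFinset).toList) := by
  refine ⟨?_, ?_, fun L hL => mem_epairs_append_left (hmem L hL), hpn, hch, hX, hXW⟩
  · rw [List.nodup_append']
    exact ⟨hpre, nodup_toList _, fun x hx hx' =>
      (mem_sdiff.1 (mem_toList.1 hx')).2 (List.mem_toFinset.2 hx)⟩
  · rw [List.toFinset_append, toList_toFinset]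
    exact union_sdiff_of_subset fun x hx => hsub x (List.mem_toFinset.1 hx)

/-- Two distinct pairs lie on one order. -/
theorem pre_two {a b c e : V} (hab : a ≠ b) (hce : c ≠ e) (hne : s(c, e) ≠ s(a, b)) :
    ∃ pre : List V, pre.Nodup ∧ (∀ x ∈ pre, x = a ∨ x = b ∨ x = c ∨ x = e) ∧
      s(a, b) ∈ epairs pre ∧ s(c, e) ∈ epairs pre := by
  rw [Ne, Sym2.eq_iff] at hne
  push Not at hne
  by_cases hca : c = a
  · exact ⟨[b, a, e], by subst hca; simp [hab.symm, hce, Ne.symm (hne.1 rfl)],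
      by subst hca; simp, by simp [epairs, Sym2.eq_swap], by subst hca; simp [epairs]⟩
  by_cases hcb : c = b
  · exact ⟨[a, b, e], by subst hcb; simp [hab, hce, Ne.symm (hne.2 rfl)],
      by subst hcb; simp, by simp [epairs], by subst hcb; simp [epairs]⟩
  by_cases hea : e = a
  · exact ⟨[b, a, c], by subst hea; simp [hab.symm, hce.symm, Ne.symm hcb],
      by subst hea; simp, by simp [epairs, Sym2.eq_swap], by subst hea; simp [epairs, Sym2.eq_swap]⟩
  by_cases heb : e = b
  · exact ⟨[a, b, c], by subst heb; simp [hab, hce.symm, Ne.symm hca],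
      by subst heb; simp, by simp [epairs], by subst heb; simp [epairs, Sym2.eq_swap]⟩
  exact ⟨[a, b, c, e], by simp [hab, hce, Ne.symm hca, Ne.symm hcb, Ne.symm hea, Ne.symm heb],
    by simp, by simp [epairs], by simp [epairs]⟩

/-- Two disjoint pairs and one more pair at a further vertex lie on one order. -/
theorem pre_three {a b c e o v : V} (h : [a, b, c, e, o].Nodup) (hv : v ≠ o) :
    ∃ pre : List V, pre.Nodup ∧
      (∀ x ∈ pre, x = a ∨ x = b ∨ x = c ∨ x = e ∨ x = o ∨ x = v) ∧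
      s(a, b) ∈ epairs pre ∧ s(c, e) ∈ epairs pre ∧ s(o, v) ∈ epairs pre := by
  simp only [List.nodup_cons, List.mem_cons, List.not_mem_nil, or_false, not_or,
    List.nodup_nil, and_true, not_false_iff] at h
  obtain ⟨⟨hab, hac, hae, hao⟩, ⟨hbc, hbe, hbo⟩, ⟨hce, hco⟩, heo⟩ := h
  by_cases h1 : v = a
  · subst h1
    refine ⟨[o, v, b, c, e], ?_, ?_, ?_, ?_, ?_⟩
    · simp [hab, hac, hae, hbc, hbe, hce, Ne.symm hao, Ne.symm hbo, Ne.symm hco, Ne.symm heo]
    all_goals simp [epairs]
  by_cases h2 : v = b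
  · subst h2
    refine ⟨[o, v, a, c, e], ?_, ?_, ?_, ?_, ?_⟩
    · simp [Ne.symm hab, hac, hae, hbc, hbe, hce, Ne.symm hao, Ne.symm hbo, Ne.symm hco,
        Ne.symm heo]
    all_goals simp [epairs, Sym2.eq_swap]
  by_cases h3 : v = c
  · subst h3
    refine ⟨[a, b, o, v, e], ?_, ?_, ?_, ?_, ?_⟩
    · simp [hab, hac, hae, hao, hbc, hbe, hbo, hce, Ne.symm hco, Ne.symm heo]
    all_goals simp [epairs]
  by_cases h4 : v = e
  · subst h4
    refine ⟨[a, b, o, v, c], ?_, ?_, ?_, ?_, ?_⟩
    · simp [hab, hac, hae, hao, hbc, hbe, hbo, Ne.symm hce, Ne.symm hco, Ne.symm heo]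
    all_goals simp [epairs, Sym2.eq_swap]
  refine ⟨[a, b, c, e, o, v], ?_, ?_, ?_, ?_, ?_⟩
  · simp [hab, hac, hae, hao, hbc, hbe, hbo, hce, hco, heo, Ne.symm h1, Ne.symm h2, Ne.symm h3,
      Ne.symm h4, hv.symm]
  all_goals simp [epairs]

/-- A single link closes up. -/
theorem close_one {U W D : Finset V} {Ls : List (Link V)} {l₀ : List V}
    (hsys : LinksIn G U W Ls l₀) (hUD : U ⊆ D) (hWD : ∀ x ∈ W, x ∉ D)
    (hclq : ∀ x ∈ D, ∀ y ∈ D, x ≠ y → G.Adj x y) (hnb : ∀ w ∈ W, ∃ u ∈ U, G.Adj u w)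
    {L : Link V} (hL : L ∈ Ls) {t m : ℕ} (ht : 1 ≤ t) (hLt : t ≤ (lmid L).length)
    (hm : m = #D + t) (h4 : 4 ≤ #D) : Close.HasCycle G m := by
  obtain ⟨x, Q, y⟩ := L
  obtain ⟨hx, hy, hxy⟩ := hsys.ends hL
  have hQnd : Q.Nodup := hsys.midNodup.sublist (by
    simpa [lmid] using (List.singleton_sublist.2 hL).flatMap lmid)
  have hQW : ∀ w ∈ Q, w ∈ W := fun w hw => hsys.midSub w (List.mem_flatMap.2 ⟨_, hL, hw⟩)
  obtain ⟨x', y', Q', g1, -, g2, g3, g4, g5, g6, g7⟩ := exists_single (F := s(x, x)) ht hnb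
    Q.length x y Q rfl hLt hxy (by simp [hxy.symm]) hx hy (hsys.chain _ hL) hQnd hQW
  have hnew := linksIn_of_pre (G := G) (U := U) (W := W) [x', y'] [(x', Q', y')] (by simp [g1])
    (by simp [g2, g3]) (by simp [pair, epairs]) (by simp) (by simpa [lmid] using g4)
    (by simpa [lmid] using g5.nodup hQnd) (by simpa [lmid] using fun w hw => hQW w (g5.subset hw))
  have hend := card_endsF ({(x', Q', y')} : Finset (Link V))
  rw [card_singleton] at hend
  refine close hnew hUD hWD hclq (S := {(x', Q', y')}) (t := t) (z := Q'.length - t) (by simp)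
    ?_ hm (by omega) (by omega)
  simp [tot, lmid]
  omega

/-- Two links, one of them of length `t - 1`, close up. -/
theorem close_two {U W D : Finset V} {Ls : List (Link V)} {l₀ : List V}
    (hsys : LinksIn G U W Ls l₀) (hUD : U ⊆ D) (hWD : ∀ x ∈ W, x ∉ D)
    (hclq : ∀ x ∈ D, ∀ y ∈ D, x ≠ y → G.Adj x y) (hnb : ∀ w ∈ W, ∃ u ∈ U, G.Adj u w)
    {L₁ L₂ : Link V} (h1 : L₁ ∈ Ls) (h2 : L₂ ∈ Ls) (hne : L₁ ≠ L₂) {t m : ℕ}
    (hL1 : (lmid L₁).length + 1 = t) (hL2 : 1 ≤ (lmid L₂).length)
    (hm : m = #D + t) (h5 : 5 ≤ #D) : Close.HasCycle G m := by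
  obtain ⟨a, P, b⟩ := L₁
  obtain ⟨x, Q, y⟩ := L₂
  obtain ⟨ha, hb, hab⟩ := hsys.ends h1
  obtain ⟨hx, hy, hxy⟩ := hsys.ends h2
  have hF : s(x, y) ≠ s(a, b) := fun h =>
    hne (List.inj_on_of_nodup_map hsys.pn h1 h2 h.symm)
  have hsub : ∀ L ∈ Ls, (lmid L).Sublist (Ls.flatMap lmid) := fun L hL => by
    simpa using (List.singleton_sublist.2 hL).flatMap lmid
  have hPnd : P.Nodup := hsys.midNodup.sublist (hsub _ h1)
  have hQnd : Q.Nodup := hsys.midNodup.sublist (hsub _ h2)
  have hdisj : List.Disjoint P Q :=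
    hsys.disjoint h1 h2 hne
  have hQW : ∀ w ∈ Q, w ∈ W := fun w hw => hsys.midSub w (List.mem_flatMap.2 ⟨_, h2, hw⟩)
  have hPW : ∀ w ∈ P, w ∈ W := fun w hw => hsys.midSub w (List.mem_flatMap.2 ⟨_, h1, hw⟩)
  obtain ⟨x', y', Q', g1, gF, g2, g3, g4, g5, g6, g7⟩ := exists_single (F := s(a, b)) le_rfl hnb
    Q.length x y Q rfl hL2 hxy hF hx hy (hsys.chain _ h2) hQnd hQW
  obtain ⟨pre, p1, p2, p3, p4⟩ := pre_two hab g1 gF
  have hnew := linksIn_of_pre (G := G) (U := U) (W := W) pre [(a, P, b), (x', Q', y')] p1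
    (fun z hz => by rcases p2 z hz with rfl | rfl | rfl | rfl <;> assumption)
    (by simp [pair, p3, p4]) (by simp [pair, Ne.symm gF])
    (by simpa [lmid] using ⟨hsys.chain _ h1, g4⟩)
    (by
      simp only [lmid, List.flatMap_cons, List.flatMap_nil, List.append_nil]
      rw [List.nodup_append']
      exact ⟨hPnd, g5.nodup hQnd, fun w hw hw' => hdisj hw (g5.subset hw')⟩)
    (by
      simp only [lmid, List.flatMap_cons, List.flatMap_nil, List.append_nil, List.mem_append]
      rintro w (hw | hw)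
      exacts [hPW w hw, hQW w (g5.subset hw)])
  have hne' : (a, P, b) ≠ (x', Q', y') := fun h => gF (by
    simp only [Prod.mk.injEq] at h
    rw [h.1, h.2.2])
  have hend := card_endsF ({(a, P, b), (x', Q', y')} : Finset (Link V))
  rw [card_pair hne'] at hend
  refine close hnew hUD hWD hclq (S := {(a, P, b), (x', Q', y')}) (t := t) (z := Q'.length - 1)
    (by simp) ?_ hm (by omega) (by omega)
  simp only [tot, sum_pair hne']
  simp only [lmid] at hL1 ⊢
  omega

/-- Three disjoint links of three vertices on seven clique vertices close up. -/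
theorem close_three {U W D : Finset V} {Ls : List (Link V)} {l₀ : List V}
    (hsys : LinksIn G U W Ls l₀) (hUD : U ⊆ D) (hWD : ∀ x ∈ W, x ∉ D)
    (hclq : ∀ x ∈ D, ∀ y ∈ D, x ≠ y → G.Adj x y) (hnb : ∀ w ∈ W, ∃ u ∈ U, G.Adj u w)
    {A B C : Link V} (hA : A ∈ Ls) (hB : B ∈ Ls) (hC : C ∈ Ls)
    (hnd : [A.1, A.2.2, B.1, B.2.2, C.1, C.2.2].Nodup)
    (lA : (lmid A).length = 3) (lB : (lmid B).length = 3) (lC : (lmid C).length = 3) {m : ℕ}
    (hD : #D = 7) (hm : m = #D + 7) : Close.HasCycle G m := by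
  obtain ⟨a, P, b⟩ := A
  obtain ⟨c, R, e⟩ := B
  obtain ⟨x, Q, y⟩ := C
  simp only [List.nodup_cons, List.mem_cons, List.not_mem_nil, or_false, not_or,
    List.nodup_nil, and_true, not_false_iff] at hnd
  obtain ⟨⟨hab, hac, hae, hax, hay⟩, ⟨hbc, hbe, hbx, hby⟩, ⟨hce, hcx, hcy⟩, ⟨hex, hey⟩, hxy⟩ := hnd
  have hU : ∀ z, z = a ∨ z = b ∨ z = c ∨ z = e ∨ z = x ∨ z = y → z ∈ U := by
    rintro z (rfl | rfl | rfl | rfl | rfl | rfl)
    exacts [(hsys.ends hA).1, (hsys.ends hA).2.1, (hsys.ends hB).1, (hsys.ends hB).2.1,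
      (hsys.ends hC).1, (hsys.ends hC).2.1]
  have hsub : ∀ L ∈ Ls, (lmid L).Sublist (Ls.flatMap lmid) := fun L hL => by
    simpa using (List.singleton_sublist.2 hL).flatMap lmid
  have hPnd : P.Nodup := hsys.midNodup.sublist (hsub _ hA)
  have hRnd : R.Nodup := hsys.midNodup.sublist (hsub _ hB)
  have hQnd : Q.Nodup := hsys.midNodup.sublist (hsub _ hC)
  have hPR : List.Disjoint P R := hsys.disjoint hA hB
    (fun h => hac (by simp at h; exact h.1))
  have hPQ : List.Disjoint P Q := hsys.disjoint hA hC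
    (fun h => hax (by simp at h; exact h.1))
  have hRQ : List.Disjoint R Q := hsys.disjoint hB hC
    (fun h => hcx (by simp at h; exact h.1))
  have hW : ∀ L ∈ Ls, ∀ w ∈ lmid L, w ∈ W := fun L hL w hw =>
    hsys.midSub w (List.mem_flatMap.2 ⟨L, hL, hw⟩)
  obtain ⟨x', y', Q', g1, g2, g3, g4, g5, g6, g7, gF, gend⟩ := shorten (F := s(a, b))
    (by simp [Ne.symm hax, Ne.symm hbx]) (show 3 ≤ Q.length from lC.ge) hxy
    (hU x (by simp)) (hU y (by simp)) (hsys.chain _ hC) hQnd (hW _ hC) hnb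
  have gend' := gend (by simp [Ne.symm hax, Ne.symm hbx]) (by simp [Ne.symm hay, Ne.symm hby])
  -- an end `o` of the new link among `x, y`, and its partner `v`
  obtain ⟨o, v, hov, hpair, ho⟩ : ∃ o v, v ≠ o ∧ s(x', y') = s(o, v) ∧ (o = x ∨ o = y) := by
    rcases gend' with h | h <;> rcases Sym2.mem_iff.1 h with h | h
    · exact ⟨x', y', g1.symm, rfl, Or.inl h.symm⟩
    · exact ⟨y', x', g1, Sym2.eq_swap, Or.inl h.symm⟩
    · exact ⟨x', y', g1.symm, rfl, Or.inr h.symm⟩
    · exact ⟨y', x', g1, Sym2.eq_swap, Or.inr h.symm⟩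
  have hnd5 : [a, b, c, e, o].Nodup := by
    rcases ho with rfl | rfl <;>
      simp [hab, hac, hae, hax, hay, hbc, hbe, hbx, hby, hce, hcx, hcy, hex, hey]
  obtain ⟨pre, p1, p2, p3, p4, p5⟩ := pre_three hnd5 hov
  have hovU : o ∈ U ∧ v ∈ U := by
    rcases Sym2.eq_iff.1 hpair with ⟨rfl, rfl⟩ | ⟨rfl, rfl⟩
    exacts [⟨g2, g3⟩, ⟨g3, g2⟩]
  have hne2 : s(c, e) ≠ s(x', y') := by
    rw [hpair, Ne, Sym2.eq_iff]
    rcases ho with rfl | rfl
    · rintro (⟨h, -⟩ | ⟨-, h⟩)
      exacts [hcx h, hex h]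
    · rintro (⟨h, -⟩ | ⟨-, h⟩)
      exacts [hcy h, hey h]
  have hnew := linksIn_of_pre (G := G) (U := U) (W := W) pre [(a, P, b), (c, R, e), (x', Q', y')] p1
    (fun z hz => by
      rcases p2 z hz with h | h | h | h | h | h
      exacts [hU z (by simp [h]), hU z (by simp [h]), hU z (by simp [h]), hU z (by simp [h]),
        h ▸ hovU.1, h ▸ hovU.2])
    (by simp [pair, p3, p4, hpair, p5])
    (by simp [pair, Ne.symm gF, hne2, hac, hae])
    (by simpa [lmid] using ⟨hsys.chain _ hA, hsys.chain _ hB, g4⟩)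
    (by
      simp only [lmid, List.flatMap_cons, List.flatMap_nil, List.append_nil]
      rw [List.nodup_append', List.nodup_append']
      refine ⟨hPnd, ⟨hRnd, g5.nodup hQnd, fun w hw hw' => hRQ hw (g5.subset hw')⟩, fun w hw hw' => ?_⟩
      rcases List.mem_append.1 hw' with h | h
      exacts [hPR hw h, hPQ hw (g5.subset h)])
    (by
      simp only [lmid, List.flatMap_cons, List.flatMap_nil, List.append_nil, List.mem_append]
      rintro w (hw | hw | hw)
      exacts [hW _ hA w hw, hW _ hB w hw, hW _ hC w (g5.subset hw)])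
  have n1 : (a, P, b) ∉ ({(c, R, e), (x', Q', y')} : Finset (Link V)) := by
    simp only [mem_insert, mem_singleton, Prod.mk.injEq, not_or]
    exact ⟨fun h => hac h.1, fun h => gF (by rw [h.1, h.2.2])⟩
  have n2 : (c, R, e) ≠ (x', Q', y') := fun h => hne2 (by
    simp only [Prod.mk.injEq] at h
    rw [h.1, h.2.2])
  have hend := card_endsF ({(a, P, b), (c, R, e), (x', Q', y')} : Finset (Link V))
  rw [card_insert_of_notMem n1, card_pair n2] at hend
  simp only [lmid] at lA lB lC
  refine close hnew hUD hWD hclq (S := {(a, P, b), (c, R, e), (x', Q', y')}) (t := 7)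
    (z := Q'.length - 1) (by simp) ?_ hm (by omega) (by omega)
  simp only [tot, sum_insert n1, sum_pair n2, lmid]
  omega

theorem endsF_union (S T : Finset (Link V)) : endsF (S ∪ T) = endsF S ∪ endsF T := by
  simp [endsF, union_biUnion]

/-- A base plus `a` links of length two. -/
theorem exists_pick {S K : Finset (Link V)} (hS : ∀ L ∈ S, (lmid L).length = 2)
    (hdis : Disjoint K S) {a : ℕ} (ha : a ≤ #S) :
    ∃ S' : Finset (Link V), S' ⊆ K ∪ S ∧ tot S' = tot K + 2 * a ∧
      #(endsF S') ≤ 2 * (#K + a) := by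
  obtain ⟨T, hT, hTc⟩ := exists_subset_card_eq ha
  have hd : Disjoint K T := hdis.mono_right hT
  refine ⟨K ∪ T, union_subset_union_right hT, ?_, ?_⟩
  · rw [tot, sum_union hd, sum_congr rfl (fun L hL => hS L (hT hL)), sum_const, hTc, smul_eq_mul,
      tot]
    omega
  · refine (card_endsF _).trans ?_
    rw [card_union_of_disjoint hd, hTc]

/-- A link of three vertices gives one of two vertices with other ends, avoiding one pair. -/
theorem shorten_three {U W : Finset V} {x y : V} {Q : List V} {F : Sym2 V} (hF : s(x, y) ≠ F)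
    (hQ3 : Q.length = 3) (hxy : x ≠ y) (hx : x ∈ U) (hy : y ∈ U)
    (hQ : (x :: (Q ++ [y])).IsChain G.Adj) (hW : ∀ w ∈ Q, w ∈ W)
    (hnb : ∀ w ∈ W, ∃ u ∈ U, G.Adj u w) :
    ∃ x' y' Q', x' ≠ y' ∧ s(x', y') ≠ F ∧ x' ∈ U ∧ y' ∈ U ∧
      (x' :: (Q' ++ [y'])).IsChain G.Adj ∧ List.Sublist Q' Q ∧ Q'.length = 2 := by
  obtain ⟨a, b, c, rfl⟩ := List.length_eq_three.1 hQ3
  simp only [List.cons_append, List.nil_append, List.isChain_cons_cons,
    List.isChain_singleton, and_true] at hQ
  obtain ⟨hxa, hab, hbc, hcy⟩ := hQ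
  obtain ⟨u, hu, hub⟩ := hnb b (hW b (by simp))
  by_cases h : u ≠ y ∧ s(u, y) ≠ F
  · exact ⟨u, y, [b, c], h.1, h.2, hu, hy, by simp [hub, hbc, hcy],
      List.sublist_cons_self a [b, c], rfl⟩
  simp only [not_and_or, not_not] at h
  refine ⟨x, u, [a, b], ?_, ?_, hx, hu, by simp [hxa, hab, hub.symm],
    (List.sublist_append_left [a, b] [c]), rfl⟩
  · rintro rfl
    exact h.elim hxy hF
  · rcases h with rfl | h
    · exact hF
    · intro h'
      rcases Sym2.eq_iff.1 (h'.trans h.symm) with ⟨h1, h2⟩ | ⟨h1, -⟩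
      · exact hxy (h1.trans h2)
      · exact hxy h1

/-- The case of a clique of four vertices: two links of at most three vertices. -/
theorem close_four {U W D : Finset V} {Ls : List (Link V)} {l₀ : List V}
    (hsys : LinksIn G U W Ls l₀) (hUD : U ⊆ D) (hWD : ∀ x ∈ W, x ∉ D)
    (hclq : ∀ x ∈ D, ∀ y ∈ D, x ≠ y → G.Adj x y) (hnb : ∀ w ∈ W, ∃ u ∈ U, G.Adj u w)
    {L₁ L₂ : Link V} (h1 : L₁ ∈ Ls) (h2 : L₂ ∈ Ls) (hne : L₁ ≠ L₂)
    (l1 : (lmid L₁).length = 3) (l2 : 2 ≤ (lmid L₂).length) (l2' : (lmid L₂).length ≤ 3) {m : ℕ}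
    (hm : m = #D + 4) (hD : #D = 4) : Close.HasCycle G m := by
  obtain ⟨a, P, b⟩ := L₁
  obtain ⟨x, Q, y⟩ := L₂
  obtain ⟨ha, hb, hab⟩ := hsys.ends h1
  obtain ⟨hx, hy, hxy⟩ := hsys.ends h2
  have hW : ∀ L ∈ Ls, ∀ w ∈ lmid L, w ∈ W := fun L hL w hw =>
    hsys.midSub w (List.mem_flatMap.2 ⟨L, hL, hw⟩)
  have hsub : ∀ L ∈ Ls, (lmid L).Sublist (Ls.flatMap lmid) := fun L hL => by
    simpa using (List.singleton_sublist.2 hL).flatMap lmid
  have hPnd : P.Nodup := hsys.midNodup.sublist (hsub _ h1)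
  have hQnd : Q.Nodup := hsys.midNodup.sublist (hsub _ h2)
  have hdisj : List.Disjoint P Q := hsys.disjoint h1 h2 hne
  have hF : s(a, b) ≠ s(x, y) := fun h => hne (List.inj_on_of_nodup_map hsys.pn h1 h2 h)
  obtain ⟨a', b', P', g1, gF, g2, g3, g4, g5, g6⟩ := shorten_three hF l1 hab ha hb
    (hsys.chain _ h1) (hW _ h1) hnb
  obtain ⟨x', y', Q', e1, eF, e2, e3, e4, e5, e6⟩ : ∃ x' y' Q', x' ≠ y' ∧ s(x', y') ≠ s(a', b') ∧
      x' ∈ U ∧ y' ∈ U ∧ (x' :: (Q' ++ [y'])).IsChain G.Adj ∧ List.Sublist Q' Q ∧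
        Q'.length = 2 := by
    rcases (show Q.length = 2 ∨ Q.length = 3 by simp only [lmid] at l2 l2'; omega) with h | h
    · exact ⟨x, y, Q, hxy, gF.symm, hx, hy, hsys.chain _ h2, List.Sublist.refl _, h⟩
    · exact shorten_three gF.symm h hxy hx hy (hsys.chain _ h2) (hW _ h2) hnb
  obtain ⟨pre, p1, p2, p3, p4⟩ := pre_two g1 e1 eF
  have hnew := linksIn_of_pre (G := G) (U := U) (W := W) pre [(a', P', b'), (x', Q', y')] p1
    (fun z hz => by rcases p2 z hz with rfl | rfl | rfl | rfl <;> assumption)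
    (by simp [pair, p3, p4]) (by simp [pair, Ne.symm eF])
    (by simpa [lmid] using ⟨g4, e4⟩)
    (by
      simp only [lmid, List.flatMap_cons, List.flatMap_nil, List.append_nil]
      rw [List.nodup_append']
      exact ⟨g5.nodup hPnd, e5.nodup hQnd, fun w hw hw' => hdisj (g5.subset hw) (e5.subset hw')⟩)
    (by
      simp only [lmid, List.flatMap_cons, List.flatMap_nil, List.append_nil, List.mem_append]
      rintro w (hw | hw)
      exacts [hW _ h1 w (g5.subset hw), hW _ h2 w (e5.subset hw)])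
  have hne' : (a', P', b') ≠ (x', Q', y') := fun h => eF (by
    simp only [Prod.mk.injEq] at h
    rw [h.1, h.2.2])
  have hend := card_endsF ({(a', P', b'), (x', Q', y')} : Finset (Link V))
  rw [card_pair hne'] at hend
  refine close hnew hUD hWD hclq (S := {(a', P', b'), (x', Q', y')}) (t := 4) (z := 0)
    (by simp) ?_ hm (by omega) (by omega)
  simp only [tot, sum_pair hne', lmid]
  omega

/-- Two given links close up. -/
theorem close_pair {U W D : Finset V} (hUD : U ⊆ D) (hWD : ∀ x ∈ W, x ∉ D)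
    (hclq : ∀ x ∈ D, ∀ y ∈ D, x ≠ y → G.Adj x y) {a b c e : V} {P R : List V}
    (ha : a ∈ U) (hb : b ∈ U) (hc : c ∈ U) (he : e ∈ U) (hab : a ≠ b) (hce : c ≠ e)
    (hne : s(c, e) ≠ s(a, b)) (hP : (a :: (P ++ [b])).IsChain G.Adj)
    (hR : (c :: (R ++ [e])).IsChain G.Adj) (hnd : (P ++ R).Nodup) (hW : ∀ w ∈ P ++ R, w ∈ W)
    {t z m : ℕ} (htot : P.length + R.length = t + z) (hm : m = #D + t)
    (hfree : #({a, b, c, e} : Finset V) + z ≤ #D) (h3 : z + 3 ≤ #D) : Close.HasCycle G m := by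
  obtain ⟨pre, p1, p2, p3, p4⟩ := pre_two hab hce hne
  have hnew := linksIn_of_pre (G := G) (U := U) (W := W) pre [(a, P, b), (c, R, e)] p1
    (fun z hz => by rcases p2 z hz with rfl | rfl | rfl | rfl <;> assumption)
    (by simp [pair, p3, p4]) (by simp [pair, Ne.symm hne]) (by simpa [lmid] using ⟨hP, hR⟩)
    (by simpa [lmid] using hnd) (by simpa [lmid] using hW)
  have hne' : (a, P, b) ≠ (c, R, e) := fun h => hne (by
    simp only [Prod.mk.injEq] at h
    rw [h.1, h.2.2])
  have hend : #(endsF ({(a, P, b), (c, R, e)} : Finset (Link V))) ≤ #({a, b, c, e} : Finset V) := by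
    refine card_le_card fun y hy => ?_
    obtain ⟨L, hL, hLy⟩ := mem_endsF.1 hy
    simp only [mem_insert, mem_singleton] at hL ⊢
    rcases hL with rfl | rfl <;> rcases hLy with rfl | rfl <;> simp
  refine close hnew hUD hWD hclq (S := {(a, P, b), (c, R, e)}) (t := t) (z := z)
    (by simp) ?_ hm (by omega) h3
  simp only [tot, sum_pair hne', lmid]
  omega

theorem card_le_three {a b c e : V} (h : a = c ∨ a = e ∨ b = c ∨ b = e) :
    #({a, b, c, e} : Finset V) ≤ 3 := by
  have hsub : ({a, b, c, e} : Finset V) ⊆ {a, b, e} ∨ ({a, b, c, e} : Finset V) ⊆ {a, b, c} := by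
    rcases h with rfl | rfl | rfl | rfl
    · left; simp [insert_subset_iff]
    · right; simp [insert_subset_iff]
    · left; simp
    · right; simp [insert_subset_iff]
  rcases hsub with h | h <;> exact (card_le_card h).trans card_le_three'
where
  card_le_three' {a b c : V} : #({a, b, c} : Finset V) ≤ 3 :=
    (card_insert_le _ _).trans (Nat.add_le_add_right card_le_two 1)

/-- Two links of two vertices with four different ends on a clique of four vertices, every row
having three neighbours in `W`. -/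
theorem close_seven [DecidableRel G.Adj] {U W D : Finset V} (hUD : U ⊆ D)
    (hWD : ∀ x ∈ W, x ∉ D) (hclq : ∀ x ∈ D, ∀ y ∈ D, x ≠ y → G.Adj x y)
    (hrow : ∀ u ∈ U, 3 ≤ #(W.filter (G.Adj u)))
    (hα : ∀ I ⊆ W, (∀ x ∈ I, ∀ y ∈ I, ¬ G.Adj x y) → #I < #U)
    {x y u v a b c e : V} (hnd : [x, y, u, v].Nodup)
    (hx : x ∈ U) (hy : y ∈ U) (hu : u ∈ U) (hv : v ∈ U)
    (h1 : [x, a, b, y].IsChain G.Adj) (h2 : [u, c, e, v].IsChain G.Adj)
    (hmid : [a, b, c, e].Nodup) (hW : ∀ w ∈ [a, b, c, e], w ∈ W)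
    {m : ℕ} (hD : #D = 4) (hm : m = #D + 3) : Close.HasCycle G m := by
  by_contra hno
  simp only [List.nodup_cons, List.mem_cons, List.not_mem_nil, or_false, not_or,
    List.nodup_nil, and_true, not_false_iff] at hnd hmid
  obtain ⟨⟨hxy, hxu, hxv⟩, ⟨hyu, hyv⟩, huv⟩ := hnd
  obtain ⟨⟨hab, hac, hae⟩, ⟨hbc, hbe⟩, hce⟩ := hmid
  simp only [List.isChain_cons_cons, List.isChain_singleton, and_true] at h1 h2
  have h4 : ∀ p q r s : V, p ∈ U → q ∈ U → r ∈ U → s ∈ U → #({p, q, r, s} : Finset V) ≤ #D :=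
    fun p q r s hp hq hr hs => card_le_card (by
      simp only [insert_subset_iff, singleton_subset_iff]
      exact ⟨hUD hp, hUD hq, hUD hr, hUD hs⟩)
  have hWa := hW a (by simp)
  have hWb := hW b (by simp)
  have hWc := hW c (by simp)
  have hWe := hW e (by simp)
  -- a cherry and either link close up
  have priv : ∀ w ∈ W, ∀ p ∈ U, ∀ q ∈ U, G.Adj p w → G.Adj q w → p = q := by
    intro w hw p hp q hq hpw hqw
    by_contra hpq
    have key : ∀ x' y' a' b' : V, x' ∈ U → y' ∈ U → x' ≠ y' → a' ∈ W → b' ∈ W → a' ≠ b' →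
        [x', a', b', y'].IsChain G.Adj → w ≠ a' → w ≠ b' → s(x', y') ≠ s(p, q) → False := by
      intro x' y' a' b' hx' hy' hne' ha' hb' hab' hch hwa hwb hpair
      exact hno (close_pair hUD hWD hclq (a := p) (b := q) (P := [w]) (R := [a', b']) hp hq hx' hy'
        hpq hne' hpair (by simp [hpw, hqw.symm]) (by simpa using hch)
        (by simp [hwa, hwb, hab']) (by simp [hw, ha', hb']) (t := 3) (z := 0) (by simp)
        hm (by simpa using h4 p q x' y' hp hq hx' hy') (by omega))
    have k1 := key x y a b hx hy hxy hWa hWb hab (by simp [h1])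
    have k2 := key u v c e hu hv huv hWc hWe hce (by simp [h2])
    by_cases hin : w = a ∨ w = b
    · refine k2 (by rcases hin with rfl | rfl <;> assumption) (by rcases hin with rfl | rfl <;> assumption)
        fun h => ?_
      rcases hin with rfl | rfl
      · have hk : ∀ r ∈ U, r ≠ x → G.Adj r w → False := fun r hr hrx hrw => by
          refine hno (close_pair hUD hWD hclq (a := x) (b := r) (P := [w]) (R := [c, e]) hx hr hu hv
            (Ne.symm hrx) huv (by simp [Ne.symm hxu, Ne.symm hxv])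
            (by simp [h1.1, hrw.symm]) (by simp [h2]) (by simp [hac, hae, hce])
            (by simp [hWa, hWc, hWe]) (t := 3) (z := 0) (by simp) hm
            (by simpa using h4 x r u v hx hr hu hv) (by omega))
        rcases eq_or_ne p x with rfl | hp'
        · exact hk q hq (Ne.symm hpq) hqw
        · exact hk p hp hp' hpw
      · have hk : ∀ r ∈ U, r ≠ y → G.Adj r w → False := fun r hr hrx hrw => by
          refine hno (close_pair hUD hWD hclq (a := y) (b := r) (P := [w]) (R := [c, e]) hy hr hu hv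
            (Ne.symm hrx) huv (by simp [Ne.symm hyu, Ne.symm hyv])
            (by simp [h1.2.2.symm, hrw.symm]) (by simp [h2]) (by simp [hbc, hbe, hce])
            (by simp [hWb, hWc, hWe]) (t := 3) (z := 0) (by simp) hm
            (by simpa using h4 y r u v hy hr hu hv) (by omega))
        rcases eq_or_ne p y with rfl | hp'
        · exact hk q hq (Ne.symm hpq) hqw
        · exact hk p hp hp' hpw
    rw [not_or] at hin
    refine k1 hin.1 hin.2 fun h => ?_
    by_cases hin' : w = c ∨ w = e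
    · rcases hin' with rfl | rfl
      · have : u ∈ s(p, q) := by
          by_contra hu'
          exact hno (close_pair hUD hWD hclq (a := u) (b := p) (P := [w]) (R := [a, b]) hu hp hx hy
            (fun h => hu' (h ▸ Sym2.mem_mk_left p q)) hxy (by simp [hxu, hyu])
            (by simp [h2.1, hpw.symm]) (by simp [h1]) (by simp [Ne.symm hac, Ne.symm hbc, hab])
            (by simp [hWa, hWb, hWc]) (t := 3) (z := 0) (by simp) hm
            (by simpa using h4 u p x y hu hp hx hy) (by omega))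
        rw [← h] at this
        simp [Ne.symm hxu, Ne.symm hyu] at this
      · have : v ∈ s(p, q) := by
          by_contra hu'
          exact hno (close_pair hUD hWD hclq (a := v) (b := p) (P := [w]) (R := [a, b]) hv hp hx hy
            (fun h => hu' (h ▸ Sym2.mem_mk_left p q)) hxy (by simp [hxv, hyv])
            (by simp [h2.2.2.symm, hpw.symm]) (by simp [h1]) (by simp [Ne.symm hae, Ne.symm hbe, hab])
            (by simp [hWa, hWb, hWe]) (t := 3) (z := 0) (by simp) hm
            (by simpa using h4 v p x y hv hp hx hy) (by omega))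
        rw [← h] at this
        simp [Ne.symm hxv, Ne.symm hyv] at this
    · rw [not_or] at hin'
      refine k2 hin'.1 hin'.2 fun h' => ?_
      have := h.trans h'.symm
      simp [hxu, hxv] at this
  -- no edge between the classes of different links
  have cross : ∀ p q a' b' r a'' : V, p ∈ U → q ∈ U → r ∈ U → p ≠ q → r ≠ p → r ≠ q →
      [p, a', b', q].IsChain G.Adj → a' ≠ b' → a' ∈ W → b' ∈ W → a'' ∈ W → G.Adj p a'' →
      ∀ c' ∈ W, G.Adj r c' → ¬ G.Adj a'' c' := by
    intro p q a' b' r a'' hp hq hr hpq hrp hrq hch hab' ha' hb' ha'' hpa c' hc' hrc hadj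
    simp only [List.isChain_cons_cons, List.isChain_singleton, and_true] at hch
    have e1 : c' ≠ b' := fun h => hrq (priv b' hb' r hr q hq (h ▸ hrc) hch.2.2.symm)
    have e2 : c' ≠ a' := fun h => hrp (priv a' ha' r hr p hp (h ▸ hrc) hch.1)
    by_cases haa : a'' = a'
    · subst haa
      have hsys := linksIn_of_pre (G := G) (U := U) (W := W) [q, r] [(q, [b', a'', c'], r)]
        (by simp [Ne.symm hrq]) (by simp [hq, hr]) (by simp [pair, epairs]) (by simp)
        (by simp [lmid, hch.2.2.symm, hch.2.1.symm, hadj, hrc.symm])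
        (by simp [lmid, Ne.symm hab', Ne.symm e1, hadj.ne]) (by simp [lmid, hb', ha'', hc'])
      refine hno (close hsys hUD hWD hclq (S := {(q, [b', a'', c'], r)}) (t := 3) (z := 0) (by simp)
        (by simp [tot, lmid]) hm ?_ (by omega))
      have h := card_endsF ({(q, [b', a'', c'], r)} : Finset (Link V))
      rw [card_singleton] at h
      omega
    · have e3 : a'' ≠ b' := fun h => hpq (priv b' hb' p hp q hq (h ▸ hpa) hch.2.2.symm)
      exact hno (close_pair hUD hWD hclq (a := p) (b := q) (c := p) (e := r) (P := [a', b'])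
        (R := [a'', c']) hp hq hp hr hpq (Ne.symm hrp) (by simp [hrq, hpq])
        (by simp [hch]) (by simp [hpa, hadj, hrc.symm])
        (by simp [hab', Ne.symm haa, Ne.symm e2, Ne.symm e3, Ne.symm e1, hadj.ne])
        (by simp [ha', hb', ha'', hc']) (t := 3) (z := 1) (by simp) hm
        (by have := card_le_three (a := p) (b := q) (c := p) (e := r) (Or.inl rfl); omega) (by omega))
  -- a non-adjacent pair inside each link's classes
  have indep : ∀ p q : V, p ∈ U → q ∈ U → p ≠ q →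
      ∃ a' ∈ W.filter (G.Adj p), ∃ b' ∈ W.filter (G.Adj q), ¬ G.Adj a' b' := by
    intro p q hp hq hpq
    by_contra hall
    push Not at hall
    obtain ⟨a₁, ha₁, a₂, ha₂, hne₁⟩ := one_lt_card.1 (show 1 < #(W.filter (G.Adj p)) by
      have := hrow p hp; omega)
    obtain ⟨b₁, hb₁, b₂, hb₂, hne₂⟩ := one_lt_card.1 (show 1 < #(W.filter (G.Adj q)) by
      have := hrow q hq; omega)
    have hd : ∀ a' ∈ W.filter (G.Adj p), ∀ b' ∈ W.filter (G.Adj q), a' ≠ b' := fun a' ha' b' hb' h =>
      hpq (priv a' (mem_filter.1 ha').1 p hp q hq (mem_filter.1 ha').2 (h ▸ (mem_filter.1 hb').2))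
    have hsys := linksIn_of_pre (G := G) (U := U) (W := W) [p, q] [(p, [a₁, b₁, a₂, b₂], q)]
      (by simp [hpq]) (by simp [hp, hq]) (by simp [pair, epairs]) (by simp)
      (by simp [lmid, (mem_filter.1 ha₁).2, hall a₁ ha₁ b₁ hb₁, (hall a₂ ha₂ b₁ hb₁).symm,
        hall a₂ ha₂ b₂ hb₂, (mem_filter.1 hb₂).2.symm])
      (by simp [lmid, hne₁, hne₂, hd a₁ ha₁ b₁ hb₁, hd a₁ ha₁ b₂ hb₂, (hd a₂ ha₂ b₁ hb₁).symm,
        hd a₂ ha₂ b₂ hb₂])
      (by simp [lmid, (mem_filter.1 ha₁).1, (mem_filter.1 hb₁).1, (mem_filter.1 ha₂).1,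
        (mem_filter.1 hb₂).1])
    refine hno (close hsys hUD hWD hclq (S := {(p, [a₁, b₁, a₂, b₂], q)}) (t := 3) (z := 1) (by simp)
      (by simp [tot, lmid]) hm ?_ (by omega))
    have h := card_endsF ({(p, [a₁, b₁, a₂, b₂], q)} : Finset (Link V))
    rw [card_singleton] at h
    omega
  obtain ⟨A, hA, B, hB, hAB⟩ := indep x y hx hy hxy
  obtain ⟨C, hC, E, hE, hCE⟩ := indep u v hu hv huv
  rw [mem_filter] at hA hB hC hE
  have rev : [y, b, a, x].IsChain G.Adj := by simp [h1.1.symm, h1.2.1.symm, h1.2.2.symm]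
  have fwd : [x, a, b, y].IsChain G.Adj := by simp [h1]
  have hAC := cross x y a b u A hx hy hu hxy (Ne.symm hxu) (Ne.symm hyu) fwd hab hWa hWb hA.1 hA.2
    C hC.1 hC.2
  have hAE := cross x y a b v A hx hy hv hxy (Ne.symm hxv) (Ne.symm hyv) fwd hab hWa hWb hA.1 hA.2
    E hE.1 hE.2
  have hBC := cross y x b a u B hy hx hu (Ne.symm hxy) (Ne.symm hyu) (Ne.symm hxu) rev (Ne.symm hab)
    hWb hWa hB.1 hB.2 C hC.1 hC.2
  have hBE := cross y x b a v B hy hx hv (Ne.symm hxy) (Ne.symm hyv) (Ne.symm hxv) rev (Ne.symm hab)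
    hWb hWa hB.1 hB.2 E hE.1 hE.2
  have d : ∀ p q P Q : V, p ∈ U → q ∈ U → p ≠ q → (P ∈ W ∧ G.Adj p P) → (Q ∈ W ∧ G.Adj q Q) →
      P ≠ Q := fun p q P Q hp hq hpq hP hQ h => hpq (priv P hP.1 p hp q hq hP.2 (h ▸ hQ.2))
  have hU4 : #U ≤ 4 := hD ▸ card_le_card hUD
  have hI := hα {A, B, C, E} (by simp [insert_subset_iff, hA.1, hB.1, hC.1, hE.1]) (by
    simp only [mem_insert, mem_singleton]
    rintro i (rfl | rfl | rfl | rfl) j (rfl | rfl | rfl | rfl)
    exacts [G.irrefl, hAB, hAC, hAE, fun h => hAB h.symm, G.irrefl, hBC, hBE, fun h => hAC h.symm,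
      fun h => hBC h.symm, G.irrefl, hCE, fun h => hAE h.symm, fun h => hBE h.symm,
      fun h => hCE h.symm, G.irrefl])
  have h4card : #({A, B, C, E} : Finset V) = 4 := by
    rw [card_insert_of_notMem, card_insert_of_notMem, card_pair (d u v C E hu hv huv hC hE)]
    · simp [d y u B C hy hu hyu hB hC, d y v B E hy hv hyv hB hE]
    · simp [d x y A B hx hy hxy hA hB, d x u A C hx hu hxu hA hC, d x v A E hx hv hxv hA hE]
  omega

/-- The tight case: one excess vertex and links covering all of the clique. -/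
theorem close_tight {U W D : Finset V} {Ls : List (Link V)} {l₀ : List V}
    (hsys : LinksIn G U W Ls l₀) (hUD : U ⊆ D) (hWD : ∀ x ∈ W, x ∉ D)
    (hclq : ∀ x ∈ D, ∀ y ∈ D, x ≠ y → G.Adj x y) {t m : ℕ}
    (hdich : (∀ L ∈ Ls, 2 ≤ (lmid L).length) →
      (∃ L ∈ Ls, ∃ Q', LinksIn G U W ((L.1, Q', L.2.2) :: Ls.erase L) l₀ ∧
        Q'.length + 1 = (lmid L).length) ∨ 2 * t + Ls.length ≤ 2 * (Ls.flatMap lmid).length)
    (hpos : ∀ L ∈ Ls, lmid L ≠ []) (hbig : ∀ L ∈ Ls, (lmid L).length < t)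
    {S : Finset (Link V)} (hS : ∀ L ∈ S, L ∈ Ls) (hr : 3 ≤ #S)
    (hge : ∀ L ∈ S, 2 ≤ (lmid L).length) (htot : tot S = t + 1) (hfull : #(endsF S) = #D)
    (htk : t ≤ #D) (hm : m = #D + t) : Close.HasCycle G m := by
  have hr2 := card_endsF S
  have hsplit : tot S = 2 * #S + ∑ L ∈ S, ((lmid L).length - 2) := by
    rw [mul_comm, ← smul_eq_mul, ← sum_const, ← sum_add_distrib]
    exact sum_congr rfl fun L hL => by have := hge L hL; omega
  have hlow : 2 * #S ≤ t + 1 := by omega
  have hnd : Ls.Nodup := List.Nodup.of_map pair hsys.pn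
  have hends : ∀ S' : Finset (Link V), (∀ L ∈ S', L ∈ Ls) → #(endsF S') ≤ #D := fun S' h =>
    card_le_card ((hsys.endsF_subset h).trans hUD)
  by_cases hf : ∀ L ∈ Ls, L ∈ S
  · -- every link is used, so one of them can be shortened by one
    have hLS : Ls.toFinset = S := Finset.ext fun L =>
      ⟨fun h => hf L (List.mem_toFinset.1 h), fun h => List.mem_toFinset.2 (hS L h)⟩
    have hG : (Ls.flatMap lmid).length = t + 1 := by
      rw [← htot, tot, ← hLS, List.sum_toFinset _ hnd, List.length_flatMap]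
    have hlen : Ls.length = #S := by rw [← hLS, List.toFinset_card_of_nodup hnd]
    rcases hdich (fun L hL => hge L (hf L hL)) with ⟨L, hL, Q', hsys', hQ'⟩ | h
    · have hnot : (L.1, Q', L.2.2) ∉ S.erase L := by
        intro h
        have h' := (mem_erase.1 h)
        exact h'.1 (List.inj_on_of_nodup_map hsys.pn (hS _ h'.2) hL rfl)
      refine close hsys' hUD hWD hclq (S := insert (L.1, Q', L.2.2) (S.erase L)) (t := t) (z := 0)
        ?_ ?_ hm ?_ (by omega)
      · intro M hM
        rcases mem_insert.1 hM with rfl | hM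
        · simp
        · obtain ⟨h1, h2⟩ := mem_erase.1 hM
          exact List.mem_cons_of_mem _ ((List.mem_erase_of_ne h1).2 (hS M h2))
      · have h : (lmid L).length + ∑ M ∈ S.erase L, (lmid M).length = ∑ M ∈ S, (lmid M).length := by
          convert add_sum_erase S (fun L => (lmid L).length) (hf L hL)
        simp only [tot] at htot ⊢
        rw [sum_insert hnot]
        have : (lmid (L.1, Q', L.2.2)).length = Q'.length := rfl
        linarith
      · rw [Nat.add_zero]
        refine card_le_card ((hsys'.endsF_subset ?_).trans hUD)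
        intro M hM
        rcases mem_insert.1 hM with rfl | hM
        · simp
        · obtain ⟨h1, h2⟩ := mem_erase.1 hM
          exact List.mem_cons_of_mem _ ((List.mem_erase_of_ne h1).2 (hS M h2))
    · omega
  push Not at hf
  obtain ⟨f, hfL, hfS⟩ := hf
  set g := (lmid f).length with hg
  have hg1 : 1 ≤ g := List.length_pos_iff.2 (hpos f hfL)
  have hgt : g < t := hbig f hfL
  set T := S.filter fun L => (lmid L).length = 2 with hT
  have hTlen : ∀ L ∈ T, (lmid L).length = 2 := fun L hL => (mem_filter.1 hL).2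
  have hB : #T + ∑ L ∈ S, ((lmid L).length - 2) ≥ #S := by
    rw [ge_iff_le, card_eq_sum_ones, card_eq_sum_ones T, hT, sum_filter, ← sum_add_distrib]
    exact sum_le_sum fun L hL => by have := hge L hL; split_ifs <;> omega
  have hmemU : ∀ S' : Finset (Link V), S' ⊆ {f} ∪ S → ∀ L ∈ S', L ∈ Ls := by
    intro S' h L hL
    rcases mem_union.1 (h hL) with h' | h'
    · rw [mem_singleton] at h'; exact h' ▸ hfL
    · exact hS L h'
  have hdf : ∀ X ⊆ S, Disjoint {f} X := fun X hX =>
    disjoint_singleton_left.2 fun h => hfS (hX h)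
  have htotf : tot {f} = g := sum_singleton _ _
  by_cases hB3 : ∃ B ∈ S, 3 ≤ (lmid B).length
  · obtain ⟨B, hBS, hB3⟩ := hB3
    have hsum1 := single_le_sum (f := fun L : Link V => (lmid L).length - 2)
      (fun _ _ => Nat.zero_le _) hBS
    have hBlen : (lmid B).length = 3 := by omega
    have hBT : B ∉ T := fun h => by have := hTlen B h; omega
    have hfB : f ≠ B := fun h => hfS (h ▸ hBS)
    rcases Nat.mod_two_eq_zero_or_one g with hpar | hpar
    · obtain ⟨S', h1, h2, h3⟩ := exists_pick hTlen (hdf T (filter_subset _ _))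
        (show (t - g) / 2 ≤ #T by omega)
      refine close hsys hUD hWD hclq (S := S') (z := 0)
        (hmemU S' (h1.trans (union_subset_union_right (filter_subset _ _))))
        (show tot S' = t + 0 by rw [h2, htotf]; omega) hm ?_ (by omega)
      exact (hends S' (hmemU S' (h1.trans (union_subset_union_right (filter_subset _ _)))))
    · by_cases hg3 : g + 3 ≤ t
      · have hd : Disjoint ({f, B} : Finset (Link V)) T := by
          rw [disjoint_insert_left, disjoint_singleton_left]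
          exact ⟨fun h => hfS (mem_filter.1 h).1, hBT⟩
        obtain ⟨S', h1, h2, h3⟩ := exists_pick hTlen hd (show (t - g - 3) / 2 ≤ #T by omega)
        have hmem : ∀ L ∈ S', L ∈ Ls := fun L hL => by
          rcases mem_union.1 (h1 hL) with h' | h'
          · rcases mem_insert.1 h' with rfl | h'
            · exact hfL
            · exact hS L (mem_singleton.1 h' ▸ hBS)
          · exact hS L (mem_filter.1 h').1
        refine close hsys hUD hWD hclq (S := S') (z := 0) hmem
          (show tot S' = t + 0 by rw [h2, tot, sum_pair hfB]; omega) hm (hends S' hmem) (by omega)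
      · obtain ⟨S', h1, h2, h3⟩ := exists_pick hTlen (hdf T (filter_subset _ _))
          (show 1 ≤ #T by omega)
        rw [card_singleton] at h3
        refine close hsys hUD hWD hclq (S := S') (z := 1)
          (hmemU S' (h1.trans (union_subset_union_right (filter_subset _ _))))
          (show tot S' = t + 1 by rw [h2, htotf]; omega) hm ?_ (by omega)
        omega
  push Not at hB3
  have hall : ∀ L ∈ S, (lmid L).length = 2 := fun L hL => by
    have := hge L hL; have := hB3 L hL; omega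
  have h0 : ∑ L ∈ S, ((lmid L).length - 2) = 0 := sum_eq_zero fun L hL => by simp [hall L hL]
  by_cases hg2 : g = 2
  · -- exchange `f` for a link with a private end
    obtain ⟨A, hA, x, hxA, hxE⟩ := exists_leaf hsys (S := {f} ∪ S) (hmemU _ subset_rfl) ⟨f, by simp⟩
    have hAf : A ≠ f := by
      rintro rfl
      refine hxE ?_
      have hxD : x ∈ endsF S := by
        have hsub : endsF S = D := eq_of_subset_of_card_le ((hsys.endsF_subset hS).trans hUD) hfull.ge
        rw [hsub]
        exact hUD (hsys.endsF_subset (S := {A}) (by simpa using hfL) hxA)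
      obtain ⟨L, hL, hLx⟩ := mem_endsF.1 hxD
      exact mem_endsF.2 ⟨L, mem_erase.2 ⟨fun h => hfS (h ▸ hL), mem_union_right _ hL⟩, hLx⟩
    have hAS : A ∈ S := by
      rcases mem_union.1 hA with h | h
      · exact absurd (mem_singleton.1 h) hAf
      · exact h
    have hxD : x ∈ D := hUD (hsys.endsF_subset (S := {A}) (by simpa using hS A hAS) hxA)
    set S' := ({f} ∪ S).erase A with hS'
    have hmem : ∀ L ∈ S', L ∈ Ls := fun L hL => hmemU _ subset_rfl L (mem_of_mem_erase hL)
    have hle : #(endsF S') + 1 ≤ #D := by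
      have : endsF S' ⊆ D.erase x := fun y hy => mem_erase.2
        ⟨fun h => hxE (h ▸ hy), hUD (hsys.endsF_subset hmem hy)⟩
      have := card_le_card this
      rw [card_erase_of_mem hxD] at this
      have := card_pos.2 ⟨x, hxD⟩
      omega
    refine close hsys hUD hWD hclq (S := S') (z := 1) hmem ?_ hm hle (by omega)
    have h := add_sum_erase ({f} ∪ S) (fun L => (lmid L).length) hA
    rw [sum_union (hdf S subset_rfl), sum_singleton] at h
    have := hall A hAS
    simp only [tot, hS'] at htot ⊢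
    omega
  rcases Nat.mod_two_eq_zero_or_one g with hpar | hpar
  · obtain ⟨S', h1, h2, h3⟩ := exists_pick hall (hdf S subset_rfl)
      (show (t - g + 1) / 2 ≤ #S by omega)
    rw [card_singleton] at h3
    refine close hsys hUD hWD hclq (S := S') (z := 1) (hmemU S' h1)
      (show tot S' = t + 1 by rw [h2, htotf]; omega) hm ?_ (by omega)
    omega
  · obtain ⟨S', h1, h2, h3⟩ := exists_pick hall (hdf S subset_rfl)
      (show (t - g) / 2 ≤ #S by omega)
    refine close hsys hUD hWD hclq (S := S') (z := 0) (hmemU S' h1)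
      (show tot S' = t + 0 by rw [h2, htotf]; omega) hm (hends S' (hmemU S' h1)) (by omega)

theorem six_nodup (A B C : Link V) (h : 6 ≤ #(endsF ({A, B, C} : Finset (Link V)))) :
    [A.1, A.2.2, B.1, B.2.2, C.1, C.2.2].Nodup := by
  set l := [A.1, A.2.2, B.1, B.2.2, C.1, C.2.2] with hl
  have hsub : endsF ({A, B, C} : Finset (Link V)) ⊆ l.toFinset := fun x hx => by
    obtain ⟨L, hL, hLx⟩ := mem_endsF.1 hx
    simp only [hl, List.mem_toFinset, List.mem_cons]
    simp only [mem_insert, mem_singleton] at hL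
    rcases hL with rfl | rfl | rfl <;> rcases hLx with rfl | rfl <;> simp
  have h1 := card_le_card hsub
  rw [List.card_toFinset] at h1
  have h2 : l.dedup.length ≤ l.length := (List.dedup_sublist l).length_le
  have h3 : l.length = 6 := rfl
  exact List.dedup_eq_self.1 ((List.dedup_sublist l).eq_of_length (by omega))

theorem close_three' {U W D : Finset V} {Ls : List (Link V)} {l₀ : List V}
    (hsys : LinksIn G U W Ls l₀) (hUD : U ⊆ D) (hWD : ∀ x ∈ W, x ∉ D)
    (hclq : ∀ x ∈ D, ∀ y ∈ D, x ≠ y → G.Adj x y) (hnb : ∀ w ∈ W, ∃ u ∈ U, G.Adj u w)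
    {S : Finset (Link V)} (hS : ∀ L ∈ S, L ∈ Ls) (hS3 : #S = 3)
    (hge : ∀ L ∈ S, 2 + 1 ≤ (lmid L).length) {t m : ℕ} (hz : tot S = t + 2)
    (ht : t = 7) (hD : #D = 7) (hE : 6 ≤ #(endsF S)) (hm : m = #D + t) :
    Close.HasCycle G m := by
  obtain ⟨A, B, C, hAB, hAC, hBC, rfl⟩ := card_eq_three.1 hS3
  rw [tot, sum_insert (by simp [hAB, hAC]), sum_pair hBC] at hz
  have hA := hge A (by simp)
  have hB := hge B (by simp)
  have hC := hge C (by simp)
  exact close_three hsys hUD hWD hclq hnb (hS A (by simp)) (hS B (by simp)) (hS C (by simp))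
    (six_nodup A B C hE) (by omega) (by omega) (by omega) hD (by omega)

theorem arith_tight {r z t : ℕ} (hr : 3 ≤ r) (h : r * (z + 1) ≤ t + z) (h2 : t + 1 ≤ 2 * r + z) :
    z ≤ 1 ∨ (r = 3 ∧ z = 2 ∧ 7 ≤ t) := by
  obtain ⟨s, rfl⟩ : ∃ s, r = s + 3 := ⟨r - 3, by omega⟩
  rcases z with _ | _ | _ | z
  · omega
  · omega
  · exact Or.inr ⟨by omega, rfl, by omega⟩
  · nlinarith

/-- The clique neighbourhood lemma. -/
theorem clique_nbr_indep [Fintype V] [DecidableRel G.Adj] {m : ℕ}
    (hdeg : ∀ v, m - 1 ≤ G.degree v) (hno : ¬ Close.HasCycle G m) {D U : Finset V}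
    (hclq : G.IsClique (D : Set V)) (hk : #D < m) (hk2 : m ≤ 2 * #D) (h7 : 7 ≤ m)
    (hU : U ⊆ D) (_hne : U.Nonempty) :
    ∃ I : Finset V, G.IsIndepSet (I : Set V) ∧ #I = #U ∧
      ∀ w ∈ I, w ∉ D ∧ ∃ x ∈ U, G.Adj x w := by
  classical
  by_contra hcon
  push Not at hcon
  set W := univ.filter fun w => w ∉ D ∧ ∃ x ∈ U, G.Adj x w with hW
  have hWD : ∀ x ∈ W, x ∉ D := fun x hx => (mem_filter.1 hx).2.1
  have hnb : ∀ w ∈ W, ∃ u ∈ U, G.Adj u w := fun x hx => (mem_filter.1 hx).2.2
  have hclq' : ∀ x ∈ D, ∀ y ∈ D, x ≠ y → G.Adj x y := fun x hx y hy h =>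
    hclq (mem_coe.2 hx) (mem_coe.2 hy) h
  obtain ⟨t, hm⟩ : ∃ t, m = #D + t := ⟨m - #D, by omega⟩
  have hα : ∀ I ⊆ W, (∀ x ∈ I, ∀ y ∈ I, ¬ G.Adj x y) → #I < #U := by
    intro I hI hind
    by_contra h
    obtain ⟨J, hJI, hJc⟩ := exists_subset_card_eq (s := I) (n := #U) (by omega)
    obtain ⟨w, hw, hw'⟩ := hcon J (fun x hx y hy _ => hind x (hJI hx) y (hJI hy)) hJc
    obtain ⟨h1, u, hu, hadj⟩ := (mem_filter.1 (hI (hJI hw))).2
    exact hw' h1 u hu hadj
  have hrow : ∀ u ∈ U, t ≤ #(W.filter (G.Adj u)) := by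
    intro u hu
    have hsub : G.neighborFinset u ⊆ W.filter (G.Adj u) ∪ D.erase u := by
      intro w hw
      rw [SimpleGraph.mem_neighborFinset] at hw
      by_cases hwD : w ∈ D
      · exact mem_union_right _ (mem_erase.2 ⟨hw.ne', hwD⟩)
      · exact mem_union_left _ (mem_filter.2 ⟨mem_filter.2 ⟨mem_univ _, hwD, u, hu, hw⟩, hw⟩)
    have h := (card_le_card hsub).trans (card_union_le _ _)
    rw [G.card_neighborFinset_eq_degree, card_erase_of_mem (hU hu)] at h
    have := hdeg u
    omega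
  obtain ⟨Ls, l₀, hsys, hpos, hG, hdich⟩ := exists_links U W t hα hrow
  by_cases hbig : ∃ L ∈ Ls, t ≤ (lmid L).length
  · obtain ⟨L, hL, hLt⟩ := hbig
    exact hno (close_one hsys hU hWD hclq' hnb hL (by omega) hLt hm (by omega))
  push Not at hbig
  have hnd : Ls.Nodup := List.Nodup.of_map pair hsys.pn
  -- a smallest set of links reaching `t`
  obtain ⟨S, hS, hmin⟩ := exists_min_image (Ls.toFinset.powerset.filter fun S => t ≤ tot S)
    (fun S => #S) ⟨Ls.toFinset, mem_filter.2 ⟨mem_powerset.2 subset_rfl, by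
      rw [tot, List.sum_toFinset _ hnd, ← List.length_flatMap]; exact hG⟩⟩
  rw [mem_filter, mem_powerset] at hS
  have hSL : ∀ L ∈ S, L ∈ Ls := fun L hL => List.mem_toFinset.1 (hS.1 hL)
  obtain ⟨z, hz⟩ : ∃ z, tot S = t + z := ⟨tot S - t, by omega⟩
  have hge : ∀ L ∈ S, z + 1 ≤ (lmid L).length := by
    intro L hL
    by_contra h
    have h' := hmin (S.erase L) (mem_filter.2 ⟨mem_powerset.2 ((erase_subset _ _).trans hS.1), by
      have h' := add_sum_erase S (fun L => (lmid L).length) hL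
      simp only [tot] at hz ⊢
      omega⟩)
    have := card_erase_of_mem hL
    have := card_pos.2 ⟨L, hL⟩
    omega
  have hr : 2 ≤ #S := by
    by_contra h
    rcases S.eq_empty_or_nonempty with rfl | ⟨L, hL⟩
    · simp [tot] at hz; omega
    · have : S = {L} := (eq_singleton_iff_unique_mem).2
        ⟨hL, fun M hM => card_le_one.1 (by omega) M hM L hL⟩
      rw [this, tot, sum_singleton] at hz
      have := hbig L (hSL L hL)
      omega
  have hsum : #S * (z + 1) ≤ t + z := by
    rw [← hz, tot, ← smul_eq_mul]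
    exact card_nsmul_le_sum _ _ _ hge
  have hE2 := card_endsF S
  have hED : #(endsF S) ≤ #D := card_le_card ((hsys.endsF_subset hSL).trans hU)
  by_cases hfree : #(endsF S) + z ≤ #D ∧ z + 3 ≤ #D
  · exact hno (close hsys hU hWD hclq' hSL hz hm hfree.1 hfree.2)
  rcases hr.eq_or_lt with h2 | h3
  · obtain ⟨A, B, hAB, rfl⟩ := card_eq_two.1 h2.symm
    rw [card_pair hAB] at hsum hE2
    rw [tot, sum_pair hAB] at hz
    have hA := hbig A (hSL A (by simp))
    have hB := hbig B (hSL B (by simp))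
    have hA1 := hge A (by simp)
    have hB1 := hge B (by simp)
    rcases eq_or_lt_of_le (show 4 ≤ #D by omega) with h4 | h5
    · by_cases ht3 : t = 3
      · obtain ⟨x, P, y⟩ := A
        obtain ⟨u, R, v⟩ := B
        simp only [lmid] at hA hB hA1 hB1 hz
        obtain ⟨a, b, rfl⟩ := List.length_eq_two.1 (show P.length = 2 by omega)
        obtain ⟨c, e, rfl⟩ := List.length_eq_two.1 (show R.length = 2 by omega)
        obtain ⟨hx, hy, -⟩ := hsys.ends (hSL _ (mem_insert_self _ _))
        obtain ⟨hu, hv, -⟩ := hsys.ends (hSL _ (mem_insert_of_mem (mem_singleton_self _)))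
        have hsub : endsF ({(x, [a, b], y), (u, [c, e], v)} : Finset (Link V)) ⊆
            [x, y, u, v].toFinset := fun w hw => by
          obtain ⟨L, hL, hLw⟩ := mem_endsF.1 hw
          simp only [List.mem_toFinset, List.mem_cons, List.not_mem_nil, or_false]
          simp only [mem_insert, mem_singleton] at hL
          rcases hL with rfl | rfl <;> rcases hLw with rfl | rfl <;> simp
        have hnd4 : [x, y, u, v].Nodup := by
          have h1 := card_le_card hsub
          rw [List.card_toFinset] at h1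
          have h2 := (List.dedup_sublist [x, y, u, v]).length_le
          have h3 : [x, y, u, v].length = 4 := rfl
          exact List.dedup_eq_self.1 ((List.dedup_sublist _).eq_of_length (by omega))
        have hmA : (x, [a, b], y) ∈ Ls := hSL _ (mem_insert_self _ _)
        have hmB : (u, [c, e], v) ∈ Ls := hSL _ (mem_insert_of_mem (mem_singleton_self _))
        have hmid : [a, b, c, e].Nodup := by
          have h1 : ([a, b] : List V).Nodup := hsys.midNodup.sublist (by
            simpa [lmid] using (List.singleton_sublist.2 hmA).flatMap lmid)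
          have h2 : ([c, e] : List V).Nodup := hsys.midNodup.sublist (by
            simpa [lmid] using (List.singleton_sublist.2 hmB).flatMap lmid)
          exact List.nodup_append'.2 ⟨h1, h2, hsys.disjoint hmA hmB hAB⟩
        have hW4 : ∀ w ∈ [a, b, c, e], w ∈ W := fun w hw => by
          simp only [List.mem_cons, List.not_mem_nil, or_false] at hw
          rcases hw with h | h | h | h
          exacts [hsys.midSub w (List.mem_flatMap.2 ⟨_, hmA, by simp [lmid, h]⟩),
            hsys.midSub w (List.mem_flatMap.2 ⟨_, hmA, by simp [lmid, h]⟩),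
            hsys.midSub w (List.mem_flatMap.2 ⟨_, hmB, by simp [lmid, h]⟩),
            hsys.midSub w (List.mem_flatMap.2 ⟨_, hmB, by simp [lmid, h]⟩)]
        exact hno (close_seven hU hWD hclq' (ht3 ▸ hrow) hα hnd4 hx hy hu hv
          (hsys.chain _ hmA) (hsys.chain _ hmB) hmid hW4 h4.symm (by omega))
      have ht4 : t = 4 := by omega
      rcases (show (lmid A).length = 3 ∨ (lmid B).length = 3 by omega) with h | h
      · exact hno (close_four hsys hU hWD hclq' hnb (hSL A (by simp)) (hSL B (by simp)) hAB h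
          (by omega) (by omega) (by omega) h4.symm)
      · exact hno (close_four hsys hU hWD hclq' hnb (hSL B (by simp)) (hSL A (by simp)) hAB.symm h
          (by omega) (by omega) (by omega) h4.symm)
    rcases (show (lmid A).length + 1 = t ∨ (lmid B).length + 1 = t by omega) with h | h
    · exact hno (close_two hsys hU hWD hclq' hnb (hSL A (by simp)) (hSL B (by simp)) hAB h
        (by omega) hm h5)
    · exact hno (close_two hsys hU hWD hclq' hnb (hSL B (by simp)) (hSL A (by simp)) hAB.symm h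
        (by omega) hm h5)
  rcases arith_tight h3 hsum (by omega) with hz1 | ⟨hS3, hz2, ht7⟩
  · rcases Nat.le_one_iff_eq_zero_or_eq_one.1 hz1 with rfl | rfl
    · omega
    · exact hno (close_tight hsys hU hWD hclq' hdich hpos hbig hSL h3
        (fun L hL => by have := hge L hL; omega) hz (by omega) (by omega) hm)
  · subst hz2
    exact hno (close_three' hsys hU hWD hclq' hnb hSL hS3 hge hz (by omega) (by omega) (by omega) hm)

end Vale.Agent.P048.Full
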