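import Vale.Agent.P048.Layer

/-!
The growth lemma for the full range of P048: in a minimal counterexample every vertex sees a layer
of depth at most `q` that is not `q`-colourable, except for one exact case of odd `m`.
-/

namespace Vale.Agent.P048.Full

open Finset

variable {V : Type*} [Fintype V] [DecidableEq V] {G : SimpleGraph V}

/-- The vertices at distance `i` from `v`. -/
noncomputable def layer (G : SimpleGraph V) (v : V) (i : ℕ) : Finset V :=
  univ.filter fun u => G.dist v u = i

omit [Fintype V] [DecidableEq V] in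
/-- A `q`-colourable set has at most `q` times its independence number many vertices. -/
theorem card_le_of_colOn {L : Finset V} {q k : ℕ} (h : ColOn G L q)
    (hk : ∀ I ⊆ L, (∀ x ∈ I, ∀ y ∈ I, ¬ G.Adj x y) → #I ≤ k) : #L ≤ q * k := by
  classical
  obtain ⟨c, hc, hprop⟩ := h
  have := card_le_mul_card_image_of_maps_to (s := L) (t := range q) (f := c)
    (fun x hx => mem_range.2 (hc x hx)) k fun b _ => hk _ (filter_subset _ _) fun x hx y hy hxy => by
      rw [mem_filter] at hx hy
      exact hprop x hx.1 y hy.1 hxy (hx.2.trans hy.2.symm)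
  rw [card_range, mul_comm] at this
  exact this

/-- Every part of `L` has at most `q` times its independence number many vertices. -/
def Good (G : SimpleGraph V) (L : Finset V) (q : ℕ) : Prop :=
  ∀ S ⊆ L, ∀ k, (∀ I ⊆ S, (∀ x ∈ I, ∀ y ∈ I, ¬ G.Adj x y) → #I ≤ k) → #S ≤ q * k

omit [Fintype V] [DecidableEq V] in
/-- Colourable sets are good. -/
theorem good_of_colOn {L : Finset V} {q : ℕ} (h : ColOn G L q) : Good G L q := by
  obtain ⟨c, hc, hprop⟩ := h
  exact fun S hS k hk => card_le_of_colOn ⟨c, fun x hx => hc x (hS hx),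
    fun x hx y hy => hprop x (hS hx) y (hS hy)⟩ hk

omit [DecidableEq V] in
theorem mem_layer {v u : V} {i : ℕ} : u ∈ layer G v i ↔ G.dist v u = i := by simp [layer]

/-- The growth lemma. -/
theorem exists_layer_le (hconn : G.Connected) {m n q : ℕ} (hq : 2 ≤ q)
    (hmq : m = 2 * q + 1 ∨ m = 2 * q + 2) (hnm : n ≤ m)
    (hα : ∀ I : Finset V, (∀ x ∈ I, ∀ y ∈ I, ¬ G.Adj x y) → #I < n)
    (hcard : (m - 1) * (n - 1) < Fintype.card V)
    (hsmall : ∀ (S : Finset V) (j : ℕ), j + 1 < n →
      (∀ I ⊆ S, (∀ x ∈ I, ∀ y ∈ I, ¬ G.Adj x y) → #I ≤ j) → #S ≤ (m - 1) * j) (v : V) :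
    (∃ i ≤ q, ¬ Good G (layer G v i) q) ∨
      (m = 2 * q + 1 ∧ ∀ I ⊆ layer G v 1, (∀ x ∈ I, ∀ y ∈ I, ¬ G.Adj x y) →
        q * #I ≤ #(layer G v 1)) := by
  classical
  by_contra hcon
  rw [not_or] at hcon
  obtain ⟨hcol, hexact⟩ := hcon
  push Not at hcol
  -- a largest independent set in every layer
  have hex : ∀ i, ∃ I ⊆ layer G v i, (∀ x ∈ I, ∀ y ∈ I, ¬ G.Adj x y) ∧
      ∀ J ⊆ layer G v i, (∀ x ∈ J, ∀ y ∈ J, ¬ G.Adj x y) → #J ≤ #I := by
    intro i
    obtain ⟨I, hI, hmax⟩ := exists_max_image
      ((layer G v i).powerset.filter fun I => ∀ x ∈ I, ∀ y ∈ I, ¬ G.Adj x y) (fun I => #I)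
      ⟨∅, by simp⟩
    rw [mem_filter, mem_powerset] at hI
    exact ⟨I, hI.1, hI.2, fun J hJ hJ' => hmax J (mem_filter.2 ⟨mem_powerset.2 hJ, hJ'⟩)⟩
  choose I hIsub hIind hImax using hex
  let J : ℕ → Finset V := fun t => ((range (t + 1)).filter fun s => s % 2 = t % 2).biUnion I
  have hJmem : ∀ t x, x ∈ J t → G.dist v x ≤ t ∧ G.dist v x % 2 = t % 2 ∧ x ∈ I (G.dist v x) := by
    intro t x hx
    simp only [J, mem_biUnion, mem_filter, mem_range] at hx
    obtain ⟨s, ⟨hs, hpar⟩, hxs⟩ := hx
    have := mem_layer.1 (hIsub s hxs)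
    rw [this]
    exact ⟨by omega, hpar, hxs⟩
  have hJind : ∀ t, ∀ x ∈ J t, ∀ y ∈ J t, ¬ G.Adj x y := by
    intro t x hx y hy h
    obtain ⟨-, px, hx'⟩ := hJmem t x hx
    obtain ⟨-, py, hy'⟩ := hJmem t y hy
    have := h.diff_dist_adj (u := v)
    rw [show G.dist v y = G.dist v x by omega] at hy'
    exact hIind _ x hx' y hy' h
  let A : ℕ → ℕ := fun t => #(J t)
  have hA0 : 1 ≤ A 0 := by
    have h := hImax 0 {v} (by simp [mem_layer]) (by simp)
    rw [card_singleton] at h
    refine h.trans (card_le_card fun x hx => ?_)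
    simp only [J, mem_biUnion, mem_filter, mem_range]
    exact ⟨0, by simp, hx⟩
  have hL0 : #(layer G v 0) = 1 := by
    rw [card_eq_one]
    refine ⟨v, ?_⟩
    ext u
    rw [mem_layer, mem_singleton, hconn.dist_eq_zero_iff, eq_comm]
  have hball : ∀ t, 1 ≤ A t → Fintype.card V ≤
      1 + ∑ s ∈ Icc 1 (t + 1), #(layer G v s) + (m - 1) * (n - 1 - A t) := by
    intro t h
    simp only [A] at h ⊢
    set S := univ.filter fun u => t + 1 < G.dist v u
    have hAn := hα _ (hJind t)
    have hS : #S ≤ (m - 1) * (n - 1 - #(J t)) := by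
      refine hsmall S _ (by omega) fun K hK hKind => ?_
      have hdisj : Disjoint K (J t) := disjoint_left.2 fun x hxK hxJ => by
        have := (mem_filter.1 (hK hxK)).2
        have := (hJmem t x hxJ).1
        omega
      have := hα (K ∪ J t) (by
        intro x hx y hy hxy
        have hd := hxy.diff_dist_adj (u := v)
        rcases mem_union.1 hx with hx | hx <;> rcases mem_union.1 hy with hy | hy
        · exact hKind x hx y hy hxy
        · have := (mem_filter.1 (hK hx)).2
          have := (hJmem t y hy).1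
          omega
        · have := (mem_filter.1 (hK hy)).2
          have := (hJmem t x hx).1
          omega
        · exact hJind t x hx y hy hxy)
      rw [card_union_of_disjoint hdisj] at this
      omega
    have hcov : (univ : Finset V) ⊆
        (layer G v 0 ∪ (Icc 1 (t + 1)).biUnion (layer G v)) ∪ S := by
      intro u _
      simp only [mem_union, mem_biUnion, mem_Icc, mem_layer, S, mem_filter, mem_univ, true_and]
      by_cases h0 : G.dist v u = 0
      · exact Or.inl (Or.inl h0)
      by_cases h1 : t + 1 < G.dist v u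
      · exact Or.inr h1
      · exact Or.inl (Or.inr ⟨_, ⟨by omega, by omega⟩, rfl⟩)
    have h1 := (card_le_card hcov).trans (card_union_le _ _)
    have h2 := card_union_le (layer G v 0) ((Icc 1 (t + 1)).biUnion (layer G v))
    have h3 := card_biUnion_le (s := Icc 1 (t + 1)) (t := layer G v)
    rw [card_univ] at h1
    omega
  have hsumA : ∀ t, ∑ s ∈ Icc 1 (t + 1), #(I s) + 1 ≤ A t + A (t + 1) := by
    intro t
    have hI0 : #(I 0) = 1 := by
      refine le_antisymm ((card_le_card (hIsub 0)).trans hL0.le) ?_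
      simpa using hImax 0 {v} (by simp [mem_layer]) (by simp)
    have hdisj : ∀ u, (J u).card = ∑ s ∈ (range (u + 1)).filter (fun s => s % 2 = u % 2), #(I s) := by
      intro u
      refine card_biUnion fun a _ b _ hab => disjoint_left.2 fun x hxa hxb => hab ?_
      rw [← mem_layer.1 (hIsub a hxa), ← mem_layer.1 (hIsub b hxb)]
    have hsplit : ∑ s ∈ range (t + 2), #(I s) = A t + A (t + 1) := by
      simp only [A, hdisj]
      rw [← sum_filter_add_sum_filter_not (range (t + 2)) (fun s => s % 2 = t % 2)]
      congr 1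
      · refine sum_congr ?_ fun _ _ => rfl
        ext s
        simp only [mem_filter, mem_range]
        omega
      · refine sum_congr ?_ fun _ _ => rfl
        ext s
        simp only [mem_filter, mem_range]
        omega
    have hins : range (t + 2) = insert 0 (Icc 1 (t + 1)) := by
      ext s
      simp only [mem_range, mem_insert, mem_Icc]
      omega
    rw [← hsplit, hins, sum_insert (by simp), hI0]
    omega
  -- the recursion, with slack `σ` from the first layer
  have hslack : m = 2 * q + 1 → #(layer G v 1) + 1 ≤ q * #(I 1) := by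
    intro hm
    by_contra h
    refine hexact ⟨hm, fun K hK hKind => ?_⟩
    have := Nat.mul_le_mul_left q (hImax 1 K hK hKind)
    omega
  have hgrow : ∀ t, t + 1 ≤ q → 1 ≤ A t → A t + 2 ≤ A (t + 1) ∧
      (q < A t → m = 2 * q + 2 → A t + 3 ≤ A (t + 1)) := by
    intro t ht hAt
    have hb := hball t hAt
    have hsum := hsumA t
    have hAn := hα _ (hJind t)
    have hcol' : ∀ s ∈ Icc 1 (t + 1), #(layer G v s) ≤ q * #(I s) := fun s hs =>
      hcol s (by rw [mem_Icc] at hs; omega) _ subset_rfl _ (hImax s)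
    have hlayers := sum_le_sum hcol'
    rw [← mul_sum] at hlayers
    obtain ⟨b, hn⟩ : ∃ b, n - 1 = A t + b := ⟨n - 1 - A t, by simp only [A] at hAt ⊢; omega⟩
    rw [hn, Nat.add_sub_cancel_left] at hb
    rw [hn] at hcard
    rcases hmq with hm | hm
    · refine ⟨?_, fun _ h => by omega⟩
      have hlt := sum_lt_sum hcol' ⟨1, by simp, by have := hslack hm; omega⟩
      rw [← mul_sum] at hlt
      subst hm
      simp only [Nat.add_sub_cancel] at hb hcard
      by_contra hcontra
      have := Nat.mul_le_mul_left q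
        (show ∑ s ∈ Icc 1 (t + 1), #(I s) ≤ 2 * A t by omega)
      nlinarith
    · subst hm
      simp only [show 2 * q + 2 - 1 = 2 * q + 1 by omega] at hb hcard
      refine ⟨?_, fun hqA _ => ?_⟩
      · by_contra hcontra
        have := Nat.mul_le_mul_left q
          (show ∑ s ∈ Icc 1 (t + 1), #(I s) ≤ 2 * A t by omega)
        nlinarith
      · by_contra hcontra
        have := Nat.mul_le_mul_left q
          (show ∑ s ∈ Icc 1 (t + 1), #(I s) ≤ 2 * A t + 1 by omega)
        nlinarith
  have hlow : ∀ t ≤ q, 2 * t + 1 ≤ A t := by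
    intro t ht
    induction t with
    | zero => simpa using hA0
    | succ t ih =>
      have := ih (by omega)
      have := (hgrow t ht (by omega)).1
      omega
  have hAq := hα _ (hJind q)
  have h1 := hlow q le_rfl
  rcases hmq with hm | hm
  · simp only [A] at h1; omega
  · have h2 := hlow (q - 1) (by omega)
    have h3 := (hgrow (q - 1) (by omega) (by omega)).2 (by omega) hm
    rw [show q - 1 + 1 = q by omega] at h3
    simp only [A] at h2 h3
    omega

end Vale.Agent.P048.Full
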