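import Vale.Agent.P048.Full.Indep
import Vale.Agent.P048.Full.Growth
import Vale.Agent.P048.Assembly

/-!
P048, full range: the generic step.  A dense part of one level of a search tree grown from a clique
contains a minimal one; that is a clique, or it has minimum degree `q`, no cut vertex and no proper
two-colouring, and then it closes a cycle of length exactly `m` through the tree.  In particular a
minimal counterexample has a clique on `q + 1` vertices.
-/

namespace Vale.Agent.P048.Full

open Finset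
open Dirac (StepIn PathIn CycleIn)
open Assembly (HasC)

variable {V : Type*} {G : SimpleGraph V}

/-- `S` is dense for the threshold `q α - c`. -/
def Bad (G : SimpleGraph V) (S : Finset V) (q c : ℕ) : Prop :=
  S.Nonempty ∧ q * aOn G S + 1 ≤ #S + c

/-- A minimal dense set is a clique or a block with minimum degree `q`. -/
theorem exists_minimal_bad [DecidableEq V] [DecidableRel G.Adj] {L : Finset V} {q c : ℕ}
    (hq : 2 ≤ q) (hc : c + 4 ≤ 2 * q) (hcq : c ≤ q) (hL : Bad G L q c) :
    (∃ D ⊆ L, #D = q + 1 - c ∧ ∀ a ∈ D, ∀ b ∈ D, a ≠ b → G.Adj a b) ∨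
      ∃ B ⊆ L, 2 ≤ aOn G B ∧ q * aOn G B + 1 ≤ #B + c ∧
        (∀ x ∈ B, q ≤ #(B.filter (G.Adj x))) ∧
        (∀ x ∈ B, ∀ y ∈ B, Relation.ReflTransGen (StepIn G B ∅) x y) ∧
        (∀ t ∈ B, ∀ x ∈ B, ∀ y ∈ B, x ≠ t → y ≠ t →
          Relation.ReflTransGen (StepIn G B {t}) x y) ∧
        ¬ ∃ f : V → Bool, ∀ x ∈ B, ∀ y ∈ B, G.Adj x y → f x ≠ f y := by
  classical
  obtain ⟨B, hB, hmin⟩ := (L.powerset.filter fun B => Bad G B q c).exists_min_image
    (fun B => #B) ⟨L, by simp [hL]⟩
  rw [mem_filter, mem_powerset] at hB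
  obtain ⟨hBL, hBne, hBbad⟩ := hB
  have hgood : ∀ T ⊆ B, T.Nonempty → #T < #B → #T + c ≤ q * aOn G T := fun T hT hne hlt => by
    by_contra h
    have := hmin T (mem_filter.2 ⟨mem_powerset.2 (hT.trans hBL), hne, by omega⟩)
    omega
  have hα1 := aOn_pos (G := G) hBne
  rcases hα1.eq_or_lt with h1 | h2
  · left
    have hq1 : q + 1 ≤ #B + c := by
      rw [← h1, Nat.mul_one] at hBbad; exact hBbad
    obtain ⟨D, hDB, hD⟩ := exists_subset_card_eq (s := B) (n := q + 1 - c) (by omega)
    exact ⟨D, hDB.trans hBL, hD, fun a ha b hb hab =>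
      clique_of_aOn_le_one h1.ge a (hDB ha) b (hDB hb) hab⟩
  right
  have h2q : 2 * q ≤ q * aOn G B := by rw [Nat.mul_comm 2 q]; exact Nat.mul_le_mul_left q h2
  refine ⟨B, hBL, h2, hBbad, fun x hx => ?_, fun x hx y hy => ?_,
    fun t ht x hx y hy hxt hyt => ?_, ?_⟩
  · have hcard := card_sdiff_nbr (G := G) hx
    have hsub : B \ insert x (B.filter (G.Adj x)) ⊆ B := sdiff_subset
    set T := B \ insert x (B.filter (G.Adj x)) with hT
    rcases T.eq_empty_or_nonempty with hT0 | hT0
    · rw [hT0, card_empty] at hcard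
      omega
    · have h3 := hgood T hsub hT0 (by omega)
      have h4 := Nat.mul_le_mul_left q (aOn_sdiff_nbr_lt (G := G) hx)
      rw [Nat.mul_add, Nat.mul_one, ← hT] at h4
      omega
  · by_contra hxy
    set R := compIn G B x with hR
    have hyR : y ∉ R := fun h => hxy (mem_filter.1 h).2
    have hxR : x ∈ R := mem_compIn_self hx
    have hsum := card_sdiff_add_card_eq_card (compIn_subset (G := G) (S := B) (x := x))
    rw [← hR] at hsum
    have hT : (B \ R).Nonempty := ⟨y, by simp [hy, hyR]⟩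
    have h3 := hgood R compIn_subset ⟨x, hxR⟩ (by have := card_pos.2 hT; omega)
    have h4 := hgood (B \ R) sdiff_subset hT (by have := card_pos.2 ⟨x, hxR⟩; omega)
    have h5 := aOn_union_le (G := G) (disjoint_sdiff (s := R) (t := B)) fun a ha b hb hab =>
      (mem_sdiff.1 hb).2 (compIn_closed ha (mem_sdiff.1 hb).1 hab)
    rw [union_sdiff_of_subset compIn_subset] at h5
    have h6 := Nat.mul_le_mul_left q h5
    rw [Nat.mul_add] at h6
    omega
  · by_contra hxy
    set R := B.filter fun z => z ≠ t ∧ Relation.ReflTransGen (StepIn G B {t}) x z with hR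
    set T := B.filter fun z => z ≠ t ∧ ¬ Relation.ReflTransGen (StepIn G B {t}) x z with hT
    have hxR : x ∈ R := by simp [hR, hx, hxt, Relation.ReflTransGen.refl]
    have hyT : y ∈ T := by simp [hT, hy, hyt, hxy]
    have htR : t ∉ R := by simp [hR]
    have htT : t ∉ T := by simp [hT]
    have hdisj : Disjoint R T := disjoint_filter.2 fun z _ h h' => h'.2 h.2
    have hcover : insert t (R ∪ T) = B := by
      ext z
      simp only [hR, hT, mem_insert, mem_union, mem_filter]
      constructor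
      · rintro (rfl | h | h) <;> tauto
      · intro h; by_cases z = t <;> tauto
    have hsum : #R + #T + 1 = #B := by
      rw [← hcover, card_insert_of_notMem (by simp [htR, htT]), card_union_of_disjoint hdisj]
    have hcross : ∀ a ∈ R, ∀ b ∈ T, ¬ G.Adj a b := by
      intro a ha b hb hab
      simp only [hR, hT, mem_filter] at ha hb
      exact hb.2.2 (ha.2.2.tail ⟨hab, ha.1, hb.1, by simpa using ha.2.1, by simpa using hb.2.1⟩)
    have h3 := hgood R (filter_subset _ _) ⟨x, hxR⟩ (by omega)
    have h4 := hgood T (filter_subset _ _) ⟨y, hyT⟩ (by omega)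
    have h5 := aOn_union_le (G := G) hdisj hcross
    have h5' : aOn G R + aOn G T ≤ aOn G B :=
      h5.trans (aOn_mono (union_subset (filter_subset _ _) (filter_subset _ _)))
    have h6 := Nat.mul_le_mul_left q h5'
    rw [Nat.mul_add] at h6
    -- both parts are exact, so `t` extends a largest independent set of each
    have hext : ∀ P : Finset V, P ⊆ B → P.Nonempty → t ∉ P → #P + 1 < #B →
        #P + c = q * aOn G P → c = 0 → ∃ I ⊆ P, #I = aOn G P ∧ (∀ a ∈ I, ∀ b ∈ I, ¬ G.Adj a b) ∧
          ∀ a ∈ I, ¬ G.Adj t a := by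
      intro P hP hPne htP hlt hex hc0
      have h := hgood (insert t P) (insert_subset ht hP) (insert_nonempty _ _)
        (by rw [card_insert_of_notMem htP]; omega)
      rw [card_insert_of_notMem htP] at h
      have hgt : aOn G P < aOn G (insert t P) := by
        by_contra hle
        have := Nat.mul_le_mul_left q (Nat.le_of_not_lt hle)
        omega
      obtain ⟨I, hI, hIc, hind⟩ := exists_aOn G (insert t P)
      have htI : t ∈ I := by
        by_contra htI
        have : I ⊆ P := fun z hz => by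
          rcases mem_insert.1 (hI hz) with rfl | h'
          · exact absurd hz htI
          · exact h'
        have := card_le_aOn this hind
        omega
      have hsubP : I.erase t ⊆ P := fun z hz => by
        rw [mem_erase] at hz
        exact (mem_insert.1 (hI hz.2)).resolve_left hz.1
      have := card_erase_of_mem htI
      have := card_le_aOn hsubP fun a ha b hb => hind a (mem_of_mem_erase ha) b (mem_of_mem_erase hb)
      exact ⟨I.erase t, hsubP, by omega,
        fun a ha b hb => hind a (mem_of_mem_erase ha) b (mem_of_mem_erase hb),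
        fun a ha => hind t htI a (mem_of_mem_erase ha)⟩
    obtain ⟨I, hI, hIc, hIi, hIt⟩ := hext R (filter_subset _ _) ⟨x, hxR⟩ htR
      (by have := card_pos.2 ⟨y, hyT⟩; omega) (by omega) (by omega)
    obtain ⟨J, hJ, hJc, hJi, hJt⟩ := hext T (filter_subset _ _) ⟨y, hyT⟩ htT
      (by have := card_pos.2 ⟨x, hxR⟩; omega) (by omega) (by omega)
    have htu : t ∉ I ∪ J := by
      rw [mem_union]; rintro (h | h)
      · exact htR (hI h)
      · exact htT (hJ h)
    have := card_le_aOn (G := G) (S := B) (I := insert t (I ∪ J))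
      (insert_subset ht (union_subset (hI.trans (filter_subset _ _))
        (hJ.trans (filter_subset _ _))))
      (indep_insert (fun a ha b hb => by
        rcases mem_union.1 ha with ha | ha <;> rcases mem_union.1 hb with hb | hb
        · exact hIi a ha b hb
        · exact hcross a (hI ha) b (hJ hb)
        · exact fun h => hcross b (hI hb) a (hJ ha) h.symm
        · exact hJi a ha b hb)
        fun a ha => (mem_union.1 ha).elim (hIt a) (hJt a))
    rw [card_insert_of_notMem htu, card_union_of_disjoint (hdisj.mono hI hJ), hIc, hJc] at this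
    have h7 := Nat.mul_le_mul_left q this
    rw [Nat.mul_add, Nat.mul_add, Nat.mul_one] at h7
    omega
  · rintro ⟨f, hf⟩
    have h3 := card_le_aOn (G := G) (filter_subset (fun z => f z = true) B) fun a ha b hb hab =>
      hf a (mem_filter.1 ha).1 b (mem_filter.1 hb).1 hab
        ((mem_filter.1 ha).2.trans (mem_filter.1 hb).2.symm)
    have h4 := card_le_aOn (G := G) (filter_subset (fun z => ¬ f z = true) B)
      fun a ha b hb hab => by
        have h1 := (mem_filter.1 ha).2
        have h2 := (mem_filter.1 hb).2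
        have := hf a (mem_filter.1 ha).1 b (mem_filter.1 hb).1 hab
        cases hfa : f a <;> cases hfb : f b <;> simp_all
    have h5 := card_filter_add_card_filter_not (s := B) (fun z => f z = true)
    obtain ⟨k, hk⟩ : ∃ k, aOn G B = k + 2 := ⟨aOn G B - 2, by omega⟩
    rw [hk, Nat.mul_add] at hBbad
    rw [hk] at h3 h4
    have := Nat.mul_le_mul_right k hq
    omega

/-- In a connected non-bipartite set some edge or some path of two edges crosses `P`. -/
theorem exists_short_cross {B : Finset V}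
    (hconn : ∀ x ∈ B, ∀ y ∈ B, Relation.ReflTransGen (StepIn G B ∅) x y)
    (hnb : ¬ ∃ f : V → Bool, ∀ x ∈ B, ∀ y ∈ B, G.Adj x y → f x ≠ f y)
    (P : V → Prop) (hP : ∃ v ∈ B, P v) (hnP : ∃ v ∈ B, ¬ P v) {l : ℕ} (hl : l = 1 ∨ l = 2) :
    ∃ (q : List V) (hne : q ≠ []), PathIn G B q ∧ q.length = l + 1 ∧ P (q.head hne) ∧
      ¬ P (q.getLast hne) := by
  classical
  obtain ⟨a, ha, hPa⟩ := hP
  obtain ⟨b, hb, hPb⟩ := hnP
  obtain ⟨u, w, hu, hw, huw, hPu, hPw⟩ :
      ∃ u w, u ∈ B ∧ w ∈ B ∧ G.Adj u w ∧ P u ∧ ¬ P w := by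
    by_contra hcon
    push Not at hcon
    have key : ∀ z, Relation.ReflTransGen (StepIn G B ∅) a z → P z := by
      intro z hz
      induction hz with
      | refl => exact hPa
      | @tail x y _ hxy ih => exact hcon x y hxy.2.1 hxy.2.2.1 hxy.1 ih
    exact hPb (key b (hconn a ha b hb))
  rcases hl with rfl | rfl
  · exact ⟨[u, w], by simp, ⟨by simp [huw.ne], by simp [hu, hw], by simp [huw]⟩, rfl, hPu, hPw⟩
  by_contra hcon
  -- every vertex sees only one colour, so adjacent vertices differ
  have hmono : ∀ x ∈ B, ∀ y ∈ B, ∀ z ∈ B, G.Adj x y → G.Adj y z → (P x ↔ P z) := by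
    intro x hx y hy z hz hxy hyz
    by_cases hxz : x = z
    · rw [hxz]
    by_contra hiff
    rcases em (P x) with hPx | hPx
    · exact hcon ⟨[x, y, z], by simp, ⟨by simp [hxy.ne, hxz, hyz.ne], by simp [hx, hy, hz],
        by simp [hxy, hyz]⟩, rfl, hPx, fun h => hiff ⟨fun _ => h, fun _ => hPx⟩⟩
    · exact hcon ⟨[z, y, x], by simp, ⟨by simp [hxy.ne', Ne.symm hxz, hyz.ne'],
        by simp [hx, hy, hz], by simp [hxy.symm, hyz.symm]⟩, rfl,
        by by_contra h; exact hiff ⟨fun h' => absurd h' hPx, fun h' => absurd h' h⟩, hPx⟩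
  have key : ∀ z, Relation.ReflTransGen (StepIn G B ∅) u z →
      ∀ y ∈ B, G.Adj z y → ¬ (P z ↔ P y) := by
    intro z hz
    induction hz with
    | refl =>
      intro y hy huy h
      exact hPw ((hmono y hy u hu w hw huy.symm huw).1 (h.1 hPu))
    | @tail x z _ hxz ih =>
      intro y hy hzy h
      exact ih z hxz.2.2.1 hxz.1 ((hmono x hxz.2.1 z hxz.2.2.1 y hy hxz.1 hzy).trans h.symm)
  exact hnb ⟨fun z => decide (P z), fun x hx y hy hxy he =>
    key x (hconn u hu x hx) y hy hxy (by simpa using he)⟩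

/-- A crossing path in `B` and an outer path of `D` edges close a cycle on `m` vertices. -/
theorem hasC_of_outer [Fintype V] [DecidableEq V] [DecidableRel G.Adj] {B A : Finset V}
    {m q D : ℕ} (hBne : B.Nonempty)
    (hdeg : ∀ x ∈ B, q ≤ #(B.filter (G.Adj x)))
    (hconn : ∀ x ∈ B, ∀ y ∈ B, Relation.ReflTransGen (StepIn G B ∅) x y)
    (hcut : ∀ t ∈ B, ∀ x ∈ B, ∀ y ∈ B, x ≠ t → y ≠ t →
      Relation.ReflTransGen (StepIn G B {t}) x y)
    (hbip : ¬ ∃ f : V → Bool, ∀ x ∈ B, ∀ y ∈ B, G.Adj x y → f x ≠ f y)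
    (hD : 2 ≤ D) (hDm : D < m) (hb : m < #B + D) (hqm : m < 2 * q + D)
    (hq : 3 ≤ q ∨ m ≤ D + 2)
    (hAB : A ⊆ B) (hA : A.Nonempty) (hBA : (B \ A).Nonempty)
    (hX : ∀ a ∈ A, ∀ b ∈ B \ A, ∃ X : List V, X.length = D - 1 ∧ X.Nodup ∧ (∀ x ∈ X, x ∉ B) ∧
      (a :: (X ++ [b])).IsChain G.Adj) : HasC G m := by
  have hPA : ∃ v ∈ B, v ∈ A := by obtain ⟨a, ha⟩ := hA; exact ⟨a, hAB ha, ha⟩
  have hPB : ∃ v ∈ B, v ∉ A := by
    obtain ⟨b, hb'⟩ := hBA; exact ⟨b, (mem_sdiff.1 hb').1, (mem_sdiff.1 hb').2⟩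
  obtain ⟨p, hne, hp, hplen, hpA, hpB⟩ : ∃ (p : List V) (hne : p ≠ []), PathIn G B p ∧
      p.length = m - D + 1 ∧ p.head hne ∈ A ∧ p.getLast hne ∉ A := by
    by_cases h2 : m ≤ D + 2
    · exact exists_short_cross hconn hbip (· ∈ A) hPA hPB (by omega)
    · obtain ⟨c, hc, hclen⟩ := Dirac.exists_cycle hBne hconn hcut (q := q) (by omega) hdeg
      exact Cross.exists_path_cross hc
        (fun v hv => le_trans (by omega) (hdeg v (hc.1.2.1 v hv))) hconn hbip
        (show 1 ≤ m - D by omega) (show m - D < c.length by omega) (· ∈ A) hPA hPB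
  obtain ⟨X, hXl, hXn, hXB, hXc⟩ := hX _ hpA _
    (mem_sdiff.2 ⟨hp.2.1 _ (List.getLast_mem hne), hpB⟩)
  have hXne : X ≠ [] := by intro h; simp [h] at hXl; omega
  rw [List.isChain_cons, List.isChain_append] at hXc
  obtain ⟨hhead, hXch, -, hlast⟩ := hXc
  refine ⟨p ++ X.reverse, ⟨⟨List.nodup_append'.2 ⟨hp.1, List.nodup_reverse.2 hXn,
    fun x hx hx' => hXB x (List.mem_reverse.1 hx') (hp.2.1 x hx)⟩, fun x _ => mem_univ x, ?_⟩,
    by simp [hne], ?_⟩, by simp [hplen, hXl]; omega⟩
  · rw [List.isChain_append]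
    refine ⟨hp.2.2, ?_, fun x hx y hy => ?_⟩
    · rw [List.isChain_reverse]; exact hXch.imp fun a b h => h.symm
    · rw [List.head?_reverse] at hy
      rw [List.getLast?_eq_some_getLast hne, Option.mem_def, Option.some.injEq] at hx
      rw [← hx]
      exact (hlast y hy _ (by simp)).symm
  · rw [List.getLast_append_of_ne_nil _ (by simpa using hXne), List.getLast_reverse,
      List.head_append_of_ne_nil hne]
    refine (hhead _ ?_).symm
    rw [List.head?_append_of_ne_nil _ hXne, List.head?_eq_some_head hXne]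
    exact rfl

/-- The tree path up from `a`. -/
theorem tree_up (lev : V → ℕ) (par : V → V)
    (hpar : ∀ u, lev u ≠ 0 → G.Adj u (par u) ∧ lev (par u) + 1 = lev u) :
    ∀ (k : ℕ) (a : V), k ≤ lev a → lev (par^[k] a) + k = lev a ∧
      ((List.range (k + 1)).map fun j => par^[j] a).IsChain G.Adj := by
  intro k
  induction k with
  | zero => intro a _; simp
  | succ k ih =>
    intro a hk
    obtain ⟨h1, h2⟩ := ih a (by omega)
    obtain ⟨h3, h4⟩ := hpar (par^[k] a) (by omega)
    refine ⟨by rw [Function.iterate_succ_apply']; omega, ?_⟩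
    rw [List.range_succ, List.map_append, List.map_singleton, List.isChain_append]
    refine ⟨h2, by simp, fun x hx y hy => ?_⟩
    rw [List.getLast?_map, List.getLast?_range] at hx
    simp at hx hy
    rw [← hx, ← hy, ← Function.iterate_succ_apply, Function.iterate_succ_apply']
    exact h3

/-- A part of one level splits so that all crossing pairs have outer paths of one length: through
a first common ancestor, or through the root clique by any number of its edges. -/
theorem exists_outer [DecidableEq V] (lev : V → ℕ) (par : V → V)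
    (hpar : ∀ u, lev u ≠ 0 → G.Adj u (par u) ∧ lev (par u) + 1 = lev u)
    (R : Finset V) (hR : ∀ u, u ∈ R ↔ lev u = 0)
    (hRc : ∀ a ∈ R, ∀ b ∈ R, a ≠ b → G.Adj a b)
    {B : Finset V} {i : ℕ} (hB : ∀ x ∈ B, lev x = i) (hB2 : 2 ≤ #B) (hi : 1 ≤ i) :
    ∃ A ⊆ B, A.Nonempty ∧ (B \ A).Nonempty ∧
      ((∃ d w, 1 ≤ d ∧ d ≤ i ∧ w ∉ B ∧ (d = 1 → ∀ x ∈ B, G.Adj w x) ∧
          ∀ a ∈ A, ∀ b ∈ B \ A, ∃ X : List V, X.length = 2 * d - 1 ∧ X.Nodup ∧
            (∀ x ∈ X, x ∉ B) ∧ (a :: (X ++ [b])).IsChain G.Adj) ∨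
        (2 ≤ #R ∧ ∀ e, 1 ≤ e → e + 1 ≤ #R → ∀ a ∈ A, ∀ b ∈ B \ A,
          ∃ X : List V, X.length = 2 * i + e - 1 ∧ X.Nodup ∧
            (∀ x ∈ X, x ∉ B) ∧ (a :: (X ++ [b])).IsChain G.Adj)) := by
  classical
  have hup := tree_up lev par hpar
  -- climbing lists
  have hlev : ∀ a ∈ B, ∀ j, j ≤ i → lev (par^[j] a) + j = i := fun a ha j hj => by
    have := (hup j a (by rw [hB a ha]; exact hj)).1
    rw [hB a ha] at this
    exact this
  have hmerge : ∀ a b : V, ∀ j k, j ≤ k → par^[j] a = par^[j] b → par^[k] a = par^[k] b := by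
    intro a b j k hjk h
    obtain ⟨r, rfl⟩ := Nat.exists_eq_add_of_le' hjk
    rw [Function.iterate_add_apply, Function.iterate_add_apply, h]
  let up : V → ℕ → List V := fun a k => (List.range k).map fun j => par^[j + 1] a
  have hup_mem : ∀ a k x, x ∈ up a k → ∃ j, 1 ≤ j ∧ j ≤ k ∧ par^[j] a = x := by
    intro a k x hx
    obtain ⟨j, hj, rfl⟩ := List.mem_map.1 hx
    exact ⟨j + 1, by omega, by have := List.mem_range.1 hj; omega, rfl⟩
  have hup_chain : ∀ a ∈ B, ∀ k, k ≤ i → (a :: up a k).IsChain G.Adj := by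
    intro a ha k hk
    have h := (hup k a (by rw [hB a ha]; exact hk)).2
    rw [List.range_succ_eq_map, List.map_cons, List.map_map] at h
    exact h
  have hup_nd : ∀ a ∈ B, ∀ k, k ≤ i → (up a k).Nodup := by
    intro a ha k hk
    refine List.Nodup.map_on (fun x hx y hy h => ?_) List.nodup_range
    have hx := List.mem_range.1 hx
    have hy := List.mem_range.1 hy
    have h1 := hlev a ha (x + 1) (by omega)
    have h2 := hlev a ha (y + 1) (by omega)
    rw [h] at h1
    omega
  -- join two climbs by a middle list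
  have hjoin : ∀ a ∈ B, ∀ b ∈ B, ∀ k, k ≤ i → (∀ j ≤ k, par^[j] a ≠ par^[j] b) →
      ∀ M : List V, M.Nodup → (∀ x ∈ M, lev x + k ≤ i ∧ x ≠ par^[k] a ∧ x ≠ par^[k] b) →
        (par^[k] a :: (M ++ [par^[k] b])).IsChain G.Adj →
        ∃ X : List V, X.length = 2 * k + M.length ∧ X.Nodup ∧ (∀ x ∈ X, x ∉ B ∨ k = 0 ∧ x ∈ M) ∧
          (a :: (X ++ [b])).IsChain G.Adj := by
    intro a ha b hb k hk hne M hMn hM hMc
    have hdup : ∀ c ∈ B, c = a ∨ c = b → ∀ x ∈ up c k, x ∉ M := by
      intro c hc hcc x hx hxM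
      obtain ⟨j, hj1, hj2, rfl⟩ := hup_mem c k x hx
      have h1 := hlev c hc j (by omega)
      obtain ⟨h2, h3, h4⟩ := hM _ hxM
      have : j = k := by omega
      subst this
      exact hcc.elim (fun e => h3 (by rw [e])) fun e => h4 (by rw [e])
    refine ⟨up a k ++ M ++ (up b k).reverse, ?_, ?_, ?_, ?_⟩
    · simp [up]; omega
    · rw [List.nodup_append', List.nodup_append']
      refine ⟨⟨hup_nd a ha k hk, hMn, fun x hx hx' => hdup a ha (Or.inl rfl) x hx hx'⟩,
        List.nodup_reverse.2 (hup_nd b hb k hk), fun x hx hx' => ?_⟩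
      rw [List.mem_reverse] at hx'
      rcases List.mem_append.1 hx with h | h
      · obtain ⟨j, hj1, hj2, rfl⟩ := hup_mem a k x h
        obtain ⟨j', hj1', hj2', he⟩ := hup_mem b k _ hx'
        have h1 := hlev a ha j (by omega)
        have h2 := hlev b hb j' (by omega)
        rw [he] at h2
        have : j' = j := by omega
        subst this
        exact hne _ (by omega) he.symm
      · exact hdup b hb (Or.inr rfl) x hx' h
    · intro x hx
      rcases List.mem_append.1 hx with h | h
      rcases List.mem_append.1 h with h | h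
      · obtain ⟨j, hj1, hj2, rfl⟩ := hup_mem a k x h
        left; intro hxB
        have := hlev a ha j (by omega); have := hB _ hxB; omega
      · rcases Nat.eq_zero_or_pos k with hk0 | hk0
        · exact Or.inr ⟨hk0, h⟩
        · left; intro hxB
          have := (hM x h).1; have := hB _ hxB; omega
      · obtain ⟨j, hj1, hj2, rfl⟩ := hup_mem b k x (List.mem_reverse.1 h)
        left; intro hxB
        have := hlev b hb j (by omega); have := hB _ hxB; omega
    · have hl : (a :: up a k).getLast (by simp) = par^[k] a := by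
        rcases Nat.eq_zero_or_pos k with rfl | hk0
        · simp [up]
        · rw [List.getLast_eq_getElem]
          simp [up, List.getElem_cons, show k ≠ 0 by omega]
          rw [← Function.iterate_succ_apply, Nat.succ_eq_add_one, show k - 1 + 1 = k by omega]
      have hl' : (b :: up b k).getLast (by simp) = par^[k] b := by
        rcases Nat.eq_zero_or_pos k with rfl | hk0
        · simp [up]
        · rw [List.getLast_eq_getElem]
          simp [up, List.getElem_cons, show k ≠ 0 by omega]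
          rw [← Function.iterate_succ_apply, Nat.succ_eq_add_one, show k - 1 + 1 = k by omega]
      rw [List.isChain_cons, List.isChain_append] at hMc
      obtain ⟨hMh, hMch, -, hMl⟩ := hMc
      have e : a :: (up a k ++ M ++ (up b k).reverse ++ [b]) =
          (a :: up a k) ++ (M ++ (b :: up b k).reverse) := by simp
      rw [e, List.isChain_append, List.isChain_append, List.isChain_reverse]
      refine ⟨hup_chain a ha k hk, ⟨hMch, (hup_chain b hb k hk).imp fun _ _ h => h.symm,
        fun x hx y hy => ?_⟩, fun x hx y hy => ?_⟩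
      · rw [List.head?_reverse, List.getLast?_eq_some_getLast (by simp), hl'] at hy
        exact hMl x hx y (by simpa using hy)
      · rw [List.getLast?_eq_some_getLast (by simp), hl, Option.mem_def, Option.some.injEq] at hx
        subst hx
        refine hMh y ?_
        rcases M with _ | ⟨z, M'⟩
        · simp only [List.nil_append] at hy ⊢
          rw [List.head?_reverse, List.getLast?_eq_some_getLast (by simp), hl'] at hy
          simpa using hy
        · simpa using hy
  obtain ⟨a₀, ha₀⟩ := card_pos.1 (show 0 < #B by omega)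
  by_cases hroots : ∀ x ∈ B, ∀ y ∈ B, par^[i] x = par^[i] y
  · have hP : ∃ j, ∀ x ∈ B, ∀ y ∈ B, par^[j] x = par^[j] y := ⟨i, hroots⟩
    set d := Nat.find hP with hd
    have hspec := Nat.find_spec hP
    have hdi : d ≤ i := Nat.find_le hroots
    have hd1 : 1 ≤ d := by
      by_contra h
      obtain ⟨x, hx, y, hy, hxy⟩ := one_lt_card.1 (show 1 < #B by omega)
      have := hspec x hx y hy
      rw [← hd, show d = 0 by omega] at this
      exact hxy this
    obtain ⟨a₁, ha₁, b₁, hb₁, hne⟩ : ∃ a ∈ B, ∃ b ∈ B, par^[d - 1] a ≠ par^[d - 1] b := by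
      have := Nat.find_min hP (show d - 1 < d by omega)
      push Not at this
      exact this
    refine ⟨B.filter fun x => par^[d - 1] x = par^[d - 1] a₁, filter_subset _ _,
      ⟨a₁, by simp [ha₁]⟩, ⟨b₁, by simp [hb₁, Ne.symm hne]⟩,
      Or.inl ⟨d, par^[d] a₁, hd1, hdi, fun h => by
        have := hlev a₁ ha₁ d hdi; have := hB _ h; omega, fun h1 x hx => ?_, fun a ha b hb => ?_⟩⟩
    · have h := hspec x hx a₁ ha₁
      rw [← hd, h1, Function.iterate_one] at h
      rw [h1, Function.iterate_one, ← h]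
      exact (hpar x (by rw [hB x hx]; omega)).1.symm
    · simp only [mem_filter, mem_sdiff, not_and] at ha hb
      have hdiff : ∀ j ≤ d - 1, par^[j] a ≠ par^[j] b := fun j hj h =>
        hb.2 hb.1 ((hmerge a b j (d - 1) hj h).symm.trans ha.2)
      have heq := hspec a ha.1 b hb.1
      rw [← hd, show d = d - 1 + 1 by omega, Function.iterate_succ_apply',
        Function.iterate_succ_apply'] at heq
      have ha' := hlev a ha.1 (d - 1) (by omega)
      have hb' := hlev b hb.1 (d - 1) (by omega)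
      obtain ⟨p1, p2⟩ := hpar (par^[d - 1] a) (by omega)
      obtain ⟨p3, p4⟩ := hpar (par^[d - 1] b) (by omega)
      obtain ⟨X, h1, h2, h3, h4⟩ := hjoin a ha.1 b hb.1 (d - 1) (by omega) hdiff
        [par (par^[d - 1] a)] (List.nodup_singleton _)
        (by simp only [List.mem_singleton, forall_eq]
            exact ⟨by omega, p1.ne', by rw [heq]; exact p3.ne'⟩)
        (List.isChain_cons_cons.2 ⟨p1, List.isChain_cons_cons.2 ⟨heq ▸ p3.symm,
          List.isChain_singleton _⟩⟩)
      refine ⟨X, by simp at h1; omega, h2, fun x hx hxB => ?_, h4⟩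
      rcases h3 x hx with h | ⟨h, hM⟩
      · exact h hxB
      · rw [List.mem_singleton.1 hM] at hxB
        have := hB _ hxB
        omega
  · push Not at hroots
    obtain ⟨a₁, ha₁, b₁, hb₁, hne⟩ := hroots
    have hroot : ∀ x ∈ B, par^[i] x ∈ R := fun x hx => (hR _).2 (by
      have := hlev x hx i le_rfl; omega)
    have hR2 : 2 ≤ #R := by
      have := card_le_card (show ({par^[i] a₁, par^[i] b₁} : Finset V) ⊆ R by
        simp [insert_subset_iff, hroot a₁ ha₁, hroot b₁ hb₁])
      rwa [card_pair hne] at this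
    refine ⟨B.filter fun x => par^[i] x = par^[i] a₁, filter_subset _ _, ⟨a₁, by simp [ha₁]⟩,
      ⟨b₁, by simp [hb₁, Ne.symm hne]⟩, Or.inr ⟨hR2, fun e he1 he2 a ha b hb => ?_⟩⟩
    simp only [mem_filter, mem_sdiff, not_and] at ha hb
    have hab : par^[i] a ≠ par^[i] b := fun h => hb.2 hb.1 (h.symm.trans ha.2)
    obtain ⟨M, hMR, hMc⟩ := exists_subset_card_eq (s := (R.erase (par^[i] a)).erase (par^[i] b))
      (n := e - 1) (by
        rw [card_erase_of_mem (mem_erase.2 ⟨hab.symm, hroot b hb.1⟩),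
          card_erase_of_mem (hroot a ha.1)]
        omega)
    have hMm : ∀ z ∈ M.toList, z ∈ R ∧ z ≠ par^[i] a ∧ z ≠ par^[i] b := fun z hz => by
      have := hMR (mem_toList.1 hz)
      simp only [mem_erase] at this
      exact ⟨this.2.2, this.2.1, this.1⟩
    have hMc' : (par^[i] a :: (M.toList ++ [par^[i] b])).IsChain G.Adj := by
      have hnd : (par^[i] a :: (M.toList ++ [par^[i] b])).Nodup := by
        rw [List.nodup_cons, List.nodup_append']
        exact ⟨by simp [hab]; exact fun h => (hMm _ (mem_toList.2 h)).2.1 rfl,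
          nodup_toList _, List.nodup_singleton _,
          by simpa using fun h => (hMm _ (mem_toList.2 h)).2.2 rfl⟩
      have hmem : ∀ z ∈ par^[i] a :: (M.toList ++ [par^[i] b]), z ∈ R := fun z hz => by
        simp only [List.mem_cons, List.mem_append, List.not_mem_nil, or_false] at hz
        rcases hz with rfl | hz | rfl
        · exact hroot a ha.1
        · exact (hMm z hz).1
        · exact hroot b hb.1
      exact List.isChain_iff_getElem.2 fun k hk => hRc _ (hmem _ (List.getElem_mem _)) _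
        (hmem _ (List.getElem_mem _)) fun h => by
          have := (List.Nodup.getElem_inj_iff hnd).1 h
          omega
    obtain ⟨X, h1, h2, h3, h4⟩ := hjoin a ha.1 b hb.1 i le_rfl
      (fun j hj h => hab (hmerge a b j i hj h)) M.toList (nodup_toList _)
      (fun z hz => ⟨by rw [(hR z).1 (hMm z hz).1]; omega, (hMm z hz).2⟩) hMc'
    refine ⟨X, by simp [hMc] at h1; omega, h2, fun x hx hxB => ?_, h4⟩
    rcases h3 x hx with h | ⟨h, -⟩
    · exact h hxB
    · omega

/-- A block in one level with at least `m - 1` vertices closes a cycle on `m` vertices. -/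
theorem hasC_of_block [Fintype V] [DecidableEq V] [DecidableRel G.Adj] (lev : V → ℕ) (par : V → V)
    (hpar : ∀ u, lev u ≠ 0 → G.Adj u (par u) ∧ lev (par u) + 1 = lev u)
    (R : Finset V) (hR : ∀ u, u ∈ R ↔ lev u = 0)
    (hRc : ∀ a ∈ R, ∀ b ∈ R, a ≠ b → G.Adj a b)
    {B : Finset V} {i m q : ℕ} (hq : 2 ≤ q) (hm : 2 * q + 1 ≤ m) (hm' : m ≤ 2 * q + 2)
    (hB : ∀ x ∈ B, lev x = i) (hi : 1 ≤ i) (him : 2 * i + 1 ≤ m)
    (hroots : #R ≤ 1 ∨ 2 * i + 2 ≤ m ∧ (3 ≤ q ∨ m ≤ 2 * i + 3))
    (hb : m - 1 ≤ #B) (hdeg : ∀ x ∈ B, q ≤ #(B.filter (G.Adj x)))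
    (hconn : ∀ x ∈ B, ∀ y ∈ B, Relation.ReflTransGen (StepIn G B ∅) x y)
    (hcut : ∀ t ∈ B, ∀ x ∈ B, ∀ y ∈ B, x ≠ t → y ≠ t →
      Relation.ReflTransGen (StepIn G B {t}) x y)
    (hbip : ¬ ∃ f : V → Bool, ∀ x ∈ B, ∀ y ∈ B, G.Adj x y → f x ≠ f y) : HasC G m := by
  have hBne : B.Nonempty := card_pos.1 (by omega)
  obtain ⟨A, hAB, hA, hBA, ⟨d, w, hd1, hdi, hwB, hw, hX⟩ | ⟨hR2, hX⟩⟩ :=
    exists_outer lev par hpar R hR hRc hB (by omega) hi
  · rcases hd1.eq_or_lt with rfl | hd2
    · obtain ⟨l, hl, hlen⟩ := Dirac.exists_path hBne hconn hdeg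
      set l' := l.take (m - 1) with hl'
      have hlen' : l'.length = m - 1 := by rw [hl', List.length_take]; omega
      have hsub : List.Sublist l' l := List.take_sublist _ _
      have hne : l' ≠ [] := by intro h; simp [h] at hlen'; omega
      refine ⟨w :: l', ⟨⟨List.nodup_cons.2 ⟨fun h => hwB (hl.2.1 _ (hsub.subset h)),
        hl.1.sublist hsub⟩, fun x _ => mem_univ x, ?_⟩, by simp, ?_⟩, by simp [hlen']; omega⟩
      · rw [List.isChain_cons]
        refine ⟨fun y hy => hw rfl y (hl.2.1 _ (hsub.subset (List.mem_of_mem_head? hy))), ?_⟩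
        exact hl.2.2.take _
      · rw [List.getLast_cons hne, List.head_cons]
        exact (hw rfl _ (hl.2.1 _ (hsub.subset (List.getLast_mem hne)))).symm
    · exact hasC_of_outer hBne hdeg hconn hcut hbip (D := 2 * d) (by omega) (by omega) (by omega)
        (by omega) (by omega) hAB hA hBA hX
  · exact hasC_of_outer hBne hdeg hconn hcut hbip (D := 2 * i + 1) (by omega) (by omega) (by omega)
      (by omega) (by omega) hAB hA hBA (fun a ha b hb => hX 1 le_rfl (by omega) a ha b hb)

/-- Parents in a search tree from one vertex. -/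
theorem exists_parent (hconn : G.Connected) (v : V) :
    ∃ par : V → V, ∀ u, G.dist v u ≠ 0 → G.Adj u (par u) ∧ G.dist v (par u) + 1 = G.dist v u := by
  classical
  have hex : ∀ u, ∃ p, G.dist v u ≠ 0 → G.Adj u p ∧ G.dist v p + 1 = G.dist v u := by
    intro u
    obtain ⟨p, hp⟩ := hconn.exists_walk_length_eq_dist u v
    rcases p with _ | ⟨h, p'⟩
    · exact ⟨v, fun h => absurd (SimpleGraph.dist_self) h⟩
    rename_i c
    refine ⟨c, fun _ => ⟨h, ?_⟩⟩
    have h1 := SimpleGraph.dist_le p'
    have h2 := hconn.dist_triangle (u := v) (v := c) (w := u)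
    have h3 := SimpleGraph.dist_le h.symm.toWalk
    simp only [SimpleGraph.Adj.toWalk, SimpleGraph.Walk.length_cons,
      SimpleGraph.Walk.length_nil] at hp h3
    rw [SimpleGraph.dist_comm (u := c) (v := v)] at h1
    rw [SimpleGraph.dist_comm (u := u) (v := v)] at hp
    omega
  choose par hpar using hex
  exact ⟨par, hpar⟩

/-- The growth hypothesis on small sets, from the independence number. -/
theorem noDense_of_good {L : Finset V} {q : ℕ} (h : Good G L q) : NoDense G L q :=
  fun T hT => h T hT _ fun _ hI hI' => card_le_aOn hI hI'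

/-- A minimal counterexample has a clique on `q + 1` vertices. -/
theorem exists_clique [Fintype V] [DecidableEq V] [DecidableRel G.Adj] (hconn : G.Connected)
    {m n q : ℕ} (hq : 2 ≤ q) (hmq : m = 2 * q + 1 ∨ m = 2 * q + 2) (hnm : n ≤ m)
    (hnoC : ¬ HasC G m)
    (hα : ∀ I : Finset V, (∀ x ∈ I, ∀ y ∈ I, ¬ G.Adj x y) → #I < n)
    (hcard : (m - 1) * (n - 1) < Fintype.card V)
    (hdeg : ∀ x, m - 1 ≤ #(univ.filter (G.Adj x)))
    (hsmall : ∀ (S : Finset V) (j : ℕ), j + 1 < n →
      (∀ I ⊆ S, (∀ x ∈ I, ∀ y ∈ I, ¬ G.Adj x y) → #I ≤ j) → #S ≤ (m - 1) * j) :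
    ∃ D : Finset V, #D = q + 1 ∧ ∀ a ∈ D, ∀ b ∈ D, a ≠ b → G.Adj a b := by
  classical
  obtain ⟨v⟩ : Nonempty V := Fintype.card_pos_iff.1 (by omega)
  have hstep : ∀ i, i ≤ q → ¬ Good G (layer G v i) q →
      ∃ D : Finset V, #D = q + 1 ∧ ∀ a ∈ D, ∀ b ∈ D, a ≠ b → G.Adj a b := by
    intro i hiq hi
    simp only [Good, not_forall, not_le] at hi
    obtain ⟨S, hS, k, hk, hlt⟩ := hi
    have hne : S.Nonempty := card_pos.1 (by omega)
    obtain ⟨I, hI, hIc, hind⟩ := exists_aOn G S
    have hbad : Bad G S q 0 := ⟨hne, by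
      have := Nat.mul_le_mul_left q (show aOn G S ≤ k from hIc ▸ hk I hI hind)
      omega⟩
    rcases exists_minimal_bad hq (by omega) (by omega) hbad with ⟨D, -, hD, hDc⟩ |
      ⟨B, hBS, hα2, hbb, hd, hc, hcut, hbip⟩
    · exact ⟨D, by simpa using hD, hDc⟩
    exfalso
    have hb2 : 2 * q + 1 ≤ #B := by
      have := Nat.mul_le_mul_left q hα2
      omega
    have hlev : ∀ x ∈ B, G.dist v x = i := fun x hx => mem_layer.1 (hS (hBS hx))
    have hi1 : 1 ≤ i := by
      by_contra h
      have : B ⊆ {v} := fun x hx => by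
        rw [mem_singleton]
        exact ((hconn.dist_eq_zero_iff).1 (by rw [hlev x hx]; omega)).symm
      have := card_le_card this
      simp at this
      omega
    obtain ⟨par, hpar⟩ := exists_parent hconn v
    exact hnoC (hasC_of_block (G.dist v) par hpar {v}
      (fun u => by rw [mem_singleton, hconn.dist_eq_zero_iff, eq_comm]) (by simp) hq (by omega)
      (by omega) hlev hi1 (by omega) (Or.inl (by simp)) (by omega) hd hc hcut hbip)
  rcases exists_layer_le hconn hq hmq hnm hα hcard hsmall v with ⟨i, hiq, hi⟩ | ⟨hm, hex⟩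
  · exact hstep i hiq hi
  by_cases hgood : Good G (layer G v 1) q
  swap
  · exact hstep 1 (by omega) hgood
  set L := layer G v 1 with hL
  have hLN : ∀ x ∈ L, G.Adj v x := fun x hx =>
    SimpleGraph.dist_eq_one_iff_adj.1 (mem_layer.1 hx)
  have hLd : m - 1 ≤ #L := (hdeg v).trans (card_le_card fun x hx =>
    mem_layer.2 (SimpleGraph.dist_eq_one_iff_adj.2 (mem_filter.1 hx).2))
  have hnd := noDense_of_good hgood
  obtain ⟨I, hI, hIc, hind⟩ := exists_aOn G L
  have hex' : #L = q * aOn G L :=
    le_antisymm (hnd L subset_rfl) (hIc ▸ hex I hI hind)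
  obtain ⟨y, hy⟩ : L.Nonempty := card_pos.1 (by omega)
  set C := compIn G L y with hC
  have hCex := compIn_exact hnd hex' y
  rw [← hC] at hCex
  have hC1 : 1 ≤ aOn G C := aOn_pos ⟨y, mem_compIn_self hy⟩
  have hvL : v ∉ L := fun h => G.irrefl (hLN v h)
  have hCL : C ⊆ L := compIn_subset
  rcases hC1.eq_or_lt with h1 | h2
  · refine ⟨insert v C, ?_, ?_⟩
    · rw [card_insert_of_notMem fun h => hvL (hCL h), hCex, ← h1, Nat.mul_one]
    · intro a ha b hb hab
      rcases mem_insert.1 ha with rfl | ha' <;> rcases mem_insert.1 hb with rfl | hb'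
      · exact absurd rfl hab
      · exact hLN b (hCL hb')
      · exact (hLN a (hCL ha')).symm
      · exact clique_of_aOn_le_one h1.ge a ha' b hb' hab
  · exfalso
    obtain ⟨l, hl, hlen⟩ := exact_path C compIn_connected (hnd.mono hCL) hCex h2
    set l' := l.take (2 * q) with hl'
    have hlen' : l'.length = 2 * q := by rw [hl', List.length_take]; omega
    have hsub : List.Sublist l' l := List.take_sublist _ _
    have hne : l' ≠ [] := by intro h; simp [h] at hlen'; omega
    refine hnoC ⟨v :: l', ⟨⟨List.nodup_cons.2 ⟨fun h => hvL (hCL (hl.2.1 _ (hsub.subset h))),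
      hl.1.sublist hsub⟩, fun x _ => mem_univ x, ?_⟩, by simp, ?_⟩, by simp [hlen']; omega⟩
    · rw [List.isChain_cons]
      exact ⟨fun z hz => hLN z (hCL (hl.2.1 _ (hsub.subset (List.mem_of_mem_head? hz)))),
        hl.2.2.take _⟩
    · rw [List.getLast_cons hne, List.head_cons]
      exact (hLN _ (hCL (hl.2.1 _ (hsub.subset (List.getLast_mem hne))))).symm

end Vale.Agent.P048.Full
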