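import Vale.Agent.P048.Full.TwoCliques

/-!
One vertex covers all short links between two disjoint cliques `D, D'` with `m ≤ #D + #D'`
(otherwise `C_m`), and the resulting independent sets for three cliques.
-/

namespace Vale.Agent.P048.Full

open Finset
open Close (HasCycle)

variable {V : Type*}

/-- `z` is on every link with at most two inner vertices, ends included. -/
def Covers (G : SimpleGraph V) (D D' : Finset V) (z : V) : Prop :=
  (∀ x ∈ D, ∀ y ∈ D', G.Adj x y → x = z ∨ y = z) ∧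
    ∀ x ∈ D, ∀ y ∈ D', ∀ w w', (w ∉ D ∧ w ∉ D') → (w' ∉ D ∧ w' ∉ D') → G.Adj x w → G.Adj y w' →
      (w = w' ∨ G.Adj w w') → x = z ∨ y = z ∨ w = z ∨ w' = z

theorem Covers.symm {G : SimpleGraph V} {D D' : Finset V} {z : V} (h : Covers G D D' z) :
    Covers G D' D z :=
  ⟨fun y hy x hx hyx => (h.1 x hx y hy hyx.symm).symm, fun y hy x hx w' w hw' hw hyw hxw hc => by
    rcases h.2 x hx y hy w w' hw.symm hw'.symm hxw hyw (hc.imp Eq.symm SimpleGraph.Adj.symm) with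
      e | e | e | e
    exacts [Or.inr (Or.inl e), Or.inl e, Or.inr (Or.inr (Or.inr e)), Or.inr (Or.inr (Or.inl e))]⟩

/-- A conflict `x, w, w', y`. -/
structure Conflict (G : SimpleGraph V) (D D' : Finset V) (x w w' y : V) : Prop where
  fst : x ∈ D
  snd : y ∈ D'
  offl : w ∉ D ∧ w ∉ D'
  offr : w' ∉ D ∧ w' ∉ D'
  adjl : G.Adj x w
  adjr : G.Adj y w'
  mid : w = w' ∨ G.Adj w w'

theorem Conflict.symm {G : SimpleGraph V} {D D' : Finset V} {x w w' y : V}
    (h : Conflict G D D' x w w' y) : Conflict G D' D y w' w x :=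
  ⟨h.snd, h.fst, h.offr.symm, h.offl.symm, h.adjr, h.adjl, h.mid.imp Eq.symm SimpleGraph.Adj.symm⟩

variable [DecidableEq V] {G : SimpleGraph V} {D D' : Finset V}

theorem Conflict.isLink {x w w' y : V} (h : Conflict G D D' x w w' y) :
    IsLink G D D' x (Full.mid w w') y :=
  isLink_mid h.fst h.snd h.offl h.offr h.adjl h.adjr h.mid

/-- A prefix and a suffix meeting at `p` give a link with at most three inner vertices. -/
theorem exists_join {x y a p b : V} (hx : x ∈ D) (hy : y ∈ D') (ha : a ∉ D ∧ a ∉ D')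
    (hp : p ∉ D ∧ p ∉ D') (hb : b ∉ D ∧ b ∉ D') (hxa : G.Adj x a) (hyb : G.Adj y b)
    (hap : a = p ∨ G.Adj a p) (hpb : p = b ∨ G.Adj p b) :
    ∃ M : List V, IsLink G D D' x M y ∧ M.length ≤ 3 ∧ ∀ v ∈ M, v = a ∨ v = p ∨ v = b := by
  by_cases hab : a = b ∨ a = p ∨ p = b
  · refine ⟨Full.mid a b, isLink_mid hx hy ha hb hxa hyb ?_, (length_mid_le a b).trans (by omega),
      fun v hv => (mem_mid.1 hv).imp_right Or.inr⟩
    rcases hab with h | rfl | rfl
    exacts [Or.inl h, hpb, hap]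
  · simp only [not_or] at hab
    obtain ⟨h1, h2, h3⟩ := hab
    refine ⟨[a, p, b], ⟨hx, hy, by simp [h1, h2, h3], fun v hv => ?_, ?_⟩, by simp,
      fun v hv => by simpa using hv⟩
    · simp only [List.mem_cons, List.not_mem_nil, or_false] at hv
      rcases hv with rfl | rfl | rfl
      exacts [ha, hp, hb]
    · simp [hxa, hap.resolve_left h2, hpb.resolve_left h3, hyb.symm]

/-- Whether two inner pairs are disjoint. -/
def Apart2 (a b a' b' : V) : Prop := a ≠ a' ∧ a ≠ b' ∧ b ≠ a' ∧ b ≠ b'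

theorem mid_disjoint {a b a' b' : V} (h : Apart2 a b a' b') :
    ∀ v ∈ Full.mid a b, v ∉ Full.mid a' b' := fun v hv hv' => by
  rcases mem_mid.1 hv with rfl | rfl <;> rcases mem_mid.1 hv' with e | e
  exacts [h.1 e, h.2.1 e, h.2.2.1 e, h.2.2.2 e]

omit [DecidableEq V] in
theorem Apart2.symm {a b a' b' : V} (h : Apart2 a b a' b') : Apart2 a' b' a b :=
  ⟨h.1.symm, h.2.2.1.symm, h.2.1.symm, h.2.2.2.symm⟩

variable {m : ℕ}

/-- Everything that a single call to `hasCycle_of_links` needs. -/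
structure Pair (G : SimpleGraph V) (D D' : Finset V) (m : ℕ) : Prop where
  big : 9 ≤ m
  cl : G.IsClique (D : Set V)
  cl' : G.IsClique (D' : Set V)
  dis : Disjoint D D'
  two : 2 ≤ #D
  two' : 2 ≤ #D'
  sum : m ≤ #D + #D'

omit [DecidableEq V] in
theorem Pair.symm (h : Pair G D D' m) : Pair G D' D m :=
  ⟨h.big, h.cl', h.cl, h.dis.symm, h.two', h.two, by have := h.sum; omega⟩

omit [DecidableEq V] in
theorem Pair.close (h : Pair G D D' m) {x₁ x₂ y₁ y₂ : V} {M₁ M₂ : List V}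
    (h₁ : IsLink G D D' x₁ M₁ y₁) (h₂ : IsLink G D D' x₂ M₂ y₂) (hx : x₁ ≠ x₂) (hy : y₁ ≠ y₂)
    (hM : ∀ v ∈ M₁, v ∉ M₂) (hlen : M₁.length + M₂.length ≤ 5) : HasCycle G m :=
  hasCycle_of_links h.cl h.cl' h.dis h.two h.two' h.sum h₁ h₂ hx hy hM
    (by have := h.big; omega)

theorem Pair.close_conflicts (h : Pair G D D' m) {x a b y x' a' b' y' : V}
    (c : Conflict G D D' x a b y) (c' : Conflict G D D' x' a' b' y') (hap : Apart2 a b a' b')
    (hx : x ≠ x') (hy : y ≠ y') : HasCycle G m :=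
  h.close c.isLink c'.isLink hx hy (mid_disjoint hap)
    (by have := length_mid_le a b; have := length_mid_le a' b'; omega)

/-- Two disjoint conflicts at `x`, with different ends in `D'`: every conflict starts at `x`. -/
theorem Pair.fan (h : Pair G D D' m) {x a₁ b₁ y₁ a₂ b₂ y₂ x' a b y : V}
    (c₁ : Conflict G D D' x a₁ b₁ y₁) (c₂ : Conflict G D D' x a₂ b₂ y₂)
    (hap : Apart2 a₁ b₁ a₂ b₂) (hy : y₁ ≠ y₂) (c : Conflict G D D' x' a b y) (hx : x' ≠ x) :
    HasCycle G m := by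
  by_cases k₁ : a = a₁ ∨ a = b₁
  · have c' : Conflict G D D' x' a b₁ y₁ :=
      ⟨c.fst, c₁.snd, c.offl, c₁.offr, c.adjl, c₁.adjr, by
        rcases k₁ with rfl | rfl
        exacts [c₁.mid, Or.inl rfl]⟩
    exact h.close_conflicts c' c₂ ⟨by rcases k₁ with rfl | rfl; exacts [hap.1, hap.2.2.1],
      by rcases k₁ with rfl | rfl; exacts [hap.2.1, hap.2.2.2], hap.2.2.1, hap.2.2.2⟩ hx hy
  by_cases k₂ : a = a₂ ∨ a = b₂
  · have c' : Conflict G D D' x' a b₂ y₂ :=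
      ⟨c.fst, c₂.snd, c.offl, c₂.offr, c.adjl, c₂.adjr, by
        rcases k₂ with rfl | rfl
        exacts [c₂.mid, Or.inl rfl]⟩
    exact h.close_conflicts c' c₁ ⟨by rcases k₂ with rfl | rfl; exacts [hap.symm.1, hap.symm.2.2.1],
      by rcases k₂ with rfl | rfl; exacts [hap.symm.2.1, hap.symm.2.2.2], hap.symm.2.2.1,
      hap.symm.2.2.2⟩ hx hy.symm
  -- `a` is on neither; where is `b`
  simp only [not_or] at k₁ k₂
  have go : ∀ {ai bi yi aj bj yj : V}, Conflict G D D' x ai bi yi → Conflict G D D' x aj bj yj →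
      Apart2 ai bi aj bj → yi ≠ yj → a ≠ aj → a ≠ bj → (b = ai ∨ b = bi) → HasCycle G m := by
    intro ai bi yi aj bj yj ci cj hij hyij ha1 ha2 hb
    have hbne : b ≠ aj ∧ b ≠ bj := by
      rcases hb with rfl | rfl
      exacts [⟨hij.1, hij.2.1⟩, ⟨hij.2.2.1, hij.2.2.2⟩]
    obtain ⟨M, hM, hMl, hMs⟩ := exists_join c.fst ci.snd c.offl c.offr ci.offr c.adjl ci.adjr
      c.mid (by rcases hb with rfl | rfl; exacts [ci.mid, Or.inl rfl])
    refine h.close hM cj.isLink hx hyij (fun v hv hv' => ?_)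
      (by have := length_mid_le aj bj; omega)
    rcases hMs v hv with rfl | rfl | rfl <;> rcases mem_mid.1 hv' with e | e
    exacts [ha1 e, ha2 e, hbne.1 e, hbne.2 e, hij.2.2.1 e, hij.2.2.2 e]
  by_cases k₃ : b = a₁ ∨ b = b₁
  · exact go c₁ c₂ hap hy k₂.1 k₂.2 k₃
  by_cases k₄ : b = a₂ ∨ b = b₂
  · exact go c₂ c₁ hap.symm hy.symm k₁.1 k₁.2 k₄
  simp only [not_or] at k₃ k₄
  by_cases hy₁ : y = y₁
  · exact h.close_conflicts c c₂ ⟨k₂.1, k₂.2, k₄.1, k₄.2⟩ hx (hy₁ ▸ hy)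
  · exact h.close_conflicts c c₁ ⟨k₁.1, k₁.2, k₃.1, k₃.2⟩ hx hy₁

/-- Two disjoint conflicts between the same ends `x, y`: one of them covers everything. -/
theorem Pair.double (h : Pair G D D' m) {x y a₁ b₁ a₂ b₂ : V}
    (c₁ : Conflict G D D' x a₁ b₁ y) (c₂ : Conflict G D D' x a₂ b₂ y)
    (hap : Apart2 a₁ b₁ a₂ b₂) {x' a b y₀ : V} (k : Conflict G D D' x' a b y₀) (hx : x' ≠ x)
    {x₀ a' b' y' : V} (k' : Conflict G D D' x₀ a' b' y') (hy : y' ≠ y) : HasCycle G m := by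
  -- a conflict off both ends meets both pairs, and then recombines
  have both : ∀ {u v r s : V}, Conflict G D D' u r s v → u ≠ x → v ≠ y → HasCycle G m := by
    intro u v r s kk hu hv
    by_cases e₁ : Apart2 r s a₁ b₁
    · exact h.close_conflicts kk c₁ e₁ hu hv
    by_cases e₂ : Apart2 r s a₂ b₂
    · exact h.close_conflicts kk c₂ e₂ hu hv
    simp only [Apart2, not_and_or, not_not] at e₁ e₂
    have go : ∀ {ai bi aj bj : V}, Conflict G D D' x ai bi y → Conflict G D D' x aj bj y →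
        Apart2 ai bi aj bj → (r = ai ∨ r = bi) → (s = aj ∨ s = bj) → HasCycle G m := by
      intro ai bi aj bj ci cj hij hr hs
      have p₁ : Conflict G D D' u r bi y := ⟨kk.fst, ci.snd, kk.offl, ci.offr, kk.adjl, ci.adjr,
        by rcases hr with rfl | rfl; exacts [ci.mid, Or.inl rfl]⟩
      have p₂ : Conflict G D D' x aj s v := ⟨cj.fst, kk.snd, cj.offl, kk.offr, cj.adjl, kk.adjr,
        by rcases hs with rfl | rfl; exacts [Or.inl rfl, cj.mid]⟩
      refine h.close_conflicts p₁ p₂ ?_ hu hv.symm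
      rcases hr with rfl | rfl <;> rcases hs with rfl | rfl
      exacts [⟨hij.1, hij.1, hij.2.2.1, hij.2.2.1⟩, ⟨hij.1, hij.2.1, hij.2.2.1, hij.2.2.2⟩,
        ⟨hij.2.2.1, hij.2.2.1, hij.2.2.1, hij.2.2.1⟩, ⟨hij.2.2.1, hij.2.2.2, hij.2.2.1, hij.2.2.2⟩]
    rcases e₁ with e | e | e | e <;> rcases e₂ with f | f | f | f
    all_goals first
      | exact absurd (e.symm.trans f) hap.1
      | exact absurd (e.symm.trans f) hap.2.1
      | exact absurd (e.symm.trans f) hap.2.2.1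
      | exact absurd (e.symm.trans f) hap.2.2.2
      | exact go c₁ c₂ hap (Or.inl e) (Or.inl f)
      | exact go c₁ c₂ hap (Or.inl e) (Or.inr f)
      | exact go c₁ c₂ hap (Or.inr e) (Or.inl f)
      | exact go c₁ c₂ hap (Or.inr e) (Or.inr f)
      | exact go c₂ c₁ hap.symm (Or.inl f) (Or.inl e)
      | exact go c₂ c₁ hap.symm (Or.inl f) (Or.inr e)
      | exact go c₂ c₁ hap.symm (Or.inr f) (Or.inl e)
      | exact go c₂ c₁ hap.symm (Or.inr f) (Or.inr e)
  by_cases hy₀ : y₀ = y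
  swap
  · exact both k hx hy₀
  by_cases hx₀ : x₀ = x
  swap
  · exact both k' hx₀ hy
  subst hx₀ hy₀
  by_cases hkk : Apart2 a b a' b'
  · exact h.close_conflicts k k' hkk hx hy.symm
  obtain ⟨p, hp, hp'⟩ : ∃ p, (p = a ∨ p = b) ∧ (p = a' ∨ p = b') := by
    simp only [Apart2, not_and_or, not_not] at hkk
    rcases hkk with e | e | e | e
    exacts [⟨a, Or.inl rfl, Or.inl e⟩, ⟨a, Or.inl rfl, Or.inr e⟩, ⟨b, Or.inr rfl, Or.inl e⟩,
      ⟨b, Or.inr rfl, Or.inr e⟩]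
  have hap' : a = p ∨ G.Adj a p := by
    rcases hp with rfl | rfl
    exacts [Or.inl rfl, k.mid]
  have hpb : p = b' ∨ G.Adj p b' := by
    rcases hp' with rfl | rfl
    exacts [k'.mid, Or.inl rfl]
  have hpo : p ∉ D ∧ p ∉ D' := by
    rcases hp with rfl | rfl
    exacts [k.offl, k.offr]
  -- if one of the pairs avoids `a, p, b'`, close with it
  have avoid : ∀ {ai bi : V}, Conflict G D D' x₀ ai bi y₀ → a ≠ ai → a ≠ bi → p ≠ ai → p ≠ bi →
      b' ≠ ai → b' ≠ bi → HasCycle G m := by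
    intro ai bi ci n1 n2 n3 n4 n5 n6
    obtain ⟨M, hM, hMl, hMs⟩ := exists_join k.fst k'.snd k.offl hpo k'.offr k.adjl k'.adjr hap' hpb
    refine h.close hM ci.isLink hx hy (fun v hv hv' => ?_)
      (by have := length_mid_le ai bi; omega)
    rcases hMs v hv with rfl | rfl | rfl <;> rcases mem_mid.1 hv' with e | e
    exacts [n1 e, n2 e, n3 e, n4 e, n5 e, n6 e]
  -- `a` on one pair: the other pair, or a shortcut through `b'`
  have caseA : ∀ {ai bi aj bj : V}, Conflict G D D' x₀ ai bi y₀ → Conflict G D D' x₀ aj bj y₀ →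
      Apart2 ai bi aj bj → (a = ai ∨ a = bi) → HasCycle G m := by
    intro ai bi aj bj ci cj hij ha
    have hane : a ≠ aj ∧ a ≠ bj := by
      rcases ha with rfl | rfl
      exacts [⟨hij.1, hij.2.1⟩, ⟨hij.2.2.1, hij.2.2.2⟩]
    have p₁ : Conflict G D D' x' a bi y₀ := ⟨k.fst, ci.snd, k.offl, ci.offr, k.adjl, ci.adjr,
      by rcases ha with rfl | rfl; exacts [ci.mid, Or.inl rfl]⟩
    by_cases hb : b' = ai ∨ b' = bi
    · -- `x' a b' y'` lives on the pair
      have p₂ : Conflict G D D' x' a b' y' := ⟨k.fst, k'.snd, k.offl, k'.offr, k.adjl, k'.adjr, by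
        rcases ha with rfl | rfl <;> rcases hb with rfl | rfl
        exacts [Or.inl rfl, ci.mid, ci.mid.imp Eq.symm SimpleGraph.Adj.symm, Or.inl rfl]⟩
      exact h.close_conflicts p₂ cj ⟨hane.1, hane.2,
        by rcases hb with rfl | rfl; exacts [hij.1, hij.2.2.1],
        by rcases hb with rfl | rfl; exacts [hij.2.1, hij.2.2.2]⟩ hx hy
    simp only [not_or] at hb
    by_cases hb2 : b' = aj ∨ b' = bj
    · have p₂ : Conflict G D D' x₀ aj b' y' := ⟨cj.fst, k'.snd, cj.offl, k'.offr, cj.adjl,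
        k'.adjr, by rcases hb2 with rfl | rfl; exacts [Or.inl rfl, cj.mid]⟩
      refine h.close_conflicts p₁ p₂ ⟨hane.1, ?_, hij.2.2.1, ?_⟩ hx hy.symm
      · rcases hb2 with rfl | rfl
        exacts [hane.1, hane.2]
      · rcases hb2 with rfl | rfl
        exacts [hij.2.2.1, hij.2.2.2]
    simp only [not_or] at hb2
    by_cases hpj : p = aj ∨ p = bj
    · obtain ⟨M, hM, hMl, hMs⟩ := exists_join cj.fst k'.snd cj.offl hpo k'.offr cj.adjl k'.adjr
        (by rcases hpj with rfl | rfl; exacts [Or.inl rfl, cj.mid]) hpb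
      refine h.close hM p₁.isLink hx.symm hy (fun v hv hv' => ?_)
        (by have := length_mid_le a bi; omega)
      have hpne : p ≠ bi := by
        rcases hpj with rfl | rfl
        exacts [hij.2.2.1.symm, hij.2.2.2.symm]
      have hpa : p ≠ a := by
        rcases hpj with rfl | rfl
        exacts [hane.1.symm, hane.2.symm]
      have hab' : b' ≠ a := by
        rcases ha with rfl | rfl
        exacts [hb.1, hb.2]
      rcases hMs v hv with rfl | rfl | rfl <;> rcases mem_mid.1 hv' with e | e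
      exacts [hane.1 e.symm, hij.2.2.1 e.symm, hpa e, hpne e, hab' e, hb.2 e]
    simp only [not_or] at hpj
    exact avoid cj hane.1 hane.2 hpj.1 hpj.2 hb2.1 hb2.2
  by_cases A₁ : a = a₁ ∨ a = b₁
  · exact caseA c₁ c₂ hap A₁
  by_cases A₂ : a = a₂ ∨ a = b₂
  · exact caseA c₂ c₁ hap.symm A₂
  simp only [not_or] at A₁ A₂
  -- `p` and `b'` hit both pairs, or one pair is free
  by_cases P₁ : p = a₁ ∨ p = b₁
  · have hp2 : p ≠ a₂ ∧ p ≠ b₂ := by
      rcases P₁ with rfl | rfl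
      exacts [⟨hap.1, hap.2.1⟩, ⟨hap.2.2.1, hap.2.2.2⟩]
    by_cases B₂ : b' = a₂ ∨ b' = b₂
    · have p₂ : Conflict G D D' x₀ a₂ b' y' := ⟨c₂.fst, k'.snd, c₂.offl, k'.offr, c₂.adjl,
        k'.adjr, by rcases B₂ with rfl | rfl; exacts [Or.inl rfl, c₂.mid]⟩
      obtain ⟨M, hM, hMl, hMs⟩ := exists_join k.fst c₁.snd k.offl hpo c₁.offr k.adjl c₁.adjr hap'
        (by rcases P₁ with rfl | rfl; exacts [c₁.mid, Or.inl rfl])
      refine h.close hM p₂.isLink hx hy.symm (fun v hv hv' => ?_)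
        (by have := length_mid_le a₂ b'; omega)
      have hab' : a ≠ b' := by
        rcases B₂ with rfl | rfl
        exacts [A₂.1, A₂.2]
      have hpb' : p ≠ b' := by
        rcases B₂ with rfl | rfl
        exacts [hp2.1, hp2.2]
      have hbb' : b₁ ≠ b' := by
        rcases B₂ with rfl | rfl
        exacts [hap.2.2.1, hap.2.2.2]
      rcases hMs v hv with rfl | rfl | rfl <;> rcases mem_mid.1 hv' with e | e
      exacts [A₂.1 e, hab' e, hp2.1 e, hpb' e, hap.2.2.1 e, hbb' e]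
    simp only [not_or] at B₂
    exact avoid c₂ A₂.1 A₂.2 hp2.1 hp2.2 B₂.1 B₂.2
  simp only [not_or] at P₁
  by_cases B₁ : b' = a₁ ∨ b' = b₁
  · by_cases P₂ : p = a₂ ∨ p = b₂
    · have p₂ : Conflict G D D' x₀ a₁ b' y' := ⟨c₁.fst, k'.snd, c₁.offl, k'.offr, c₁.adjl,
        k'.adjr, by rcases B₁ with rfl | rfl; exacts [Or.inl rfl, c₁.mid]⟩
      obtain ⟨M, hM, hMl, hMs⟩ := exists_join k.fst c₂.snd k.offl hpo c₂.offr k.adjl c₂.adjr hap'
        (by rcases P₂ with rfl | rfl; exacts [c₂.mid, Or.inl rfl])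
      refine h.close hM p₂.isLink hx hy.symm (fun v hv hv' => ?_)
        (by have := length_mid_le a₁ b'; omega)
      have hab' : a ≠ b' := by
        rcases B₁ with rfl | rfl
        exacts [A₁.1, A₁.2]
      have hpb' : p ≠ b' := by
        rcases B₁ with rfl | rfl
        exacts [P₁.1, P₁.2]
      have hbb' : b₂ ≠ b' := by
        rcases B₁ with rfl | rfl
        exacts [hap.2.1.symm, hap.2.2.2.symm]
      rcases hMs v hv with rfl | rfl | rfl <;> rcases mem_mid.1 hv' with e | e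
      exacts [A₁.1 e, hab' e, P₁.1 e, hpb' e, hap.2.1 e.symm, hbb' e]
    simp only [not_or] at P₂
    have hb2 : b' ≠ a₂ ∧ b' ≠ b₂ := by
      rcases B₁ with rfl | rfl
      exacts [⟨hap.1, hap.2.1⟩, ⟨hap.2.2.1, hap.2.2.2⟩]
    exact avoid c₂ A₂.1 A₂.2 P₂.1 P₂.2 hb2.1 hb2.2
  simp only [not_or] at B₁
  exact avoid c₁ A₁.1 A₁.2 P₁.1 P₁.2 B₁.1 B₁.2

/-- With an edge between the cliques, one of its ends covers all conflicts. -/
theorem Pair.edge (h : Pair G D D' m) {x y x' a b y₀ x₀ a' b' y' : V} (hx : x ∈ D) (hy : y ∈ D')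
    (hxy : G.Adj x y) (k : Conflict G D D' x' a b y₀) (hxx : x' ≠ x)
    (k' : Conflict G D D' x₀ a' b' y') (hyy : y' ≠ y) : HasCycle G m := by
  have hedge : IsLink G D D' x [] y := ⟨hx, hy, by simp, by simp, by simp [hxy]⟩
  by_cases hy₀ : y₀ = y
  swap
  · exact h.close k.isLink hedge hxx hy₀ (fun v _ => by simp)
      (by have := length_mid_le a b; simp; omega)
  by_cases hx₀ : x₀ = x
  swap
  · exact h.close k'.isLink hedge hx₀ hyy (fun v _ => by simp)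
      (by have := length_mid_le a' b'; simp; omega)
  subst hx₀ hy₀
  by_cases hkk : Apart2 a b a' b'
  · exact h.close_conflicts k k' hkk hxx hyy.symm
  simp only [Apart2, not_and_or, not_not] at hkk
  obtain ⟨p, hpo, hap, hpb⟩ : ∃ p, (p ∉ D ∧ p ∉ D') ∧ (a = p ∨ G.Adj a p) ∧
      (p = b' ∨ G.Adj p b') := by
    rcases hkk with rfl | rfl | rfl | rfl
    exacts [⟨a, k.offl, Or.inl rfl, k'.mid⟩, ⟨a, k.offl, Or.inl rfl, Or.inl rfl⟩,
      ⟨b, k.offr, k.mid, k'.mid⟩, ⟨b, k.offr, k.mid, Or.inl rfl⟩]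
  obtain ⟨M, hM, hMl, -⟩ := exists_join k.fst k'.snd k.offl hpo k'.offr k.adjl k'.adjr hap hpb
  exact h.close hM hedge hxx hyy (fun v _ => by simp) (by simp; omega)

/-- One vertex covers all short links, unless there is a cycle of length `m`. -/
theorem exists_cover (h : Pair G D D' m) : HasCycle G m ∨ ∃ z, Covers G D D' z := by
  classical
  by_cases hC : HasCycle G m
  · exact Or.inl hC
  right
  by_contra hno
  push Not at hno
  -- what fails at a vertex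
  have fail : ∀ z, (∃ x ∈ D, ∃ y ∈ D', G.Adj x y ∧ x ≠ z ∧ y ≠ z) ∨
      ∃ x a b y, Conflict G D D' x a b y ∧ x ≠ z ∧ y ≠ z ∧ a ≠ z ∧ b ≠ z := by
    intro z
    have := hno z
    simp only [Covers, not_and_or] at this
    rcases this with h1 | h1
    · push Not at h1
      exact Or.inl h1
    · push Not at h1
      obtain ⟨x, hx, y, hy, a, b, ha, hb, hxa, hyb, hab, h1, h2, h3, h4⟩ := h1
      exact Or.inr ⟨x, a, b, y, ⟨hx, hy, ha, hb, hxa, hyb, hab⟩, h1, h2, h3, h4⟩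
  by_cases hE : ∃ x ∈ D, ∃ y ∈ D', G.Adj x y
  · obtain ⟨x, hx, y, hy, hxy⟩ := hE
    have hedge : IsLink G D D' x [] y := ⟨hx, hy, by simp, by simp, by simp [hxy]⟩
    have two_edges : ∀ {x' y'}, x' ∈ D → y' ∈ D' → G.Adj x' y' → x' ≠ x → y' ≠ y → False :=
      fun hx' hy' he n1 n2 => hC (h.close (M₁ := []) ⟨hx', hy', by simp, by simp, by simp [he]⟩ hedge n1 n2
        (by simp) (by simp))
    have conf_edge : ∀ {x' a b y'}, Conflict G D D' x' a b y' → x' ≠ x → y' ≠ y → False :=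
      fun {x' a b y'} k n1 n2 => hC (h.close k.isLink hedge n1 n2 (fun v _ => by simp)
        (by have := length_mid_le a b; simp; omega))
    rcases fail x with ⟨x', hx', y', hy', he, n1, -⟩ | ⟨x', a, b, y₀, k, n1, -, -, -⟩ <;>
      rcases fail y with ⟨x₀, hx₀, y₁, hy₁, he', -, n2⟩ | ⟨x₀, a', b', y₁, k', -, n2, -, -⟩
    · by_cases e1 : y' = y
      · by_cases e2 : x₀ = x
        · subst e1 e2
          exact hC (h.close (x₁ := x') (y₁ := y') (M₁ := [])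
            (x₂ := x₀) (y₂ := y₁) (M₂ := []) ⟨hx', hy', by simp, by simp, by simp [he]⟩
            ⟨hx₀, hy₁, by simp, by simp, by simp [he']⟩ n1 (fun e => n2 e.symm) (by simp) (by simp))
        · exact two_edges hx₀ hy₁ he' e2 n2
      · exact two_edges hx' hy' he n1 e1
    · by_cases e1 : y' = y
      · by_cases e2 : x₀ = x
        · subst e1 e2
          exact hC (h.close (x₁ := x') (y₁ := y') (M₁ := [])
            ⟨hx', hy', by simp, by simp, by simp [he]⟩ k'.isLink n1 (fun e => n2 e.symm)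
            (by simp) (by have := length_mid_le a' b'; simp; omega))
        · exact conf_edge k' e2 n2
      · exact two_edges hx' hy' he n1 e1
    · by_cases e1 : y₀ = y
      · by_cases e2 : x₀ = x
        · subst e1 e2
          exact hC (h.close (x₂ := x₀) (y₂ := y₁) (M₂ := []) k.isLink
            ⟨hx₀, hy₁, by simp, by simp, by simp [he']⟩ n1 (fun e => n2 e.symm)
            (fun v _ => by simp) (by have := length_mid_le a b; simp; omega))
        · exact two_edges hx₀ hy₁ he' e2 n2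
      · exact conf_edge k n1 e1
    · exact hC (h.edge hx hy hxy k n1 k' n2)
  push Not at hE
  have failc : ∀ z, ∃ x a b y, Conflict G D D' x a b y ∧ x ≠ z ∧ y ≠ z ∧ a ≠ z ∧ b ≠ z := fun z =>
    (fail z).resolve_left fun ⟨x, hx, y, hy, he, _⟩ => hE x hx y hy he
  obtain ⟨u₀, hu₀⟩ := card_pos.1 (show 0 < #D by have := h.two; omega)
  by_cases hT : ∃ x a b y x' a' b' y', Conflict G D D' x a b y ∧
      Conflict G D D' x' a' b' y' ∧ Apart2 a b a' b'
  · obtain ⟨x, a, b, y, x', a', b', y', c, c', hap⟩ := hT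
    by_cases hx : x = x'
    · subst hx
      by_cases hy : y = y'
      · subst hy
        obtain ⟨x₁, p, q, y₁, k, n1, -, -, -⟩ := failc x
        obtain ⟨x₂, p', q', y₂, k', -, n2, -, -⟩ := failc y
        exact hC (h.double c c' hap k n1 k' n2)
      · obtain ⟨x₁, p, q, y₁, k, n1, -, -, -⟩ := failc x
        exact hC (h.fan c c' hap hy k n1)
    · by_cases hy : y = y'
      · subst hy
        obtain ⟨x₁, p, q, y₁, k, -, n2, -, -⟩ := failc y
        exact hC (h.symm.fan c.symm c'.symm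
          ⟨hap.2.2.2, hap.2.2.1, hap.2.1, hap.1⟩ hx k.symm n2)
      · exact hC (h.close_conflicts c c' hap hx hy)
  -- all conflicts meet: a star
  have hmeet : ∀ {x a b y x' a' b' y'}, Conflict G D D' x a b y → Conflict G D D' x' a' b' y' →
      a = a' ∨ a = b' ∨ b = a' ∨ b = b' := by
    intro x a b y x' a' b' y' c c'
    by_contra hne
    simp only [not_or] at hne
    exact hT ⟨x, a, b, y, x', a', b', y', c, c', hne⟩
  have single : ∀ {x a y}, Conflict G D D' x a a y → False := by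
    intro x a y c
    obtain ⟨x₁, p, q, y₁, k, -, -, n3, n4⟩ := failc a
    rcases hmeet c k with e | e | e | e
    exacts [n3 e.symm, n4 e.symm, n3 e.symm, n4 e.symm]
  obtain ⟨x, a, b, y, c, -⟩ := failc u₀
  obtain ⟨x₁, a₁, b₁, y₁, k₁, -, -, n1, n1'⟩ := failc a
  obtain ⟨x₂, a₂, b₂, y₂, k₂, -, -, n2, n2'⟩ := failc b
  have s1 : ∀ {v : V}, (∃ u ∈ D, G.Adj u v) → (∃ u ∈ D', G.Adj u v) → (v ∉ D ∧ v ∉ D') → False :=
    fun ⟨u, hu, huv⟩ ⟨u', hu', hu'v⟩ hv => single ⟨hu, hu', hv, hv, huv, hu'v, Or.inl rfl⟩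
  rcases hmeet c k₁ with e | e | e | e
  · exact n1 e.symm
  · exact n1' e.symm
  · exact s1 ⟨_, k₁.fst, k₁.adjl⟩ ⟨_, c.snd, e ▸ c.adjr⟩ k₁.offl
  rcases hmeet c k₂ with f | f | f | f
  · rcases hmeet k₁ k₂ with g | g | g | g
    · exact n1 (g.trans f.symm)
    · exact s1 ⟨_, k₁.fst, k₁.adjl⟩ ⟨_, k₂.snd, g ▸ k₂.adjr⟩ k₁.offl
    · exact n1' (g.trans f.symm)
    · exact n2' ((g.symm.trans e.symm))
  · exact s1 ⟨_, c.fst, c.adjl⟩ ⟨_, k₂.snd, f ▸ k₂.adjr⟩ c.offl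
  · exact n2 f.symm
  · exact n2' f.symm

/-- One vertex is on every link with at most two inner vertices. -/
theorem exists_link_cover (hm : 9 ≤ m) (noC : ¬ HasCycle G m) (hD : G.IsClique (D : Set V))
    (hD' : G.IsClique (D' : Set V)) (hdis : Disjoint D D') (hk : 2 ≤ #D) (hk' : 2 ≤ #D')
    (hsum : m ≤ #D + #D') :
    ∃ z, ∀ x M y, IsLink G D D' x M y → M.length ≤ 2 → z ∈ x :: (M ++ [y]) := by
  obtain ⟨z, hz⟩ := (exists_cover ⟨hm, hD, hD', hdis, hk, hk', hsum⟩).resolve_left noC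
  refine ⟨z, fun x M y hM hlen => ?_⟩
  obtain ⟨hx, hy, -, hoff, hc⟩ := hM
  match M, hlen, hoff, hc with
  | [], _, _, hc =>
    rcases hz.1 x hx y hy (by simpa using hc) with e | e <;> simp [e]
  | [w], _, hoff, hc =>
    simp at hc
    rcases hz.2 x hx y hy w w (hoff w (by simp)) (hoff w (by simp)) hc.1 hc.2.symm (Or.inl rfl)
      with e | e | e | e <;> simp [e]
  | [w, w'], _, hoff, hc =>
    simp at hc
    rcases hz.2 x hx y hy w w' (hoff w (by simp)) (hoff w' (by simp)) hc.1 hc.2.2.symm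
      (Or.inr hc.2.1) with e | e | e | e <;> simp [e]

/-- After removing the cover from one side, the two sets are anticomplete and disjoint. -/
theorem Covers.split {z : V} (hz : Covers G D D' z) {U U' I I' : Finset V} (hU : U ⊆ D)
    (hzU : z ∉ U) (hU' : U' ⊆ D') (hzU' : z ∉ U') (hI : G.IsIndepSet I) (_hI' : G.IsIndepSet I')
    (hIn : ∀ w ∈ I, w ∉ D ∧ ∃ x ∈ U, G.Adj x w) (hIn' : ∀ w ∈ I', w ∉ D' ∧ ∃ y ∈ U', G.Adj y w) :
    ∃ A ⊆ I, ∃ B ⊆ I', #I + #I' ≤ #A + #B + 1 ∧ (z ∉ I → z ∉ I' → A = I ∧ B = I') ∧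
      ∀ p ∈ A, ∀ q ∈ B, p ≠ q ∧ ¬ G.Adj p q := by
  have core : ∀ p ∈ I, ∀ q ∈ I', (p = q ∨ G.Adj p q) → p = z ∨ q = z := by
    intro p hp q hq hc
    obtain ⟨hpD, x, hx, hxp⟩ := hIn p hp
    obtain ⟨hqD, y, hy, hyq⟩ := hIn' q hq
    have hxz : x ≠ z := fun e => hzU (e ▸ hx)
    have hyz : y ≠ z := fun e => hzU' (e ▸ hy)
    by_cases hp' : p ∈ D'
    · exact Or.inl ((hz.1 x (hU hx) p hp' hxp).resolve_left hxz)
    by_cases hq' : q ∈ D
    · exact Or.inr ((hz.1 q hq' y (hU' hy) hyq.symm).resolve_right hyz)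
    rcases hz.2 x (hU hx) y (hU' hy) p q ⟨hpD, hp'⟩ ⟨hq', hqD⟩ hxp hyq hc with e | e | e | e
    exacts [absurd e hxz, absurd e hyz, Or.inl e, Or.inr e]
  by_cases hzI : z ∈ I
  · refine ⟨I.erase z, erase_subset _ _, I', subset_rfl, ?_, fun h => absurd hzI h,
      fun p hp q hq => ?_⟩
    · have := pred_card_le_card_erase (s := I) (a := z); omega
    · rw [mem_erase] at hp
      constructor
      · intro e
        exact hp.1 ((core p hp.2 q hq (Or.inl e)).elim id (e.trans ·))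
      · intro e
        rcases core p hp.2 q hq (Or.inr e) with r | r
        · exact hp.1 r
        · exact hI hp.2 hzI hp.1 (r ▸ e)
  · refine ⟨I, subset_rfl, I'.erase z, erase_subset _ _, ?_, fun _ h => ⟨rfl, erase_eq_of_notMem h⟩,
      fun p hp q hq => ?_⟩
    · have := pred_card_le_card_erase (s := I') (a := z); omega
    · rw [mem_erase] at hq
      constructor
      · intro e
        rcases core p hp q hq.2 (Or.inl e) with r | r
        exacts [hzI (r ▸ hp), hq.1 r]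
      · intro e
        rcases core p hp q hq.2 (Or.inr e) with r | r
        exacts [hzI (r ▸ hp), hq.1 r]

/-- After removing the units in `Z`, the two cliques lose at most two in all. -/
def Loss (G : SimpleGraph V) (D D' Z : Finset V) : Prop :=
  ∀ U ⊆ D \ Z, ∀ U' ⊆ D' \ Z, ∀ I I' : Finset V, G.IsIndepSet (I : Set V) →
    G.IsIndepSet (I' : Set V) → (∀ w ∈ I, w ∉ D ∧ ∃ x ∈ U, G.Adj x w) →
    (∀ w ∈ I', w ∉ D' ∧ ∃ y ∈ U', G.Adj y w) →
    ∃ A ⊆ I, ∃ B ⊆ I', #(D ∩ Z) + #(D' ∩ Z) + #I + #I' ≤ #A + #B + 2 ∧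
      ∀ p ∈ A, ∀ q ∈ B, p ≠ q ∧ ¬ G.Adj p q

/-- A cover loses at most two. -/
theorem Covers.loss {z : V} (hz : Covers G D D' z) (hdis : Disjoint D D') :
    Loss G D D' {z} := by
  intro U hU U' hU' I I' hI hI' hIn hIn'
  obtain ⟨A, hA, B, hB, l, -, d⟩ := hz.split (U := U) (U' := U') (hU.trans sdiff_subset)
    (fun h => (mem_sdiff.1 (hU h)).2 (mem_singleton_self z)) (hU'.trans sdiff_subset)
    (fun h => (mem_sdiff.1 (hU' h)).2 (mem_singleton_self z)) hI hI' hIn hIn'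
  refine ⟨A, hA, B, hB, ?_, d⟩
  by_cases h1 : z ∈ D
  · have h2 : z ∉ D' := disjoint_left.1 hdis h1
    simp [h1, h2]; omega
  · by_cases h2 : z ∈ D' <;> simp [h1, h2] <;> omega

/-- Three cliques, the first apart from the other two, which lose at most two. -/
theorem three_of_loss {D₁ D₂ D₃ Z : Finset V} {z z' : V} (hdis₁₂ : Disjoint D₁ D₂)
    (hdis₁₃ : Disjoint D₁ D₃) (e₁₂ : ∀ x ∈ D₁, ∀ y ∈ D₂, ¬ G.Adj x y)
    (e₁₃ : ∀ x ∈ D₁, ∀ y ∈ D₃, ¬ G.Adj x y) (hz : Covers G D₁ D₂ z) (hz' : Covers G D₁ D₃ z')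
    (hL : Loss G D₂ D₃ Z) (hZ₂ : #(D₂ ∩ Z) ≤ 1) (hZ₃ : #(D₃ ∩ Z) ≤ 1) (n₁ : NbrIndep G D₁)
    (n₂ : NbrIndep G D₂) (n₃ : NbrIndep G D₃) (s₁ : 3 ≤ #D₁) (s₂ : 3 ≤ #D₂) (s₃ : 3 ≤ #D₃) :
    ∃ S : Finset V, G.IsIndepSet (S : Set V) ∧ #D₁ + #D₂ + #D₃ ≤ #S + 4 := by
  classical
  set U₁ := D₁ \ {z, z'} with hU₁
  set U₂ := D₂ \ insert z Z with hU₂
  set U₃ := D₃ \ insert z' Z with hU₃
  have cut : ∀ (E : Finset V) (p : V), #E ≤ #(E \ insert p Z) + #(E ∩ {p}) + #(E ∩ Z) := by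
    intro E p
    have h := card_sdiff_add_card_inter E (insert p Z)
    rw [insert_eq, inter_union_distrib_left] at h
    have := card_union_le (E ∩ {p}) (E ∩ Z)
    rw [insert_eq]
    omega
  have one : ∀ (E : Finset V) (p : V), #(E ∩ {p}) ≤ 1 := fun E p =>
    (card_le_card inter_subset_right).trans (card_singleton p).le
  have g₁ : #D₁ ≤ #U₁ + #(D₁ ∩ {z}) + #(D₁ ∩ {z'}) := by
    have h := card_sdiff_add_card_inter D₁ {z, z'}
    have : D₁ ∩ {z, z'} = D₁ ∩ {z} ∪ D₁ ∩ {z'} := by rw [← inter_union_distrib_left]; rfl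
    rw [this] at h
    have := card_union_le (D₁ ∩ {z}) (D₁ ∩ {z'})
    rw [hU₁]
    omega
  have g₂ := cut D₂ z
  have g₃ := cut D₃ z'
  rw [← hU₂] at g₂
  rw [← hU₃] at g₃
  obtain ⟨I₁, hI₁, c₁, m₁⟩ := n₁ U₁ sdiff_subset (card_pos.1 (by
    have := one D₁ z; have := one D₁ z'; omega))
  obtain ⟨I₂, hI₂, c₂, m₂⟩ := n₂ U₂ sdiff_subset (card_pos.1 (by have := one D₂ z; omega))
  obtain ⟨I₃, hI₃, c₃, m₃⟩ := n₃ U₃ sdiff_subset (card_pos.1 (by have := one D₃ z'; omega))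
  have mono : ∀ {U A B E : Finset V}, A ⊆ B → (∀ w ∈ B, w ∉ E ∧ ∃ x ∈ U, G.Adj x w) →
      ∀ w ∈ A, w ∉ E ∧ ∃ x ∈ U, G.Adj x w := fun hs hB w hw => hB w (hs hw)
  have indep : ∀ {A B : Finset V}, A ⊆ B → G.IsIndepSet (B : Set V) → G.IsIndepSet (A : Set V) :=
    fun hs hB p hp q hq hpq => hB (hs hp) (hs hq) hpq
  obtain ⟨A₁, hA₁, A₂, hA₂, l₁₂, x₁₂, d₁₂⟩ := hz.split (U := U₁) (U' := U₂) sdiff_subset
    (by simp [hU₁]) sdiff_subset (by simp [hU₂]) hI₁ hI₂ m₁ m₂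
  obtain ⟨B₁, hB₁, A₃, hA₃, l₁₃, x₁₃, d₁₃⟩ := hz'.split (U := U₁) (U' := U₃) sdiff_subset
    (by simp [hU₁]) sdiff_subset (by simp [hU₃]) (indep hA₁ hI₁) hI₃ (mono hA₁ m₁) m₃
  obtain ⟨B₂, hB₂, B₃, hB₃, f₂₃, d₂₃⟩ := hL U₂ (sdiff_subset_sdiff subset_rfl (subset_insert _ _))
    U₃ (sdiff_subset_sdiff subset_rfl (subset_insert _ _)) A₂ A₃ (indep hA₂ hI₂) (indep hA₃ hI₃)
    (mono hA₂ m₂) (mono hA₃ m₃)
  -- an apart pair loses one: its cover is not both a removed unit and an element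
  have f₁₂ : #(D₁ ∩ {z}) + #(D₂ ∩ {z}) + #I₁ + #I₂ ≤ #A₁ + #A₂ + 1 := by
    by_cases h1 : z ∈ D₁
    · have h2 : z ∉ D₂ := disjoint_left.1 hdis₁₂ h1
      have h3 : z ∉ I₁ := fun h => (m₁ z h).1 h1
      have h4 : z ∉ I₂ := fun h => by
        obtain ⟨-, y, hy, hyz⟩ := m₂ z h
        exact e₁₂ z h1 y (mem_sdiff.1 hy).1 hyz.symm
      obtain ⟨rfl, rfl⟩ := x₁₂ h3 h4
      simp [h1, h2]; omega
    · by_cases h2 : z ∈ D₂
      · have h4 : z ∉ I₂ := fun h => (m₂ z h).1 h2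
        have h3 : z ∉ I₁ := fun h => by
          obtain ⟨-, y, hy, hyz⟩ := m₁ z h
          exact e₁₂ y (mem_sdiff.1 hy).1 z h2 hyz
        obtain ⟨rfl, rfl⟩ := x₁₂ h3 h4
        simp [h1, h2]; omega
      · simp [h1, h2]; omega
  have f₁₃ : #(D₁ ∩ {z'}) + #(D₃ ∩ {z'}) + #A₁ + #I₃ ≤ #B₁ + #A₃ + 1 := by
    by_cases h1 : z' ∈ D₁
    · have h2 : z' ∉ D₃ := disjoint_left.1 hdis₁₃ h1
      have h3 : z' ∉ A₁ := fun h => (m₁ z' (hA₁ h)).1 h1
      have h4 : z' ∉ I₃ := fun h => by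
        obtain ⟨-, y, hy, hyz⟩ := m₃ z' h
        exact e₁₃ z' h1 y (mem_sdiff.1 hy).1 hyz.symm
      obtain ⟨rfl, rfl⟩ := x₁₃ h3 h4
      simp [h1, h2]; omega
    · by_cases h2 : z' ∈ D₃
      · have h4 : z' ∉ I₃ := fun h => (m₃ z' h).1 h2
        have h3 : z' ∉ A₁ := fun h => by
          obtain ⟨-, y, hy, hyz⟩ := m₁ z' (hA₁ h)
          exact e₁₃ y (mem_sdiff.1 hy).1 z' h2 hyz
        obtain ⟨rfl, rfl⟩ := x₁₃ h3 h4
        simp [h1, h2]; omega
      · simp [h1, h2]; omega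
  refine ⟨B₁ ∪ B₂ ∪ B₃, fun p hp q hq hpq hadj => ?_, ?_⟩
  · have i₁ := indep hB₁ (indep hA₁ hI₁)
    have i₂ := indep hB₂ (indep hA₂ hI₂)
    have i₃ := indep hB₃ (indep hA₃ hI₃)
    simp only [coe_union, Set.mem_union, mem_coe] at hp hq
    rcases hp with (hp | hp) | hp <;> rcases hq with (hq | hq) | hq
    · exact i₁ hp hq hpq hadj
    · exact (d₁₂ p (hB₁ hp) q (hB₂ hq)).2 hadj
    · exact (d₁₃ p hp q (hB₃ hq)).2 hadj
    · exact (d₁₂ q (hB₁ hq) p (hB₂ hp)).2 hadj.symm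
    · exact i₂ hp hq hpq hadj
    · exact (d₂₃ p hp q hq).2 hadj
    · exact (d₁₃ q hq p (hB₃ hp)).2 hadj.symm
    · exact (d₂₃ q hq p hp).2 hadj.symm
    · exact i₃ hp hq hpq hadj
  · have g₁ : Disjoint B₁ B₂ := disjoint_left.2 fun v hv hv' =>
      (d₁₂ v (hB₁ hv) v (hB₂ hv')).1 rfl
    have g₂ : Disjoint (B₁ ∪ B₂) B₃ := disjoint_left.2 fun v hv hv' => by
      rcases mem_union.1 hv with hv | hv
      · exact (d₁₃ v hv v (hB₃ hv')).1 rfl
      · exact (d₂₃ v hv v hv').1 rfl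
    rw [card_union_of_disjoint g₂, card_union_of_disjoint g₁]
    omega

/-- Three disjoint cliques, the first with no edge to the other two. -/
theorem three_cliques {D₁ D₂ D₃ : Finset V} (h₁₂ : Pair G D₁ D₂ m) (h₁₃ : Pair G D₁ D₃ m)
    (h₂₃ : Pair G D₂ D₃ m) (e₁₂ : ∀ x ∈ D₁, ∀ y ∈ D₂, ¬ G.Adj x y)
    (e₁₃ : ∀ x ∈ D₁, ∀ y ∈ D₃, ¬ G.Adj x y) (n₁ : NbrIndep G D₁) (n₂ : NbrIndep G D₂)
    (n₃ : NbrIndep G D₃) (s₁ : 3 ≤ #D₁) (s₂ : 3 ≤ #D₂) (s₃ : 3 ≤ #D₃) :
    HasCycle G m ∨ ∃ S : Finset V, G.IsIndepSet (S : Set V) ∧ #D₁ + #D₂ + #D₃ ≤ #S + 4 := by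
  rcases exists_cover h₁₂ with hC | ⟨z, hz⟩
  · exact Or.inl hC
  rcases exists_cover h₁₃ with hC | ⟨z', hz'⟩
  · exact Or.inl hC
  rcases exists_cover h₂₃ with hC | ⟨z'', hz''⟩
  · exact Or.inl hC
  have one : ∀ E : Finset V, #(E ∩ {z''}) ≤ 1 := fun E =>
    (card_le_card inter_subset_right).trans (card_singleton z'').le
  exact Or.inr (three_of_loss h₁₂.dis h₁₃.dis e₁₂ e₁₃ hz hz' (hz''.loss h₂₃.dis) (one D₂) (one D₃)
    n₁ n₂ n₃ s₁ s₂ s₃)

end Vale.Agent.P048.Full
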