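import Vale.Agent.P048.Lists
import Vale.Agent.P048.Close.Basic

/-!
Cycles of exact length from links: if prescribed pairs of `D` lie on a common cyclic order and the
degrees in `D` are large, the paths realising the pairs outside `D` close up to a cycle.
-/

namespace Vale.Agent.P048.Full

open Finset

variable {V : Type*}

/-- A link: its two ends and the interior of a path between them. -/
abbrev Link (V : Type*) := V × List V × V

/-- The pair of ends of a link. -/
def pair (L : Link V) : Sym2 V := s(L.1, L.2.2)

/-- The interior of a link. -/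
def lmid (L : Link V) : List V := L.2.1

/-- The consecutive ordered pairs of a list. -/
def opairs : List V → List (V × V)
  | a :: b :: t => (a, b) :: opairs (b :: t)
  | _ => []

theorem map_opairs : ∀ l : List V, (opairs l).map (fun e => s(e.1, e.2)) = epairs l
  | [] => rfl
  | [_] => rfl
  | a :: b :: t => by simp [opairs, epairs, map_opairs (b :: t)]

/-- Insert a list between consecutive members. -/
def weave (ins : V → V → List V) : List V → List V
  | a :: b :: t => a :: (ins a b ++ weave ins (b :: t))
  | l => l

theorem weave_perm (ins : V → V → List V) : ∀ l : List V,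
    (weave ins l).Perm (l ++ (opairs l).flatMap fun e => ins e.1 e.2)
  | [] => by simp [weave, opairs]
  | [_] => by simp [weave, opairs]
  | a :: b :: t => by
    rw [weave, opairs, List.flatMap_cons, List.cons_append]
    refine List.Perm.cons a ?_
    refine ((weave_perm ins (b :: t)).append_left _).trans ?_
    rw [← List.append_assoc, ← List.append_assoc]
    exact (List.perm_append_comm).append_right _

theorem weave_ne_nil (ins : V → V → List V) : ∀ l : List V, l ≠ [] → weave ins l ≠ []
  | [_], _ => by simp [weave]
  | _ :: _ :: _, _ => by simp [weave]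

theorem weave_head (ins : V → V → List V) (a : V) (t : List V) :
    ∃ r, weave ins (a :: t) = a :: r := by
  cases t with
  | nil => exact ⟨[], rfl⟩
  | cons b t => exact ⟨_, rfl⟩

theorem weave_last (ins : V → V → List V) : ∀ l : List V,
    (weave ins l).getLast? = l.getLast?
  | [] => rfl
  | [_] => rfl
  | a :: b :: t => by
    obtain ⟨r, hr⟩ := weave_head ins b t
    rw [weave, List.getLast?_cons_cons, ← weave_last ins (b :: t), hr, ← List.cons_append,
      List.getLast?_append_cons]

theorem weave_chain (G : SimpleGraph V) (ins : V → V → List V) : ∀ l : List V,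
    (∀ e ∈ opairs l, (e.1 :: (ins e.1 e.2 ++ [e.2])).IsChain G.Adj) →
      (weave ins l).IsChain G.Adj
  | [], _ => List.IsChain.nil
  | [_], _ => List.IsChain.singleton _
  | a :: b :: t, h => by
    have ih := weave_chain G ins (b :: t) fun e he => h e (List.mem_cons_of_mem _ he)
    obtain ⟨r, hr⟩ := weave_head ins b t
    rw [weave, hr]
    rw [hr] at ih
    have h1 := h (a, b) (by simp [opairs])
    rw [← List.cons_append, List.isChain_split]
    exact ⟨h1, ih⟩

variable [DecidableEq V]

theorem mem_of_mem_epairs {l : List V} {p : Sym2 V} (hp : p ∈ epairs l) {x : V} (hx : x ∈ p) :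
    x ∈ l := by
  obtain ⟨i, hi, rfl⟩ := mem_epairs_iff.1 hp
  rcases Sym2.mem_iff.1 hx with rfl | rfl <;> simp

theorem epairs_nodup : ∀ {l : List V}, l.Nodup → (epairs l).Nodup
  | [], _ => by simp [epairs]
  | [_], _ => by simp [epairs]
  | a :: b :: t, h => by
    rw [epairs, List.nodup_cons]
    exact ⟨fun hp => (List.nodup_cons.1 h).1 (mem_of_mem_epairs hp (Sym2.mem_mk_left a b)),
      epairs_nodup (List.nodup_cons.1 h).2⟩

theorem cpairs_nodup {l : List V} (h : l.Nodup) (h3 : 3 ≤ l.length) : (cpairs l).Nodup := by
  match l, h, h3 with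
  | a :: b :: c :: t, h, _ =>
    rw [cpairs_eq _ (by simp), List.nodup_append']
    refine ⟨epairs_nodup h, List.nodup_singleton _, fun p hp hp' => ?_⟩
    rw [List.mem_singleton] at hp'
    subst hp'
    rw [epairs, List.mem_cons] at hp
    have ha := (List.nodup_cons.1 h).1
    rcases hp with hp | hp
    · rw [List.head_cons, Sym2.eq_iff] at hp
      have hlast : (a :: b :: c :: t).getLast (by simp) ∈ c :: t := by
        rw [List.getLast_cons (by simp), List.getLast_cons (by simp)]
        exact List.getLast_mem _
      rcases hp with ⟨hl, -⟩ | ⟨hl, -⟩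
      · rw [hl] at hlast; exact ha (List.mem_cons_of_mem _ hlast)
      · rw [hl] at hlast; exact (List.nodup_cons.1 (List.nodup_cons.1 h).2).1 hlast
    · exact ha (mem_of_mem_epairs hp (Sym2.mem_mk_right _ _))

theorem epairs_filter (f : V → Bool) {l : List V} {x y : V} (h : s(x, y) ∈ epairs l)
    (hx : f x = true) (hy : f y = true) : s(x, y) ∈ epairs (l.filter f) := by
  induction l with
  | nil => simp [epairs] at h
  | cons a t ih =>
    cases t with
    | nil => simp [epairs] at h
    | cons b t =>
      rw [epairs, List.mem_cons] at h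
      rcases h with h | h
      · have hab : f a = true ∧ f b = true := by
          rcases Sym2.eq_iff.1 h with ⟨rfl, rfl⟩ | ⟨rfl, rfl⟩
          exacts [⟨hx, hy⟩, ⟨hy, hx⟩]
        rw [List.filter_cons_of_pos hab.1, List.filter_cons_of_pos hab.2, h, epairs]
        simp
      · rcases hfa : f a with _ | _
        · rw [List.filter_cons_of_neg (by simp [hfa])]; exact ih h
        · rw [List.filter_cons_of_pos hfa]
          exact mem_epairs_append_right (A := [a]) (ih h)

theorem mem_of_mem_cpairs {l : List V} {p : Sym2 V} (hp : p ∈ cpairs l) {x : V} (hx : x ∈ p) :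
    x ∈ l := by
  obtain ⟨a, t, rfl⟩ := List.exists_cons_of_ne_nil (show l ≠ [] by rintro rfl; simp [cpairs] at hp)
  have h := mem_of_mem_epairs (show p ∈ epairs (a :: t ++ [a]) from hp) hx
  simp only [List.mem_append, List.mem_singleton, List.mem_cons] at h ⊢
  tauto

theorem cpairs_not_diag {l : List V} (hnd : l.Nodup) (h3 : 3 ≤ l.length) {x y : V}
    (h : s(x, y) ∈ cpairs l) : x ≠ y := by
  rintro rfl
  rw [cpairs_eq l (by rintro rfl; simp at h3), List.mem_append, List.mem_singleton] at h
  rcases h with h | h
  · obtain ⟨i, hi, he⟩ := mem_epairs_iff.1 h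
    rcases Sym2.eq_iff.1 he with ⟨e1, e2⟩ | ⟨e1, e2⟩ <;>
    · have := (hnd.getElem_inj_iff).1 (e1.symm.trans e2)
      omega
  · rw [List.getLast_eq_getElem, List.head_eq_getElem] at h
    rcases Sym2.eq_iff.1 h with ⟨e1, e2⟩ | ⟨e1, e2⟩ <;>
    · have := (hnd.getElem_inj_iff).1 (e1.symm.trans e2)
      omega

theorem mem_cpairs_of_epairs {l : List V} {p : Sym2 V} (h : p ∈ epairs l) : p ∈ cpairs l := by
  rw [cpairs_eq l (by rintro rfl; simp [epairs] at h)]
  exact List.mem_append_left _ h

variable {G : SimpleGraph V}

/-- Links whose pairs lie on a cyclic order of `D` in which all other pairs are edges give a cycle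
of exact length. -/
theorem cycle_of_order (D : Finset V) (Ls : List (Link V)) (l : List V) (hnd : l.Nodup)
    (hlD : l.toFinset = D) (h3 : 3 ≤ #D) (hmem : ∀ L ∈ Ls, pair L ∈ cpairs l)
    (hgood' : ∀ p ∈ cpairs l, p ∈ Ls.map pair ∨ p ∈ G.edgeSet)
    (hpn : (Ls.map pair).Nodup)
    (hch : ∀ L ∈ Ls, (L.1 :: (lmid L ++ [L.2.2])).IsChain G.Adj)
    (hX : (Ls.flatMap lmid).Nodup) (hXD : ∀ x ∈ Ls.flatMap lmid, x ∉ D) :
    Close.HasCycle G (#D + (Ls.flatMap lmid).length) := by
  classical
  have hP : ∀ p ∈ (Ls.map pair).toFinset, p ∈ cpairs l := fun p hp => by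
    obtain ⟨L, hL, rfl⟩ := List.mem_map.1 (List.mem_toFinset.1 hp)
    exact hmem L hL
  have hgood : ∀ p ∈ cpairs l, p ∈ (Ls.map pair).toFinset ∨ p ∈ G.edgeSet := fun p hp =>
    (hgood' p hp).imp_left List.mem_toFinset.2
  have hlen : l.length = #D := by rw [← hlD, List.toFinset_card_of_nodup hnd]
  let find : Sym2 V → Option (Link V) := fun p => Ls.find? fun L => decide (pair L = p)
  have hfind : ∀ L ∈ Ls, find (pair L) = some L := by
    intro L hL
    obtain ⟨L', hL'⟩ := Option.isSome_iff_exists.1
      (List.find?_isSome.2 ⟨L, hL, by simp⟩ : (find (pair L)).isSome)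
    have h1 := List.mem_of_find?_eq_some hL'
    have h2 : pair L' = pair L := by simpa using List.find?_some hL'
    show find (pair L) = some L
    rw [show find (pair L) = some L' from hL', List.inj_on_of_nodup_map hpn h1 hL h2]
  let f : Sym2 V → List V := fun p => ((find p).map lmid).getD []
  let ins : V → V → List V := fun x y => match find s(x, y) with
    | some L => if L.1 = x then lmid L else (lmid L).reverse
    | none => []
  have hins : ∀ x y, (ins x y).Perm (f s(x, y)) := by
    intro x y
    simp only [ins, f]
    rcases find s(x, y) with _ | L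
    · simp
    · simp only [Option.map_some, Option.getD_some]
      split_ifs
      · exact List.Perm.refl _
      · exact List.reverse_perm _
  obtain ⟨a, t, rfl⟩ := List.exists_cons_of_ne_nil (show l ≠ [] by
    rintro rfl; simp at hlen; omega)
  set lc := a :: t ++ [a] with hlc
  have hchain : (weave ins lc).IsChain G.Adj := by
    refine weave_chain G ins lc fun e he => ?_
    have hp : s(e.1, e.2) ∈ cpairs (a :: t) := by
      show s(e.1, e.2) ∈ epairs lc
      rw [← map_opairs]
      exact List.mem_map.2 ⟨e, he, rfl⟩
    obtain ⟨x, y⟩ := e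
    simp only [ins]
    rcases hF : find s(x, y) with _ | L
    · have := hgood _ hp
      rcases this with h | h
      · obtain ⟨L, hL, hLp⟩ := List.mem_map.1 (List.mem_toFinset.1 h)
        rw [← hLp, hfind L hL] at hF
        simp at hF
      · simpa using h
    · have h1 := List.mem_of_find?_eq_some hF
      have h2 : pair L = s(x, y) := by simpa using List.find?_some hF
      have hc := hch L h1
      show (x :: ((if L.1 = x then lmid L else (lmid L).reverse) ++ [y])).IsChain G.Adj
      rcases Sym2.eq_iff.1 h2 with ⟨hx, hy⟩ | ⟨hy, hx⟩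
      · rw [if_pos hx, ← hy, ← hx]; exact hc
      · split_ifs with h
        · rw [← h, show y = L.2.2 by rw [hx, ← h, hy]]; exact hc
        · have := List.isChain_reverse.2 (List.IsChain.imp (fun _ _ h => h.symm) hc)
          simpa [hx, hy] using this
  obtain ⟨E, hE⟩ : ∃ E, weave ins lc = E ++ [a] := by
    obtain ⟨E, z, hEz⟩ := (List.eq_nil_or_concat' _).resolve_left
      (weave_ne_nil ins lc (by simp [hlc]))
    refine ⟨E, ?_⟩
    have := weave_last ins lc
    rw [hEz, List.getLast?_concat, hlc, List.getLast?_concat] at this
    rw [hEz, Option.some.inj this]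
  have hperm : E.Perm (a :: t ++ Ls.flatMap lmid) := by
    have h1 := weave_perm ins lc
    rw [hE] at h1
    have h2 : ((opairs lc).flatMap fun e => ins e.1 e.2).Perm ((cpairs (a :: t)).flatMap f) := by
      show List.Perm _ ((epairs lc).flatMap f)
      rw [← map_opairs, List.flatMap_map]
      exact List.Perm.flatMap_left _ fun e _ => hins e.1 e.2
    have h3 : ((cpairs (a :: t)).flatMap f).Perm (Ls.flatMap lmid) := by
      have hsplit : (cpairs (a :: t)).Perm (Ls.map pair ++
          (cpairs (a :: t)).filter fun p => decide (p ∉ Ls.map pair)) := by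
        have hc := cpairs_nodup hnd (by omega)
        refine (List.perm_ext_iff_of_nodup hc (List.nodup_append'.2
          ⟨hpn, hc.filter _, fun p hp hp' => ?_⟩)).2 fun p => ?_
        · rw [List.mem_filter] at hp'
          simp only [decide_eq_true_eq] at hp'
          exact hp'.2 hp
        · simp only [List.mem_append, List.mem_filter, decide_eq_true_eq]
          constructor
          · intro hp
            by_cases h : p ∈ Ls.map pair
            exacts [Or.inl h, Or.inr ⟨hp, h⟩]
          · rintro (hp | hp)
            exacts [hP p (List.mem_toFinset.2 hp), hp.1]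
      refine (hsplit.flatMap_right f).trans ?_
      rw [List.flatMap_append, (List.flatMap_eq_nil_iff (l := List.filter _ _)).2 ?_,
        List.append_nil, List.flatMap_map]
      · refine List.Perm.of_eq (List.flatMap_congr fun L hL => ?_)
        simp [f, hfind L hL]
      · intro p hp
        simp only [List.mem_filter, decide_eq_true_eq] at hp
        simp only [f]
        rcases hF : find p with _ | L
        · rfl
        · exact absurd (List.mem_map.2 ⟨L, List.mem_of_find?_eq_some hF,
            by simpa using List.find?_some hF⟩) hp.2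
    have h4 : (E ++ [a]).Perm ((a :: t ++ Ls.flatMap lmid) ++ [a]) := by
      refine h1.trans (((h2.trans h3).append_left lc).trans ?_)
      rw [hlc, List.append_assoc, List.append_assoc]
      exact List.perm_append_comm.append_left _
    exact (List.perm_append_right_iff _).1 h4
  rw [hE] at hchain
  refine ⟨E, ?_, ?_, (List.isChain_append.1 hchain).1, fun x hx y hy => ?_⟩
  · rw [hperm.length_eq, List.length_append, hlen]
  · rw [hperm.nodup_iff, List.nodup_append']
    refine ⟨hnd, hX, fun z hz hz' => hXD z hz' ?_⟩
    rw [← hlD]
    exact List.mem_toFinset.2 hz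
  · have h := (List.isChain_append.1 hchain).2.2 x hx a (by simp)
    suffices hya : y = a by rw [hya]; exact h
    obtain ⟨r, hr⟩ := weave_head ins a (t ++ [a])
    rw [show a :: (t ++ [a]) = lc from rfl, hE] at hr
    cases E with
    | nil => simp at hy
    | cons e E' =>
      simp only [List.cons_append, List.cons.injEq] at hr
      simpa [hr.1] using hy.symm

end Vale.Agent.P048.Full
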