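import Vale.Agent.P048.Forest
import Vale.Agent.P048.Full.Links

/-!
Tight link systems: a path cover of `W` and the forest lemma give links between members of `U`
through `W` whose interiors have `t + z` vertices in total, with few links and small excess `z`.
-/

namespace Vale.Agent.P048.Full

open Finset

variable {V : Type*} [DecidableEq V] {G : SimpleGraph V} [DecidableRel G.Adj]

omit [DecidableEq V] [DecidableRel G.Adj] in
theorem seg_link {p : List V} (hp : p.IsChain G.Adj) {i j : ℕ} (hij : i ≤ j) (hj : j < p.length)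
    {u v : V} (hu : G.Adj u p[i]) (hv : G.Adj v p[j]) :
    ∃ Q : List V, Q.length = j + 1 - i ∧ Q.Sublist p ∧ (u :: (Q ++ [v])).IsChain G.Adj := by
  refine ⟨(p.drop i).take (j + 1 - i), by simp; omega,
    (List.take_sublist _ _).trans (List.drop_sublist _ _), ?_⟩
  rw [List.isChain_cons, List.isChain_append]
  refine ⟨?_, (hp.drop i).take _, List.IsChain.singleton _, ?_⟩
  · intro y hy
    rw [List.head?_eq_getElem?, List.getElem?_append_left (by simp; omega),
      List.getElem?_take_of_lt (by omega), List.getElem?_drop,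
      List.getElem?_eq_getElem (by omega), Option.mem_some_iff] at hy
    rw [← hy]
    simpa using hu
  · intro x hx y hy
    rw [List.head?_cons, Option.mem_some_iff] at hy
    rw [List.getLast?_eq_getElem?, List.getElem?_take_of_lt (by simp; omega),
      List.getElem?_drop, List.getElem?_eq_getElem (by simp; omega), Option.mem_some_iff] at hx
    rw [← hy, ← hx]
    convert hv.symm using 2
    simp
    omega

/-- Two vertices with `A` and `B` neighbours on a path are linked through at least `(A + B) / 2`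
of its vertices. -/
theorem exists_segment {p : List V} (hp : IsListPath G p) {u v : V}
    (hu : 0 < #(p.toFinset.filter (G.Adj u))) (hv : 0 < #(p.toFinset.filter (G.Adj v))) :
    ∃ Q : List V, (Q.Nodup ∧ Q ⊆ p) ∧ (u :: (Q ++ [v])).IsChain G.Adj ∧
      #(p.toFinset.filter (G.Adj u)) + #(p.toFinset.filter (G.Adj v)) ≤ 2 * Q.length ∧
      (#(p.toFinset.filter (G.Adj u)) + #(p.toFinset.filter (G.Adj v)) = 2 * Q.length →
        2 ≤ Q.length → ∃ Q' : List V, (Q'.Nodup ∧ Q' ⊆ p) ∧ (u :: (Q' ++ [v])).IsChain G.Adj ∧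
          Q'.length + 1 = Q.length) := by
  obtain ⟨-, hnd, hch⟩ := hp
  have key : ∀ w, 0 < #(p.toFinset.filter (G.Adj w)) → ∃ i j, i ≤ j ∧ ∃ hj : j < p.length,
      (∀ hi : i < p.length, G.Adj w p[i]) ∧ G.Adj w p[j] ∧
        #(p.toFinset.filter (G.Adj w)) ≤ j + 1 - i ∧
        (#(p.toFinset.filter (G.Adj w)) = j + 1 - i →
          ∀ k, i ≤ k → k ≤ j → ∀ hk : k < p.length, G.Adj w p[k]) := by
    intro w hw
    set S := (range p.length).filter fun i => ∀ hi : i < p.length, G.Adj w p[i] with hS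
    have hsub : p.toFinset.filter (G.Adj w) ⊆ S.image fun i => p.getD i w := by
      intro x hx
      rw [mem_filter, List.mem_toFinset] at hx
      obtain ⟨i, hi, rfl⟩ := List.getElem_of_mem hx.1
      exact mem_image.2 ⟨i, by simp [hS, hi, hx.2], by simp [hi]⟩
    have hne : S.Nonempty := by
      rcases S.eq_empty_or_nonempty with h | h
      · rw [h, image_empty, subset_empty] at hsub; simp [hsub] at hw
      · exact h
    have hmin := mem_filter.1 (S.min'_mem hne)
    have hmax := mem_filter.1 (S.max'_mem hne)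
    have hle : #(p.toFinset.filter (G.Adj w)) ≤ #S := (card_le_card hsub).trans card_image_le
    have hSI : S ⊆ Icc (S.min' hne) (S.max' hne) :=
      fun x hx => mem_Icc.2 ⟨S.min'_le x hx, S.le_max' x hx⟩
    refine ⟨S.min' hne, S.max' hne, S.min'_le _ (S.max'_mem hne), mem_range.1 hmax.1, hmin.2,
      hmax.2 _, (hle.trans (card_le_card hSI)).trans (Nat.card_Icc _ _).le, fun heq k h1 h2 hk => ?_⟩
    have h : S = Icc (S.min' hne) (S.max' hne) :=
      eq_of_subset_of_card_le hSI (by rw [Nat.card_Icc, ← heq]; exact hle)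
    have hkS : k ∈ S := by rw [h]; exact mem_Icc.2 ⟨h1, h2⟩
    exact (mem_filter.1 hkS).2 hk
  obtain ⟨i, j, hij, hj, hui, huj, hA, hAeq⟩ := key u hu
  obtain ⟨i', j', hij', hj', hvi, hvj, hB, hBeq⟩ := key v hv
  by_cases h : j + 1 - i + (j' + 1 - i') ≤ 2 * (j' + 1 - i) ∧ i ≤ j'
  · obtain ⟨Q, h1, h2, h3⟩ := seg_link hch h.2 hj' (hui (by omega)) hvj
    refine ⟨Q, ⟨h2.nodup hnd, h2.subset⟩, h3, by omega, fun heq h2le => ?_⟩
    by_cases hlt : i < j
    · obtain ⟨Q', q1, q2, q3⟩ := seg_link hch (show i + 1 ≤ j' by omega) hj'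
        (hAeq (by omega) (i + 1) (by omega) (by omega) (by omega)) hvj
      exact ⟨Q', ⟨q2.nodup hnd, q2.subset⟩, q3, by omega⟩
    · obtain ⟨Q', q1, q2, q3⟩ := seg_link hch (show i ≤ j' - 1 by omega) (show j' - 1 < p.length by omega)
        (hui (by omega)) (hBeq (by omega) (j' - 1) (by omega) (by omega) (by omega))
      exact ⟨Q', ⟨q2.nodup hnd, q2.subset⟩, q3, by omega⟩
  · obtain ⟨Q, h1, h2, h3⟩ := seg_link hch (show i' ≤ j by omega) hj
      (hvi (by omega)) huj
    have flip : ∀ R : List V, (v :: (R ++ [u])).IsChain G.Adj →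
        (u :: (R.reverse ++ [v])).IsChain G.Adj := fun R hR => by
      simpa using List.isChain_reverse.2 (List.IsChain.imp (fun _ _ h => h.symm) hR)
    refine ⟨Q.reverse, ⟨List.nodup_reverse.2 (h2.nodup hnd),
      fun x hx => h2.subset (List.mem_reverse.1 hx)⟩, flip Q h3,
      by rw [List.length_reverse]; omega, fun heq h2le => ?_⟩
    rw [List.length_reverse] at heq h2le ⊢
    by_cases hlt : i' < j'
    · obtain ⟨Q', q1, q2, q3⟩ := seg_link hch (show i' + 1 ≤ j by omega) hj
        (hBeq (by omega) (i' + 1) (by omega) (by omega) (by omega)) huj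
      exact ⟨Q'.reverse, ⟨List.nodup_reverse.2 (q2.nodup hnd),
        fun x hx => q2.subset (List.mem_reverse.1 hx)⟩, flip Q' q3,
        by rw [List.length_reverse]; omega⟩
    · obtain ⟨Q', q1, q2, q3⟩ := seg_link hch (show i' ≤ j - 1 by omega) (show j - 1 < p.length by omega)
        (hvi (by omega)) (hAeq (by omega) (j - 1) (by omega) (by omega) (by omega))
      exact ⟨Q'.reverse, ⟨List.nodup_reverse.2 (q2.nodup hnd),
        fun x hx => q2.subset (List.mem_reverse.1 hx)⟩, flip Q' q3,
        by rw [List.length_reverse]; omega⟩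

/-- Links between members of `U` through `W`, whose pairs occur consecutively in an order of `U`. -/
structure LinksIn (G : SimpleGraph V) (U W : Finset V) (Ls : List (Link V)) (l₀ : List V) : Prop where
  nd : l₀.Nodup
  order : l₀.toFinset = U
  mem : ∀ L ∈ Ls, pair L ∈ epairs l₀
  pn : (Ls.map pair).Nodup
  chain : ∀ L ∈ Ls, (L.1 :: (lmid L ++ [L.2.2])).IsChain G.Adj
  midNodup : (Ls.flatMap lmid).Nodup
  midSub : ∀ x ∈ Ls.flatMap lmid, x ∈ W

omit [DecidableRel G.Adj] in
theorem LinksIn.sublist {U W : Finset V} {Ls Ls' : List (Link V)} {l₀ : List V}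
    (h : LinksIn G U W Ls l₀) (hs : Ls'.Sublist Ls) : LinksIn G U W Ls' l₀ :=
  ⟨h.nd, h.order, fun L hL => h.mem L (hs.subset hL), h.pn.sublist (hs.map pair),
    fun L hL => h.chain L (hs.subset hL), h.midNodup.sublist (hs.flatMap lmid),
    fun x hx => h.midSub x ((hs.flatMap lmid).subset hx)⟩

open Forest in
omit [DecidableEq V] in
theorem edges_map {P : Type*} : ∀ (u : V) (r : List (P × V)),
    (edgesFrom u r).map (fun e => s(e.1, e.2.2)) = epairs (units (u, r)) ∧
      (edgesFrom u r).map (fun e => e.2.1) = cols (u, r)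
  | _, [] => by simp [edgesFrom, epairs, units, cols]
  | u, (c, v) :: r => by
    obtain ⟨h1, h2⟩ := edges_map v r
    simp only [units, cols] at h1 h2
    simp [edgesFrom, epairs, units, cols, h1, h2]

open Forest in
theorem flatMap_edges {P : Type*} : ∀ L : List (Comp V P),
    ((L.flatMap edges).map fun e => s(e.1, e.2.2)).Sublist (epairs (L.flatMap units)) ∧
      (L.flatMap edges).map (fun e => e.2.1) = L.flatMap cols
  | [] => by simp [epairs]
  | C :: L => by
    obtain ⟨h1, h2⟩ := flatMap_edges L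
    obtain ⟨e1, e2⟩ := edges_map (P := P) C.1 C.2
    simp only [List.flatMap_cons, List.map_append, edges, e1, e2]
    refine ⟨?_, by rw [h2]⟩
    rcases eq_or_ne (L.flatMap units) [] with h | h
    · rw [h] at h1 ⊢
      simp only [epairs, List.sublist_nil] at h1
      rw [h1, List.append_nil, List.append_nil]
    · rw [epairs_append _ _ (by simp [units]) h]
      exact (List.Sublist.refl _).append (h1.trans (List.sublist_cons_self _ _))

/-- A path cover and the forest lemma give links of total length at least `t`. -/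
theorem exists_links (U W : Finset V) (t : ℕ)
    (hW : ∀ I ⊆ W, (∀ x ∈ I, ∀ y ∈ I, ¬ G.Adj x y) → #I < #U)
    (hrow : ∀ u ∈ U, t ≤ #(W.filter (G.Adj u))) :
    ∃ Ls l₀, LinksIn G U W Ls l₀ ∧ (∀ L ∈ Ls, lmid L ≠ []) ∧ t ≤ (Ls.flatMap lmid).length ∧
      ((∀ L ∈ Ls, 2 ≤ (lmid L).length) →
        (∃ L ∈ Ls, ∃ Q', LinksIn G U W ((L.1, Q', L.2.2) :: Ls.erase L) l₀ ∧
          Q'.length + 1 = (lmid L).length) ∨
        2 * t + Ls.length ≤ 2 * (Ls.flatMap lmid).length) := by
  classical
  obtain ⟨P, hPlen, hP, hPnd, hPW⟩ := exists_path_cover G W (#U - 1) fun I hI h => by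
    have := hW I hI h; omega
  have hU : 0 < #U := by
    have := hW ∅ (empty_subset _) (by simp); omega
  let d : V → Fin P.length → ℕ := fun u c => #(P[c].toFinset.filter (G.Adj u))
  rw [List.nodup_flatten] at hPnd
  have hdisj : ∀ c c' : Fin P.length, c ≠ c' → List.Disjoint P[c] P[c'] := by
    intro c c' hcc
    rcases lt_or_gt_of_ne hcc with h | h
    · exact List.pairwise_iff_getElem.1 hPnd.2 c c' c.2 c'.2 h
    · exact (List.pairwise_iff_getElem.1 hPnd.2 c' c c'.2 c.2 h).symm
  have hrow' : ∀ u ∈ U, t ≤ ∑ c ∈ (univ : Finset (Fin P.length)), d u c := by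
    intro u hu
    refine (hrow u hu).trans (le_trans (card_le_card ?_) card_biUnion_le)
    intro x hx
    rw [mem_filter, ← hPW, List.mem_toFinset, List.mem_flatten] at hx
    obtain ⟨⟨p, hp, hxp⟩, hxu⟩ := hx
    obtain ⟨i, hi, rfl⟩ := List.getElem_of_mem hp
    exact mem_biUnion.2 ⟨⟨i, hi⟩, mem_univ _, mem_filter.2 ⟨List.mem_toFinset.2 hxp, hxu⟩⟩
  obtain ⟨L, hL, hw⟩ := Forest.exists_heavy_forest (d := d) U univ t
    (by rw [card_univ, Fintype.card_fin]; omega) hrow'
  have hex : ∀ e : V × Fin P.length × V, ∃ Q : List V, e ∈ L.flatMap Forest.edges →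
      (Q.Nodup ∧ Q ⊆ P[e.2.1]) ∧ (e.1 :: (Q ++ [e.2.2])).IsChain G.Adj ∧
        Forest.ew d e ≤ 2 * Q.length ∧ Q ≠ [] ∧ (Forest.ew d e = 2 * Q.length → 2 ≤ Q.length →
          ∃ Q' : List V, (Q'.Nodup ∧ Q' ⊆ P[e.2.1]) ∧ (e.1 :: (Q' ++ [e.2.2])).IsChain G.Adj ∧
            Q'.length + 1 = Q.length) := by
    intro e
    by_cases he : e ∈ L.flatMap Forest.edges
    · obtain ⟨C, hC, heC⟩ := List.mem_flatMap.1 he
      obtain ⟨h1, h2⟩ := hL.pos C hC e heC
      obtain ⟨Q, q1, q2, q3, q4⟩ := exists_segment (hP _ (List.getElem_mem e.2.1.2)) h1 h2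
      refine ⟨Q, fun _ => ⟨q1, q2, q3, ?_, q4⟩⟩
      rintro rfl
      simp only [List.length_nil, d, Fin.getElem_fin] at q3 h1
      omega
    · exact ⟨[], fun h => absurd h he⟩
  choose Q hQ using hex
  set ES := L.flatMap Forest.edges with hES
  let mk : V × Fin P.length × V → Link V := fun e => (e.1, Q e, e.2.2)
  obtain ⟨hsub, hcols⟩ := flatMap_edges L
  have hnd : (L.flatMap Forest.units).Nodup := hL.cover.nodup_iff.2 (nodup_toList _)
  have hmap : (ES.map mk).map pair = ES.map fun e => s(e.1, e.2.2) := by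
    rw [List.map_map]; rfl
  have hcnd : (ES.map fun e => e.2.1).Nodup := hcols ▸ hL.nodup
  have hsys : LinksIn G U W (ES.map mk) (L.flatMap Forest.units) := by
    refine ⟨hnd, ?_, ?_, ?_, ?_, ?_, ?_⟩
    · rw [List.toFinset_eq_of_perm _ _ hL.cover, toList_toFinset]
    · intro K hK
      exact hsub.subset (hmap ▸ List.mem_map_of_mem hK)
    · rw [hmap]; exact (epairs_nodup hnd).sublist hsub
    · intro K hK
      obtain ⟨e, he, rfl⟩ := List.mem_map.1 hK
      exact (hQ e he).2.1
    · rw [List.flatMap_map, List.nodup_flatMap]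
      refine ⟨fun e he => (hQ e he).1.1, ?_⟩
      refine (List.pairwise_map.1 hcnd).imp_of_mem fun {e e'} he he' hne x hx hx' => ?_
      exact hdisj _ _ hne ((hQ e he).1.2 hx) ((hQ e' he').1.2 hx')
    · intro x hx
      rw [List.flatMap_map, List.mem_flatMap] at hx
      obtain ⟨e, he, hx⟩ := hx
      rw [← hPW, List.mem_toFinset]
      exact List.mem_flatten.2 ⟨_, List.getElem_mem e.2.1.2, (hQ e he).1.2 hx⟩
  have h2 : (ES.map (Forest.ew d)).sum = Forest.total d L := by
    rw [hES, List.flatMap, List.map_flatten, List.sum_flatten, List.map_map, List.map_map]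
    rfl
  have h3 : ((ES.map mk).flatMap lmid).length = (ES.map fun e => (Q e).length).sum := by
    rw [List.flatMap_map, List.length_flatMap]; rfl
  refine ⟨ES.map mk, L.flatMap Forest.units, hsys, ?_, ?_, fun h2le => ?_⟩
  · intro K hK
    obtain ⟨e, he, rfl⟩ := List.mem_map.1 hK
    exact (hQ e he).2.2.2.1
  · have h1 : (ES.map (Forest.ew d)).sum ≤ (ES.map fun e => 2 * (Q e).length).sum :=
      List.sum_le_sum fun e he => (hQ e he).2.2.1
    rw [List.sum_map_mul_left, h2] at h1
    omega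
  · by_cases heq : ∃ e ∈ ES, Forest.ew d e = 2 * (Q e).length
    · left
      obtain ⟨e, he, hee⟩ := heq
      have hmem : mk e ∈ ES.map mk := List.mem_map_of_mem he
      obtain ⟨Q', ⟨q1, q1'⟩, q2, q3⟩ := (hQ e he).2.2.2.2 hee (h2le _ hmem)
      refine ⟨mk e, hmem, Q', ?_, q3⟩
      have hp := List.perm_cons_erase hmem
      have hndK : (ES.map mk).Nodup := List.Nodup.of_map pair hsys.pn
      have hnot : mk e ∉ (ES.map mk).erase (mk e) := fun h => (hndK.mem_erase_iff.1 h).1 rfl
      refine ⟨hsys.nd, hsys.order, ?_, ?_, ?_, ?_, ?_⟩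
      · intro K hK
        rcases List.mem_cons.1 hK with rfl | hK
        · exact hsys.mem (mk e) hmem
        · exact hsys.mem K (List.mem_of_mem_erase hK)
      · exact ((hp.map pair).nodup_iff).1 hsys.pn
      · intro K hK
        rcases List.mem_cons.1 hK with rfl | hK
        · exact q2
        · exact hsys.chain K (List.mem_of_mem_erase hK)
      · rw [List.flatMap_cons, List.nodup_append']
        refine ⟨q1, hsys.midNodup.sublist (List.erase_sublist.flatMap lmid), fun x hx hx' => ?_⟩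
        obtain ⟨K, hK, hxK⟩ := List.mem_flatMap.1 hx'
        obtain ⟨e', he', rfl⟩ := List.mem_map.1 (List.mem_of_mem_erase hK)
        refine hdisj _ _ ?_ (q1' hx) ((hQ e' he').1.2 hxK)
        intro hc
        have := List.inj_on_of_nodup_map hcnd he he' hc
        exact hnot (this ▸ hK)
      · intro x hx
        rw [List.flatMap_cons, List.mem_append] at hx
        rcases hx with hx | hx
        · rw [← hPW, List.mem_toFinset]
          exact List.mem_flatten.2 ⟨_, List.getElem_mem e.2.1.2, q1' hx⟩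
        · exact hsys.midSub x ((List.erase_sublist.flatMap lmid).subset hx)
    · right
      push Not at heq
      have h1 : (ES.map fun e => Forest.ew d e + 1).sum ≤ (ES.map fun e => 2 * (Q e).length).sum :=
        List.sum_le_sum fun e he => by
          have := (hQ e he).2.2.1
          have := heq e he
          omega
      rw [List.sum_map_add, List.map_const', List.sum_replicate, smul_eq_mul, mul_one,
        List.sum_map_mul_left, h2] at h1
      rw [List.length_map]
      omega

omit [DecidableRel G.Adj] in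
/-- A single link can be shortened by one or two vertices. -/
theorem shorten {U W : Finset V} {x y : V} {Q : List V} {F : Sym2 V} (hF : s(x, y) ≠ F)
    (hQ3 : 3 ≤ Q.length) (hxy : x ≠ y)
    (hx : x ∈ U) (hy : y ∈ U) (hQ : (x :: (Q ++ [y])).IsChain G.Adj) (hnd : Q.Nodup)
    (hW : ∀ w ∈ Q, w ∈ W) (hnb : ∀ w ∈ W, ∃ u ∈ U, G.Adj u w) :
    ∃ x' y' Q', x' ≠ y' ∧ x' ∈ U ∧ y' ∈ U ∧ (x' :: (Q' ++ [y'])).IsChain G.Adj ∧
      List.Sublist Q' Q ∧ Q'.length < Q.length ∧ Q.length ≤ Q'.length + 2 ∧ s(x', y') ≠ F ∧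
      (x ∉ F → y ∉ F → x ∈ s(x', y') ∨ y ∈ s(x', y')) := by
  obtain ⟨a, R, rfl⟩ := List.exists_cons_of_ne_nil (show Q ≠ [] by rintro rfl; simp at hQ3)
  obtain ⟨M, c, rfl⟩ := (List.eq_nil_or_concat' R).resolve_left (by rintro rfl; simp at hQ3)
  obtain ⟨b, M', rfl⟩ := List.exists_cons_of_ne_nil (show M ≠ [] by rintro rfl; simp at hQ3)
  rw [List.isChain_cons] at hQ
  have hax : G.Adj x a := hQ.1 a rfl
  obtain ⟨hch, -, hend⟩ := List.isChain_append.1 hQ.2
  have hcy : G.Adj c y := hend c (by rw [← List.cons_append, List.getLast?_concat]; rfl) y rfl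
  rw [List.isChain_cons] at hch
  have hmid : (b :: M' ++ [c]).IsChain G.Adj := hch.2
  obtain ⟨hbM, -, hlast⟩ := List.isChain_append.1 hmid
  obtain ⟨u, hu, hub⟩ := hnb b (hW b (by simp))
  set e := (b :: M').getLast (by simp) with he
  obtain ⟨v, hv, hve⟩ := hnb e (hW e (by
    simp only [List.mem_cons, List.mem_append]
    exact Or.inr (Or.inl (List.mem_cons.1 (List.getLast_mem _)))))
  have hlink : ∀ (p q : V) (S : List V) (hS : S ≠ []), S.IsChain G.Adj → G.Adj p (S.head hS) →
      G.Adj q (S.getLast hS) → (p :: (S ++ [q])).IsChain G.Adj := by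
    intro p q S hS hSc h1 h2
    rw [List.isChain_cons, List.isChain_append]
    refine ⟨fun z hz => ?_, hSc, List.IsChain.singleton _, fun z hz w hw => ?_⟩
    · rw [List.head?_append, List.head?_eq_some_head hS] at hz
      simp only [Option.some_or, Option.mem_some_iff] at hz
      exact hz ▸ h1
    · rw [List.getLast?_eq_some_getLast hS, Option.mem_some_iff] at hz
      rw [List.head?_cons, Option.mem_some_iff] at hw
      rw [← hz, ← hw]; exact h2.symm
  by_cases huy : u ≠ y ∧ s(u, y) ≠ F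
  · exact ⟨u, y, b :: M' ++ [c], huy.1, hu, hy, hlink u y _ (by simp) hmid (by simpa using hub)
      (by simpa using hcy.symm), List.sublist_cons_self _ _, by simp, by simp, huy.2,
      fun _ _ => Or.inr (Sym2.mem_mk_right _ _)⟩
  by_cases hvx : v ≠ x ∧ s(x, v) ≠ F
  · refine ⟨x, v, a :: b :: M', Ne.symm hvx.1, hx, hv, hlink x v _ (by simp) ?_ hax
      (by rw [List.getLast_cons (by simp)]; exact hve), ?_, by simp, by simp, hvx.2,
      fun _ _ => Or.inl (Sym2.mem_mk_left _ _)⟩
    · exact List.isChain_cons.2 ⟨fun z hz => hch.1 z (by simpa using hz), hbM⟩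
    · exact (List.sublist_append_left (b :: M') [c]).cons_cons a
  simp only [not_and_or, not_not] at huy hvx
  refine ⟨u, v, b :: M', ?_, hu, hv, hlink u v _ (by simp) hbM (by simpa using hub) hve, ?_,
    by simp, by simp, ?_, fun hxF hyF => ?_⟩
  · rintro rfl
    rcases huy with h | h <;> rcases hvx with h' | h'
    · exact hxy (h'.symm.trans h)
    · exact hF (h ▸ h')
    · exact hF (h' ▸ h)
    · rcases Sym2.eq_iff.1 (h.trans h'.symm) with ⟨h1, h2⟩ | ⟨-, h2⟩
      · exact hF (by rw [← h', h2])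
      · exact hxy h2.symm
  · exact ((List.sublist_append_left (b :: M') [c])).trans (List.sublist_cons_self _ _)
  · intro h''
    rcases huy with h | h <;> rcases hvx with h' | h'
    · subst h h'; exact hF (Sym2.eq_swap.trans h'')
    · subst h
      rcases Sym2.eq_iff.1 (h''.trans h'.symm) with ⟨h1, -⟩ | ⟨-, h2⟩
      · exact hxy h1.symm
      · exact hF (Sym2.eq_swap.trans (h2 ▸ h''))
    · subst h'
      rcases Sym2.eq_iff.1 (h''.trans h.symm) with ⟨-, h2⟩ | ⟨h1, h2⟩
      · exact hxy h2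
      · exact hxy (h2.trans h1)
    · rcases Sym2.eq_iff.1 (h''.trans h.symm) with ⟨-, h2⟩ | ⟨h1, h2⟩
      · rcases Sym2.eq_iff.1 (h''.trans h'.symm) with ⟨h1, -⟩ | ⟨h1, h3⟩
        · exact hF (by rw [← h, h1])
        · exact hxy (by rw [← h3, h2])
      · exact hF (by rw [← h', h2, h1, Sym2.eq_swap])
  · rcases huy with h | h
    · exact Or.inr (h ▸ Sym2.mem_mk_left _ _)
    · exact absurd (h ▸ Sym2.mem_mk_right u y) hyF

omit [DecidableRel G.Adj] in
/-- Repeated shortening brings a link to a length in `{t, t + 1}`, avoiding one pair. -/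
theorem exists_single {U W : Finset V} {t : ℕ} {F : Sym2 V} (ht : 1 ≤ t)
    (hnb : ∀ w ∈ W, ∃ u ∈ U, G.Adj u w) :
    ∀ (N : ℕ) (x y : V) (Q : List V), Q.length = N → t ≤ N → x ≠ y → s(x, y) ≠ F → x ∈ U → y ∈ U →
      (x :: (Q ++ [y])).IsChain G.Adj → Q.Nodup → (∀ w ∈ Q, w ∈ W) →
      ∃ x' y' Q', x' ≠ y' ∧ s(x', y') ≠ F ∧ x' ∈ U ∧ y' ∈ U ∧
        (x' :: (Q' ++ [y'])).IsChain G.Adj ∧ List.Sublist Q' Q ∧ t ≤ Q'.length ∧
        Q'.length ≤ t + 1 := by
  intro N
  induction N using Nat.strong_induction_on with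
  | _ N ih =>
  intro x y Q hN htN hxy hF hx hy hQ hnd hW
  by_cases hsmall : N ≤ t + 1
  · exact ⟨x, y, Q, hxy, hF, hx, hy, hQ, List.Sublist.refl _, by omega, by omega⟩
  obtain ⟨x', y', Q', h1, h2, h3, h4, h5, h6, h7, h8, -⟩ :=
    shorten hF (by omega) hxy hx hy hQ hnd hW hnb
  obtain ⟨x'', y'', Q'', g1, g2, g3, g4, g5, g6, g7⟩ := ih Q'.length (by omega) x' y' Q' rfl
    (by omega) h1 h8 h2 h3 h4 (h5.nodup hnd) fun w hw => hW w (h5.subset hw)
  exact ⟨x'', y'', Q'', g1, g2, g3, g4, g5, g6.trans h5, g7⟩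

end Vale.Agent.P048.Full
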