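import Vale.Agent.P048.Dirac

/-!
P048, full range: the independence number of a vertex set and exact sets.  A set is
dense-free if each part `T` has at most `q * α(T)` vertices; if it has exactly `q * α` vertices, is
connected and is not a clique, then it has a path on `2q` vertices.
-/

namespace Vale.Agent.P048.Full

open Finset
open Dirac (StepIn PathIn CycleIn)

variable {V : Type*} {G : SimpleGraph V}

/-- `I` has no edges. -/
def Indep (G : SimpleGraph V) (I : Finset V) : Prop := ∀ x ∈ I, ∀ y ∈ I, ¬ G.Adj x y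

/-- The largest size of an independent subset of `S`. -/
noncomputable def aOn (G : SimpleGraph V) (S : Finset V) : ℕ := by
  classical
  exact (S.powerset.filter fun I => Indep G I).sup card

theorem card_le_aOn {S I : Finset V} (hIS : I ⊆ S) (hI : ∀ x ∈ I, ∀ y ∈ I, ¬ G.Adj x y) :
    #I ≤ aOn G S := by
  classical
  exact le_sup (f := card) (mem_filter.2 ⟨mem_powerset.2 hIS, hI⟩)

theorem exists_aOn (G : SimpleGraph V) (S : Finset V) :
    ∃ I ⊆ S, #I = aOn G S ∧ ∀ x ∈ I, ∀ y ∈ I, ¬ G.Adj x y := by
  classical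
  obtain ⟨I, hI, h⟩ := exists_mem_eq_sup
    (S.powerset.filter fun I => Indep G I) ⟨∅, mem_filter.2 ⟨empty_mem_powerset _, by simp [Indep]⟩⟩ card
  rw [mem_filter, mem_powerset] at hI
  exact ⟨I, hI.1, h.symm, hI.2⟩

theorem aOn_mono {S T : Finset V} (h : S ⊆ T) : aOn G S ≤ aOn G T := by
  obtain ⟨I, hIS, hI, hind⟩ := exists_aOn G S
  exact hI ▸ card_le_aOn (hIS.trans h) hind

theorem aOn_pos {S : Finset V} (h : S.Nonempty) : 1 ≤ aOn G S := by
  obtain ⟨x, hx⟩ := h
  simpa using card_le_aOn (G := G) (I := {x}) (by simpa using hx) (by simp)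

theorem aOn_empty : aOn G (∅ : Finset V) = 0 := by
  obtain ⟨I, hIS, hI, -⟩ := exists_aOn G (∅ : Finset V)
  rw [← hI, subset_empty.1 hIS, card_empty]

theorem aOn_singleton (v : V) : aOn G {v} = 1 := by
  obtain ⟨I, hIS, hI, -⟩ := exists_aOn G {v}
  have h := card_le_card hIS
  have := aOn_pos (G := G) (singleton_nonempty v)
  simp at h
  omega

/-- An independent set may be extended by a vertex without neighbours in it. -/
theorem indep_insert [DecidableEq V] {I : Finset V} {x : V}
    (hI : ∀ a ∈ I, ∀ b ∈ I, ¬ G.Adj a b) (hx : ∀ a ∈ I, ¬ G.Adj x a) :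
    ∀ a ∈ insert x I, ∀ b ∈ insert x I, ¬ G.Adj a b := by
  intro a ha b hb
  rcases mem_insert.1 ha with rfl | ha' <;> rcases mem_insert.1 hb with rfl | hb'
  · exact G.irrefl
  · exact hx b hb'
  · exact fun h => hx a ha' h.symm
  · exact hI a ha' b hb'

theorem aOn_union_le [DecidableEq V] {S T : Finset V} (hd : Disjoint S T)
    (hST : ∀ x ∈ S, ∀ y ∈ T, ¬ G.Adj x y) : aOn G S + aOn G T ≤ aOn G (S ∪ T) := by
  obtain ⟨I, hIS, hI, hind⟩ := exists_aOn G S
  obtain ⟨J, hJT, hJ, hjnd⟩ := exists_aOn G T
  rw [← hI, ← hJ, ← card_union_of_disjoint (hd.mono hIS hJT)]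
  refine card_le_aOn (union_subset_union hIS hJT) fun a ha b hb => ?_
  rcases mem_union.1 ha with ha | ha <;> rcases mem_union.1 hb with hb | hb
  · exact hind a ha b hb
  · exact hST a (hIS ha) b (hJT hb)
  · exact fun h => hST b (hIS hb) a (hJT ha) h.symm
  · exact hjnd a ha b hb

/-- No part of `S` has more than `q` times its independence number many vertices. -/
def NoDense (G : SimpleGraph V) (S : Finset V) (q : ℕ) : Prop :=
  ∀ T ⊆ S, #T ≤ q * aOn G T

theorem NoDense.mono {S T : Finset V} {q : ℕ} (h : NoDense G T q) (hST : S ⊆ T) : NoDense G S q :=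
  fun R hR => h R (hR.trans hST)

/-- Removing a closed neighbourhood lowers the independence number. -/
theorem aOn_sdiff_nbr_lt [DecidableEq V] [DecidableRel G.Adj] {S : Finset V} {x : V} (hx : x ∈ S) :
    aOn G (S \ insert x (S.filter (G.Adj x))) + 1 ≤ aOn G S := by
  set R := S \ insert x (S.filter (G.Adj x)) with hR
  have h := aOn_union_le (G := G) (S := {x}) (T := R)
    (by simp [hR]) fun a ha b hb hab => by
      rw [mem_singleton.1 ha] at hab
      simp [hR] at hb
      exact hb.2.2 hb.1 hab
  rw [aOn_singleton] at h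
  have hsub : {x} ∪ R ⊆ S := union_subset (singleton_subset_iff.2 hx) sdiff_subset
  have := aOn_mono (G := G) hsub
  omega

theorem card_sdiff_nbr [DecidableEq V] [DecidableRel G.Adj] {S : Finset V} {x : V} (hx : x ∈ S) :
    #(S \ insert x (S.filter (G.Adj x))) + (#(S.filter (G.Adj x)) + 1) = #S := by
  have hxN : x ∉ S.filter (G.Adj x) := fun h => G.irrefl (mem_filter.1 h).2
  rw [← card_insert_of_notMem hxN]
  exact card_sdiff_add_card_eq_card (insert_subset hx (filter_subset _ _))

/-- In an exact set every vertex has degree at least `q - 1`. -/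
theorem exact_degree [DecidableEq V] [DecidableRel G.Adj] {S : Finset V} {q : ℕ}
    (h : NoDense G S q) (hS : #S = q * aOn G S) :
    ∀ x ∈ S, q ≤ #(S.filter (G.Adj x)) + 1 := by
  intro x hx
  have h1 := h _ (sdiff_subset (s := S) (t := insert x (S.filter (G.Adj x))))
  have h2 := card_sdiff_nbr (G := G) hx
  have h3 := Nat.mul_le_mul_left q (aOn_sdiff_nbr_lt (G := G) hx)
  rw [Nat.mul_add, Nat.mul_one] at h3
  omega

/-- A connected graph with independence number at most two has a spanning path. -/
theorem exists_spanning_path [DecidableEq V] {H : Finset V} (hH : H.Nonempty)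
    (hconn : ∀ x ∈ H, ∀ y ∈ H, Relation.ReflTransGen (StepIn G H ∅) x y)
    (ha : aOn G H ≤ 2) : ∃ l, PathIn G H l ∧ l.length = #H := by
  classical
  obtain ⟨l, hl, hne, hmax⟩ := Dirac.exists_longest (G := G) hH
  refine ⟨l, hl, ?_⟩
  by_contra hlen
  have hsub : l.toFinset ⊆ H := fun x hx => hl.2.1 x (List.mem_toFinset.1 hx)
  obtain ⟨r, hr, hrl⟩ : ∃ r ∈ H, r ∉ l := by
    by_contra hcon
    push Not at hcon
    have h1 : #H ≤ #l.toFinset := card_le_card fun x hx => List.mem_toFinset.2 (hcon x hx)
    have h2 := card_le_card hsub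
    rw [List.toFinset_card_of_nodup hl.1] at h1 h2
    omega
  have hh : ¬ G.Adj r (l.head hne) := fun h => by
    have := hmax _ (hl.cons hr hrl fun _ => h)
    simp at this
  have he : ¬ G.Adj r (l.getLast hne) := fun h => by
    have := hmax _ (hl.reverse.cons hr (by simpa using hrl)
      fun _ => by rw [List.head_reverse]; exact h)
    simp at this
  by_cases hhe : l.head hne = l.getLast hne
  · obtain ⟨a, rfl⟩ : ∃ a, l = [a] := by
      rcases l with _ | ⟨a, _ | ⟨b, t⟩⟩
      · exact absurd rfl hne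
      · exact ⟨a, rfl⟩
      · have hmem : a ∈ (b :: t) := by
          simp only [List.head_cons, List.getLast_cons_cons] at hhe
          exact hhe ▸ List.getLast_mem _
        exact absurd hmem (List.nodup_cons.1 hl.1).1
    -- the first step out of `a`
    have ha' := hl.2.1 a (by simp)
    rcases (hconn a ha' r hr).cases_head with h | ⟨z, hz, -⟩
    · exact hrl (by simp [h])
    · have := hmax [z, a] (hl.cons hz.2.2.1 (by simpa using hz.1.ne') fun _ => by
        simpa using hz.1.symm)
      simp at this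
  · have hclose : G.Adj (l.getLast hne) (l.head hne) := by
      by_contra hcl
      have hr1 : r ≠ l.head hne := fun h => hrl (h ▸ List.head_mem hne)
      have hr2 : r ≠ l.getLast hne := fun h => hrl (h ▸ List.getLast_mem hne)
      have := card_le_aOn (G := G) (S := H) (I := {r, l.head hne, l.getLast hne})
        (by simp [insert_subset_iff, hr, hl.2.1 _ (List.head_mem hne),
          hl.2.1 _ (List.getLast_mem hne)])
        (indep_insert (indep_insert (by simp) (by simpa using fun h => hcl h.symm))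
          (by simp [hh, he]))
      rw [card_eq_three.2 ⟨_, _, _, hr1, hr2, hhe, rfl⟩] at this
      omega
    exact hlen (Dirac.covers_of_cycle hconn hmax ⟨hl, hne, hclose⟩ rfl)

/-- The component of `x` inside `S`. -/
noncomputable def compIn (G : SimpleGraph V) (S : Finset V) (x : V) : Finset V :=
  open Classical in S.filter fun z => Relation.ReflTransGen (StepIn G S ∅) x z

theorem compIn_subset {S : Finset V} {x : V} : compIn G S x ⊆ S := by
  classical
  exact filter_subset _ _

theorem mem_compIn_self {S : Finset V} {x : V} (hx : x ∈ S) : x ∈ compIn G S x := by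
  classical
  exact mem_filter.2 ⟨hx, .refl⟩

theorem compIn_closed {S : Finset V} {x a b : V} (ha : a ∈ compIn G S x) (hb : b ∈ S)
    (hab : G.Adj a b) : b ∈ compIn G S x := by
  classical
  rw [compIn, mem_filter] at ha ⊢
  exact ⟨hb, ha.2.tail ⟨hab, ha.1, hb, by simp, by simp⟩⟩

theorem compIn_connected [DecidableEq V] {S : Finset V} {x : V} :
    ∀ a ∈ compIn G S x, ∀ b ∈ compIn G S x,
      Relation.ReflTransGen (StepIn G (compIn G S x) ∅) a b := by
  classical
  have key : ∀ z, Relation.ReflTransGen (StepIn G S ∅) x z →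
      Relation.ReflTransGen (StepIn G (compIn G S x) ∅) x z := by
    intro z hz
    induction hz with
    | refl => exact .refl
    | @tail b d hb hbd ih =>
      exact ih.tail ⟨hbd.1, mem_filter.2 ⟨hbd.2.1, hb⟩, mem_filter.2 ⟨hbd.2.2.1, hb.tail hbd⟩,
        by simp, by simp⟩
  intro a ha b hb
  rw [compIn, mem_filter] at ha hb
  exact (Dirac.reach_symm (key a ha.2)).trans (key b hb.2)

/-- Components of an exact set are exact. -/
theorem compIn_exact [DecidableEq V] {S : Finset V} {q : ℕ} (h : NoDense G S q)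
    (hS : #S = q * aOn G S) (x : V) : #(compIn G S x) = q * aOn G (compIn G S x) := by
  set C := compIn G S x with hC
  have h1 := h _ (compIn_subset (G := G) (S := S) (x := x))
  have h2 := h _ (sdiff_subset (s := S) (t := C))
  have h3 := aOn_union_le (G := G) (disjoint_sdiff (s := C) (t := S)) fun a ha b hb hab =>
    (mem_sdiff.1 hb).2 (compIn_closed ha (mem_sdiff.1 hb).1 hab)
  rw [union_sdiff_of_subset compIn_subset] at h3
  have h4 := card_sdiff_add_card_eq_card (compIn_subset (G := G) (S := S) (x := x))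
  have h5 := Nat.mul_le_mul_left q h3
  rw [Nat.mul_add] at h5
  rw [← hC] at h1 h4
  omega

/-- A set with independence number one is a clique. -/
theorem clique_of_aOn_le_one [DecidableEq V] {S : Finset V} (h : aOn G S ≤ 1) :
    ∀ a ∈ S, ∀ b ∈ S, a ≠ b → G.Adj a b := by
  intro a ha b hb hab
  by_contra hn
  have := card_le_aOn (G := G) (S := S) (I := {a, b}) (by simp [insert_subset_iff, ha, hb])
    (indep_insert (by simp) (by simpa using hn))
  rw [card_pair hab] at this
  omega

/-- A clique has a spanning path ending at a prescribed vertex. -/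
theorem clique_path_to [DecidableEq V] {S : Finset V}
    (hS : ∀ a ∈ S, ∀ b ∈ S, a ≠ b → G.Adj a b) {u : V} (hu : u ∈ S) :
    ∃ l, PathIn G S l ∧ l.length = #S ∧ ∃ hne : l ≠ [], l.getLast hne = u := by
  refine ⟨(S.erase u).toList ++ [u], ⟨?_, ?_, ?_⟩, ?_, by simp, by simp⟩
  · exact List.nodup_append'.2 ⟨nodup_toList _, List.nodup_singleton _, by simp⟩
  · intro z hz
    rcases List.mem_append.1 hz with hz | hz
    · exact mem_of_mem_erase (mem_toList.1 hz)
    · rwa [List.mem_singleton.1 hz]
  · have hnd : ((S.erase u).toList ++ [u]).Nodup :=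
      List.nodup_append'.2 ⟨nodup_toList _, List.nodup_singleton _, by simp⟩
    have hmem : ∀ z ∈ (S.erase u).toList ++ [u], z ∈ S := fun z hz => by
      rcases List.mem_append.1 hz with hz | hz
      · exact mem_of_mem_erase (mem_toList.1 hz)
      · rwa [List.mem_singleton.1 hz]
    exact List.isChain_iff_getElem.2 fun i hi => hS _ (hmem _ (List.getElem_mem _)) _
      (hmem _ (List.getElem_mem _)) fun h => by
        have := (List.Nodup.getElem_inj_iff hnd).1 h
        omega
  · simp [card_erase_of_mem hu]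
    have := card_pos.2 ⟨u, hu⟩
    omega

/-- A connected exact set that is not a clique has a path on `2q` vertices. -/
theorem exact_path [DecidableEq V] [DecidableRel G.Adj] {q : ℕ} :
    ∀ (S : Finset V), (∀ x ∈ S, ∀ y ∈ S, Relation.ReflTransGen (StepIn G S ∅) x y) →
      NoDense G S q → #S = q * aOn G S → 2 ≤ aOn G S → ∃ l, PathIn G S l ∧ 2 * q ≤ l.length := by
  intro S
  induction S using Finset.strongInduction with
  | _ S ih =>
  intro hconn hcol hS hα
  rcases Nat.eq_zero_or_pos q with hq | hq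
  · exact ⟨[], ⟨by simp, by simp, by simp⟩, by simp [hq]⟩
  have h2q : 2 * q ≤ #S := by rw [hS, Nat.mul_comm 2 q]; exact Nat.mul_le_mul_left q hα
  have hne : S.Nonempty := card_pos.1 (by omega)
  by_cases hd : ∀ x ∈ S, q ≤ #(S.filter (G.Adj x))
  · obtain ⟨l, hl, hlen⟩ := Dirac.exists_path hne hconn hd
    exact ⟨l, hl, by omega⟩
  push Not at hd
  obtain ⟨x, hx, hxd⟩ := hd
  rcases hα.eq_or_lt with hα2 | hα3
  · obtain ⟨l, hl, hlen⟩ := exists_spanning_path hne hconn hα2.ge
    exact ⟨l, hl, by omega⟩
  set N := S.filter (G.Adj x) with hN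
  set R := S \ insert x N with hR
  have hxN : x ∉ N := fun h => G.irrefl (mem_filter.1 h).2
  have hxR : x ∉ R := by simp [hR]
  have hRS : R ⊆ S := sdiff_subset
  have hRcard : #R + (#N + 1) = #S := by
    rw [← card_insert_of_notMem hxN]
    exact card_sdiff_add_card_eq_card (insert_subset hx (filter_subset _ _))
  have hRα : aOn G R + 1 ≤ aOn G S := aOn_sdiff_nbr_lt hx
  have hdeg := exact_degree hcol hS x hx
  have hRle := hcol R hRS
  have hRex : #R = q * aOn G R := by
    have := Nat.mul_le_mul_left q hRα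
    rw [Nat.mul_add, Nat.mul_one] at this
    omega
  by_cases hbig : ∃ y ∈ R, 2 ≤ aOn G (compIn G R y)
  · obtain ⟨y, -, hy2⟩ := hbig
    have hCS : compIn G R y ⊂ S := by
      refine Finset.ssubset_iff_subset_ne.2 ⟨(compIn_subset).trans hRS, fun h => hxR ?_⟩
      exact compIn_subset (G := G) (x := y) (h.symm ▸ hx)
    obtain ⟨l, hl, hlen⟩ := ih _ hCS compIn_connected
      (hcol.mono (compIn_subset.trans hRS)) (compIn_exact (hcol.mono hRS) hRex y) hy2
    exact ⟨l, ⟨hl.1, fun z hz => hRS (compIn_subset (hl.2.1 z hz)), hl.2.2⟩, hlen⟩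
  push Not at hbig
  have hcomp : ∀ y ∈ R, #(compIn G R y) = q ∧
      ∀ a ∈ compIn G R y, ∀ b ∈ compIn G R y, a ≠ b → G.Adj a b := by
    intro y hy
    have h1 := aOn_pos (G := G) (S := compIn G R y) ⟨y, mem_compIn_self hy⟩
    have h2 := hbig y hy
    have h3 := compIn_exact (hcol.mono hRS) hRex y
    rw [show aOn G (compIn G R y) = 1 by omega, Nat.mul_one] at h3
    exact ⟨h3, clique_of_aOn_le_one (by omega)⟩
  -- every component has a vertex with a neighbour in `N`
  have hexit : ∀ y ∈ R, ∃ u ∈ compIn G R y, ∃ w ∈ N, G.Adj u w := by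
    intro y hy
    have key : ∀ z, Relation.ReflTransGen (StepIn G S ∅) y z → z ∉ compIn G R y →
        ∃ u ∈ compIn G R y, ∃ w ∈ S, w ∉ compIn G R y ∧ G.Adj u w := by
      intro z hz
      induction hz with
      | refl => intro h; exact absurd (mem_compIn_self hy) h
      | @tail b d _ hbd ihz =>
        intro hd
        by_cases hb : b ∈ compIn G R y
        · exact ⟨b, hb, d, hbd.2.2.1, hd, hbd.1⟩
        · exact ihz hb
    obtain ⟨u, hu, w, hw, hwC, huw⟩ :=
      key x (hconn y (hRS hy) x hx) fun h => hxR (compIn_subset h)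
    refine ⟨u, hu, w, ?_, huw⟩
    by_contra hwN
    refine hwC (compIn_closed hu ?_ huw)
    refine mem_sdiff.2 ⟨hw, fun h => ?_⟩
    rcases mem_insert.1 h with rfl | h'
    · have huR := compIn_subset hu
      simp [hR, hN] at huR
      exact huR.2.2 huR.1 huw.symm
    · exact hwN h'
  obtain ⟨y, hy⟩ : R.Nonempty := card_pos.1 (by
    have := Nat.mul_le_mul_left q (show 3 ≤ aOn G S by omega)
    omega)
  obtain ⟨y', hy', hyy'⟩ : ∃ y' ∈ R, y' ∉ compIn G R y := by
    by_contra hcon
    push Not at hcon
    have h1 : #R ≤ #(compIn G R y) := card_le_card hcon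
    have := (hcomp y hy).1
    have := Nat.mul_le_mul_left q (show 3 ≤ aOn G S by omega)
    omega
  have hdis : ∀ z ∈ compIn G R y, z ∉ compIn G R y' := by
    intro z hz hz'
    classical
    rw [compIn, mem_filter] at hz hz'
    exact hyy' (by rw [compIn, mem_filter]; exact ⟨hy', hz.2.trans (Dirac.reach_symm hz'.2)⟩)
  obtain ⟨u, hu, w, hw, huw⟩ := hexit y hy
  obtain ⟨u', hu', w', hw', huw'⟩ := hexit y' hy'
  obtain ⟨l, hl, hllen, hlne, hlast⟩ := clique_path_to (hcomp y hy).2 hu
  obtain ⟨l', hl', hl'len, hl'ne, hlast'⟩ := clique_path_to (hcomp y' hy').2 hu'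
  have hwS := (mem_filter.1 hw).1
  have hw'S := (mem_filter.1 hw').1
  have hwR : ∀ z ∈ N, z ∉ R := fun z hz h => by
    rw [hR, mem_sdiff, mem_insert] at h
    exact h.2 (Or.inr hz)
  have hlS : PathIn G S l := ⟨hl.1, fun z hz => hRS (compIn_subset (hl.2.1 z hz)), hl.2.2⟩
  have hl'S : PathIn G S l' := ⟨hl'.1, fun z hz => hRS (compIn_subset (hl'.2.1 z hz)), hl'.2.2⟩
  obtain ⟨mid, hmid, hmne, hmh, hml, hmR⟩ : ∃ mid, PathIn G S mid ∧ ∃ h : mid ≠ [],
      mid.head h = w ∧ mid.getLast h = w' ∧ ∀ z ∈ mid, z ∉ R := by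
    by_cases hww : w = w'
    · exact ⟨[w], ⟨by simp, by simpa using hwS, by simp⟩, by simp, rfl, by simp [hww],
        by simpa using hwR w hw⟩
    · have hwx : G.Adj x w := (mem_filter.1 hw).2
      have hw'x : G.Adj x w' := (mem_filter.1 hw').2
      refine ⟨[w, x, w'], ⟨?_, ?_, ?_⟩, by simp, rfl, rfl, ?_⟩
      · simp [hwx.ne', hww, hw'x.ne]
      · simp [hwS, hw'S, hx]
      · simp [List.isChain_cons_cons, hwx.symm, hw'x]
      · simp [hwR w hw, hwR w' hw', hxR]
  refine ⟨(l ++ mid) ++ l'.reverse, (hlS.append hmid ?_ ?_).append hl'S.reverse ?_ ?_, ?_⟩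
  · exact fun z hz hz' => hmR z hz' (compIn_subset (hl.2.1 z hz))
  · intro _ _; rw [hlast, hmh]; exact huw
  · intro z hz hz'
    rw [List.mem_reverse] at hz'
    rcases List.mem_append.1 hz with h | h
    · exact hdis z (hl.2.1 z h) (hl'.2.1 z hz')
    · exact hmR z h (compIn_subset (hl'.2.1 z hz'))
  · intro _ _
    rw [List.getLast_append_of_ne_nil _ hmne, List.head_reverse, hml, hlast']
    exact huw'.symm
  · have := (hcomp y hy).1
    have := (hcomp y' hy').1
    simp only [List.length_append, List.length_reverse]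
    omega

end Vale.Agent.P048.Full
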