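import Vale.Agent.P048.Full.Growth
import Vale.Agent.P048.Close.Basic

/-!
Layers from a root set, the expansion of independent sets, and the layer counting used in the
full range of P048.
-/

namespace Vale.Agent.P048.Full

open Finset
open Close (HasCycle)

variable {V : Type*} [Fintype V] [DecidableEq V] {G : SimpleGraph V}

/-- The standing hypotheses of the induction on `n`. -/
structure Ctx (G : SimpleGraph V) (m n : ℕ) : Prop where
  noC : ¬ HasCycle G m
  alpha : ∀ I : Finset V, (∀ x ∈ I, ∀ y ∈ I, ¬ G.Adj x y) → #I < n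
  card : (m - 1) * (n - 1) < Fintype.card V
  small : ∀ (S : Finset V) (j : ℕ), j + 1 < n →
    (∀ I ⊆ S, (∀ x ∈ I, ∀ y ∈ I, ¬ G.Adj x y) → #I ≤ j) → #S ≤ (m - 1) * j

/-- A vertex set containing a nonempty independent set and all its neighbours is large. -/
theorem Ctx.expand {m n : ℕ} (h : Ctx G m n) {X B : Finset V} (hX : X.Nonempty)
    (hind : ∀ x ∈ X, ∀ y ∈ X, ¬ G.Adj x y) (hXB : X ⊆ B)
    (hB : ∀ x ∈ X, ∀ y, G.Adj x y → y ∈ B) : (m - 1) * #X + 1 ≤ #B := by
  have hXn := h.alpha X hind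
  have hpos := hX.card_pos
  have hS : #(univ \ B) ≤ (m - 1) * (n - 1 - #X) := by
    refine h.small _ _ (by omega) fun I hI hIind => ?_
    have hdisj : Disjoint I X := disjoint_left.2 fun x hx hx' =>
      (mem_sdiff.1 (hI hx)).2 (hXB hx')
    have := h.alpha (I ∪ X) (by
      intro x hx y hy hxy
      rcases mem_union.1 hx with hx | hx <;> rcases mem_union.1 hy with hy | hy
      · exact hIind x hx y hy hxy
      · exact (mem_sdiff.1 (hI hx)).2 (hB y hy x hxy.symm)
      · exact (mem_sdiff.1 (hI hy)).2 (hB x hx y hxy)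
      · exact hind x hx y hy hxy)
    rw [card_union_of_disjoint hdisj] at this
    omega
  have h1 : Fintype.card V ≤ #B + #(univ \ B) := by
    rw [card_univ_sdiff]
    have := card_le_univ B
    omega
  have h2 : (m - 1) * (n - 1) = (m - 1) * #X + (m - 1) * (n - 1 - #X) := by
    rw [← Nat.mul_add]; congr 1; omega
  have := h.card
  omega

/-- An independent set of `n - 1` vertices dominates everything. -/
theorem Ctx.dominates {m n : ℕ} (h : Ctx G m n) {X : Finset V} (hX : n ≤ #X + 1)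
    (hind : ∀ x ∈ X, ∀ y ∈ X, ¬ G.Adj x y) (u : V) : u ∈ X ∨ ∃ x ∈ X, G.Adj x u := by
  by_contra hcon
  push Not at hcon
  have := h.alpha (insert u X) (by
    intro a ha b hb
    rcases mem_insert.1 ha with rfl | ha' <;> rcases mem_insert.1 hb with rfl | hb'
    · exact G.irrefl
    · exact fun e => hcon.2 b hb' e.symm
    · exact hcon.2 a ha'
    · exact hind a ha' b hb')
  rw [card_insert_of_notMem hcon.1] at this
  omega

/-- Every vertex has at least `m - 1` neighbours. -/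
theorem Ctx.degree [DecidableRel G.Adj] {m n : ℕ} (h : Ctx G m n) (v : V) :
    m - 1 ≤ G.degree v := by
  have := h.expand (X := {v}) (B := insert v (G.neighborFinset v)) (singleton_nonempty v)
    (by simp) (by simp) (fun x hx y hy => by rw [mem_singleton.1 hx] at hy; simp [hy])
  rw [card_singleton, mul_one, card_insert_of_notMem (by simp),
    SimpleGraph.card_neighborFinset_eq_degree] at this
  omega

/-- The vertices within distance `t` of `R`. -/
noncomputable def ball (G : SimpleGraph V) (R : Finset V) : ℕ → Finset V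
  | 0 => R
  | t + 1 => by
    classical exact univ.filter fun u => u ∈ ball G R t ∨ ∃ w ∈ ball G R t, G.Adj w u

/-- The vertices at distance `t` from `R`. -/
noncomputable def rlayer (G : SimpleGraph V) (R : Finset V) : ℕ → Finset V
  | 0 => R
  | t + 1 => ball G R (t + 1) \ ball G R t

variable {R : Finset V}

theorem mem_ball_succ {t : ℕ} {u : V} :
    u ∈ ball G R (t + 1) ↔ u ∈ ball G R t ∨ ∃ w ∈ ball G R t, G.Adj w u := by
  rw [ball]; simp

theorem ball_mono {s t : ℕ} (h : s ≤ t) : ball G R s ⊆ ball G R t := by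
  induction h with
  | refl => exact subset_rfl
  | step _ ih => exact fun u hu => mem_ball_succ.2 (Or.inl (ih hu))

theorem rlayer_subset_ball : ∀ t, rlayer G R t ⊆ ball G R t
  | 0 => subset_rfl
  | _ + 1 => sdiff_subset

theorem not_mem_ball_of_lt {s t : ℕ} (h : t < s) {u : V} (hu : u ∈ rlayer G R s) :
    u ∉ ball G R t := by
  obtain ⟨s, rfl⟩ : ∃ s', s = s' + 1 := ⟨s - 1, by omega⟩
  exact fun hb => (mem_sdiff.1 hu).2 (ball_mono (by omega) hb)

theorem rlayer_level {s t : ℕ} {u : V} (hs : u ∈ rlayer G R s) (ht : u ∈ rlayer G R t) :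
    s = t := by
  rcases lt_trichotomy s t with h | h | h
  · exact absurd (rlayer_subset_ball s hs) (not_mem_ball_of_lt h ht)
  · exact h
  · exact absurd (rlayer_subset_ball t ht) (not_mem_ball_of_lt h hs)

theorem exists_rlayer {t : ℕ} {u : V} (hu : u ∈ ball G R t) :
    ∃ s ≤ t, u ∈ rlayer G R s := by
  induction t with
  | zero => exact ⟨0, le_rfl, hu⟩
  | succ t ih =>
    by_cases h : u ∈ ball G R t
    · obtain ⟨s, hs, hs'⟩ := ih h
      exact ⟨s, by omega, hs'⟩
    · exact ⟨t + 1, le_rfl, mem_sdiff.2 ⟨hu, h⟩⟩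

theorem adj_mem_ball {s : ℕ} {u w : V} (hu : u ∈ ball G R s) (h : G.Adj u w) :
    w ∈ ball G R (s + 1) := mem_ball_succ.2 (Or.inr ⟨u, hu, h⟩)

theorem adj_level {s t : ℕ} {u w : V} (hu : u ∈ rlayer G R s) (hw : w ∈ rlayer G R t)
    (h : G.Adj u w) : t ≤ s + 1 ∧ s ≤ t + 1 := by
  constructor
  · by_contra hc
    exact not_mem_ball_of_lt (show s + 1 < t by omega) hw (adj_mem_ball (rlayer_subset_ball s hu) h)
  · by_contra hc
    exact not_mem_ball_of_lt (show t + 1 < s by omega) hu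
      (adj_mem_ball (rlayer_subset_ball t hw) h.symm)

theorem exists_rparent {s : ℕ} {u : V} (hu : u ∈ rlayer G R (s + 1)) :
    ∃ w ∈ rlayer G R s, G.Adj w u := by
  obtain ⟨h1, h2⟩ := mem_sdiff.1 hu
  obtain ⟨w, hw, hwu⟩ := (mem_ball_succ.1 h1).resolve_left h2
  obtain ⟨t, ht, htw⟩ := exists_rlayer hw
  rcases ht.eq_or_lt with rfl | hlt
  · exact ⟨w, htw, hwu⟩
  · exact absurd (adj_mem_ball (ball_mono (show t ≤ t from le_rfl) (rlayer_subset_ball t htw)) hwu)
      fun hc => h2 (ball_mono (show t + 1 ≤ s by omega) hc)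

/-- A largest independent set of every layer, and their unions by parity. -/
structure LayerSets (G : SimpleGraph V) (R : Finset V) where
  sel : ℕ → Finset V
  sub : ∀ i, sel i ⊆ rlayer G R i
  ind : ∀ i, ∀ x ∈ sel i, ∀ y ∈ sel i, ¬ G.Adj x y
  max : ∀ i, ∀ J ⊆ rlayer G R i, (∀ x ∈ J, ∀ y ∈ J, ¬ G.Adj x y) → #J ≤ #(sel i)

theorem exists_layerSets (G : SimpleGraph V) (R : Finset V) : Nonempty (LayerSets G R) := by
  classical
  have hex : ∀ i, ∃ I ⊆ rlayer G R i, (∀ x ∈ I, ∀ y ∈ I, ¬ G.Adj x y) ∧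
      ∀ J ⊆ rlayer G R i, (∀ x ∈ J, ∀ y ∈ J, ¬ G.Adj x y) → #J ≤ #I := by
    intro i
    obtain ⟨I, hI, hmax⟩ := exists_max_image
      ((rlayer G R i).powerset.filter fun I => ∀ x ∈ I, ∀ y ∈ I, ¬ G.Adj x y) (fun I => #I)
      ⟨∅, by simp⟩
    rw [mem_filter, mem_powerset] at hI
    exact ⟨I, hI.1, hI.2, fun J hJ hJ' => hmax J (mem_filter.2 ⟨mem_powerset.2 hJ, hJ'⟩)⟩
  choose I h1 h2 h3 using hex
  exact ⟨⟨I, h1, h2, h3⟩⟩

namespace LayerSets

variable (M : LayerSets G R)

/-- The union over the layers `s ≤ t` with `s ≡ t (mod 2)`. -/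
def par (t : ℕ) : Finset V :=
  ((range (t + 1)).filter fun s => s % 2 = t % 2).biUnion M.sel

theorem mem_par {t : ℕ} {x : V} (hx : x ∈ M.par t) :
    ∃ s ≤ t, s % 2 = t % 2 ∧ x ∈ M.sel s := by
  simp only [par, mem_biUnion, mem_filter, mem_range] at hx
  obtain ⟨s, ⟨hs, hp⟩, hx⟩ := hx
  exact ⟨s, by omega, hp, hx⟩

theorem par_ind (t : ℕ) : ∀ x ∈ M.par t, ∀ y ∈ M.par t, ¬ G.Adj x y := by
  intro x hx y hy h
  obtain ⟨s, hs, hp, hxs⟩ := M.mem_par hx
  obtain ⟨s', hs', hp', hys⟩ := M.mem_par hy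
  obtain ⟨h1, h2⟩ := adj_level (M.sub s hxs) (M.sub s' hys) h
  obtain rfl : s = s' := by omega
  exact M.ind s x hxs y hys h

theorem card_par (t : ℕ) :
    #(M.par t) = ∑ s ∈ (range (t + 1)).filter (fun s => s % 2 = t % 2), #(M.sel s) :=
  card_biUnion fun _ _ _ _ hab => disjoint_left.2 fun _ hxa hxb =>
    hab (rlayer_level (M.sub _ hxa) (M.sub _ hxb))

theorem card_par_add (t : ℕ) :
    #(M.par t) + #(M.par (t + 1)) = #(M.sel 0) + ∑ s ∈ Icc 1 (t + 1), #(M.sel s) := by
  have hins : range (t + 2) = insert 0 (Icc 1 (t + 1)) := by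
    ext s
    simp only [mem_range, mem_insert, mem_Icc]
    omega
  rw [← sum_insert (f := fun s => #(M.sel s)) (by simp : (0 : ℕ) ∉ Icc 1 (t + 1)), ← hins,
    M.card_par, M.card_par, ← sum_filter_add_sum_filter_not (range (t + 2)) (fun s => s % 2 = t % 2)]
  congr 1
  · exact sum_congr (by ext s; simp only [mem_filter, mem_range]; omega) fun _ _ => rfl
  · exact sum_congr (by ext s; simp only [mem_filter, mem_range]; omega) fun _ _ => rfl

theorem card_par_succ_succ (t : ℕ) :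
    #(M.par (t + 2)) = #(M.par t) + #(M.sel (t + 2)) := by
  have h1 := M.card_par_add t
  have h2 := M.card_par_add (t + 1)
  rw [sum_Icc_succ_top (by omega)] at h2
  rw [show t + 1 + 1 = t + 2 from rfl] at h2
  omega

theorem sel_zero (hne : R.Nonempty) (hR : ∀ x ∈ R, ∀ y ∈ R, x ≠ y → G.Adj x y) :
    #(M.sel 0) = 1 := by
  obtain ⟨r, hr⟩ := hne
  refine le_antisymm (card_le_one.2 fun a ha b hb => ?_) ?_
  · by_contra hab
    exact M.ind 0 a ha b hb (hR a (M.sub 0 ha) b (M.sub 0 hb) hab)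
  · simpa using M.max 0 {r} (by simpa [rlayer] using hr) (by simp)

/-- An independent set inside a layer extends the parity class two layers below it. -/
theorem par_add_lt {m n : ℕ} (h : Ctx G m n) {t : ℕ} {J : Finset V}
    (hJ : J ⊆ rlayer G R (t + 2)) (hind : ∀ x ∈ J, ∀ y ∈ J, ¬ G.Adj x y) :
    #(M.par t) + #J < n := by
  have h1 := M.max _ J hJ hind
  have h2 := h.alpha _ (M.par_ind (t + 2))
  rw [M.card_par_succ_succ] at h2
  omega

end LayerSets

/-- The layers `1..T` minus the exceptional set `E` are good. -/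
def GoodUpTo (G : SimpleGraph V) (R E : Finset V) (q T : ℕ) : Prop :=
  ∀ s, 1 ≤ s → s ≤ T → Good G (rlayer G R s \ E) q

/-- The size of a ball with good layers. -/
theorem card_ball_le (M : LayerSets G R) {E : Finset V} {q T : ℕ}
    (hgood : GoodUpTo G R E q T) :
    #(ball G R T) ≤ #R + #E + q * ∑ s ∈ Icc 1 T, #(M.sel s) := by
  have hcov : ball G R T ⊆ (R ∪ E) ∪ (Icc 1 T).biUnion (fun s => rlayer G R s \ E) := by
    intro u hu
    obtain ⟨s, hs, hus⟩ := exists_rlayer hu
    simp only [mem_union, mem_biUnion, mem_Icc, mem_sdiff]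
    by_cases hE : u ∈ E
    · exact Or.inl (Or.inr hE)
    rcases Nat.eq_zero_or_pos s with rfl | hpos
    · exact Or.inl (Or.inl hus)
    · exact Or.inr ⟨s, ⟨hpos, hs⟩, hus, hE⟩
  have h1 := (card_le_card hcov).trans (card_union_le _ _)
  have h2 := card_union_le R E
  have h3 := card_biUnion_le (s := Icc 1 T) (t := fun s => rlayer G R s \ E)
  have h4 : ∑ s ∈ Icc 1 T, #(rlayer G R s \ E) ≤ ∑ s ∈ Icc 1 T, q * #(M.sel s) :=
    sum_le_sum fun s hs => hgood s (mem_Icc.1 hs).1 (mem_Icc.1 hs).2 _ subset_rfl _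
      fun J hJ hJ' => M.max s J (hJ.trans sdiff_subset) hJ'
  rw [← mul_sum] at h4
  omega

/-- The growth inequality: with `A = #par t` and `A' = #par (t+1)`,
`(m-1) A + 1 + q ≤ #R + #E + q (A + A')`. -/
theorem growth {m n : ℕ} (h : Ctx G m n) (hne : R.Nonempty)
    (hR : ∀ x ∈ R, ∀ y ∈ R, x ≠ y → G.Adj x y) (M : LayerSets G R) {E : Finset V} {q t : ℕ}
    (hA : 1 ≤ #(M.par t)) (hgood : GoodUpTo G R E q (t + 1)) :
    (m - 1) * #(M.par t) + 1 + q ≤ #R + #E + q * (#(M.par t) + #(M.par (t + 1))) := by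
  have h1 := h.expand (card_pos.1 hA) (M.par_ind t) (B := ball G R (t + 1))
    (fun x hx => by
      obtain ⟨s, hs, -, hxs⟩ := M.mem_par hx
      exact ball_mono (show s ≤ t + 1 by omega) (rlayer_subset_ball s (M.sub s hxs)))
    (fun x hx y hxy => by
      obtain ⟨s, hs, -, hxs⟩ := M.mem_par hx
      exact ball_mono (show s + 1 ≤ t + 1 by omega)
        (adj_mem_ball (rlayer_subset_ball s (M.sub s hxs)) hxy))
  have h2 := card_ball_le M hgood
  rw [M.card_par_add, M.sel_zero hne hR, Nat.mul_add q 1]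
  omega

omit [Fintype V] in
/-- Two independent sets whose conflicts are covered by `Z` lose at most `#Z`. -/
theorem exists_union_indep {I I' Z : Finset V} (hI : ∀ x ∈ I, ∀ y ∈ I, ¬ G.Adj x y)
    (hI' : ∀ x ∈ I', ∀ y ∈ I', ¬ G.Adj x y)
    (hconf : ∀ w ∈ I, ∀ w' ∈ I', w = w' ∨ G.Adj w w' → w ∈ Z ∨ w' ∈ Z) :
    ∃ J ⊆ I ∪ I', (∀ x ∈ J, ∀ y ∈ J, ¬ G.Adj x y) ∧ #I + #I' ≤ #J + #Z := by
  refine ⟨(I ∪ I') \ (Z \ (I ∩ I')), sdiff_subset, ?_, ?_⟩
  · intro x hx y hy hxy
    simp only [mem_sdiff, mem_union, mem_inter, not_and_not_right] at hx hy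
    rcases hx.1 with hxI | hxI <;> rcases hy.1 with hyI | hyI
    · exact hI x hxI y hyI hxy
    · rcases hconf x hxI y hyI (Or.inr hxy) with hz | hz
      · exact hI' x (hx.2 hz).2 y hyI hxy
      · exact hI x hxI y (hy.2 hz).1 hxy
    · rcases hconf y hyI x hxI (Or.inr hxy.symm) with hz | hz
      · exact hI' x hxI y (hy.2 hz).2 hxy
      · exact hI x (hx.2 hz).1 y hyI hxy
    · exact hI' x hxI y hyI hxy
  · have h1 : I ∩ I' ⊆ Z := fun x hx => by
      obtain ⟨a, b⟩ := mem_inter.1 hx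
      simpa using hconf x a x b (Or.inl rfl)
    have h2 := card_sdiff_add_card_eq_card h1
    have h3 := card_union_add_card_inter I I'
    have h4 := card_le_card_sdiff_add_card (s := I ∪ I') (t := Z \ (I ∩ I'))
    omega

end Vale.Agent.P048.Full
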