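import Vale.Agent.P048.AssemblyUpper
import Vale.Agent.P048.Full.Root

/-!
Induction on `n`: if no context has a contradiction, the Ramsey upper bound holds for `n ≤ m`.
-/

namespace Vale.Agent.P048.Full

open Finset
open Assembly (HasC HasI Minimal)
open Close (HasCycle)

/-- The upper bound from the refutation of the standing hypotheses. -/
theorem upper_of_ctx {m : ℕ} (hm : 3 ≤ m)
    (second : ∀ (U : Type) [Fintype U] [DecidableEq U] (G : SimpleGraph U) [DecidableRel G.Adj]
      (n : ℕ), 3 ≤ n → n ≤ m → G.Connected → Ctx G m n → False) :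
    ∀ n : ℕ, n ≤ m → ∀ (V : Type) [Fintype V] [DecidableEq V] (G : SimpleGraph V)
      [DecidableRel G.Adj], (m - 1) * (n - 1) + 1 ≤ Fintype.card V →
      HasCycle G m ∨ ∃ s, G.IsNIndepSet n s := by
  intro n
  induction n using Nat.strong_induction_on with
  | _ n ih =>
  intro hnm V _ _ G _ hcard
  classical
  have hno : ∀ k, 3 ≤ k → k ≤ n → ∀ (U : Type) [Fintype U] [DecidableEq U] (H : SimpleGraph U)
      [DecidableRel H.Adj], ¬ Minimal H m k := by
    intro k hk3 hkn U _ _ H _ hH
    have hnoC : ¬ HasCycle H m := fun h => hH.noC (Assembly.hasC_of_hasCycle (by omega) h)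
    refine second U H k hk3 (by omega) hH.conn ⟨hnoC, hH.alpha, hH.card, ?_⟩
    intro S j hj hI
    by_contra hlt
    push Not at hlt
    rcases ih (j + 1) (by omega) (by omega) {x // x ∈ S} (H.induce (S : Set U))
      (by rw [Fintype.card_coe, Nat.add_sub_cancel]; omega) with h | ⟨s, hs⟩
    · exact hnoC (h.map ⟨Subtype.val, fun h => h⟩ Subtype.val_injective)
    · have := hI (s.map ⟨Subtype.val, Subtype.val_injective⟩)
        (fun x hx => by obtain ⟨y, -, rfl⟩ := mem_map.1 hx; exact y.2)
        (fun x hx y hy => by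
          obtain ⟨x', hx', rfl⟩ := mem_map.1 hx
          obtain ⟨y', hy', rfl⟩ := mem_map.1 hy
          intro hadj
          exact hs.1 hx' hy' (fun e => hadj.ne (congrArg Subtype.val e)) hadj)
      rw [card_map, hs.2] at this
      omega
  rcases Assembly.hasC_or_hasI_of_no_minimal hm n hno V G (by omega) with h | ⟨I, hI, hind⟩
  · exact Or.inl (Assembly.hasCycle_of_hasC h)
  · obtain ⟨J, hJI, hJ⟩ := exists_subset_card_eq hI
    exact Or.inr ⟨J, fun x hx y hy _ => hind x (hJI hx) y (hJI hy), hJ⟩

end Vale.Agent.P048.Full
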