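import Vale.Agent.P048.Full.Second
import Vale.Agent.P048.Full.CliqueNbr
import Vale.Agent.P048.Full.Cover
import Vale.Agent.P048.Full.Upper

/-!
P048: `R(C_m, K_n) ≤ (m-1)(n-1)+1` for all `n ≤ m`, `9 ≤ m`.
-/

namespace Vale.Agent.P048.Full

open Finset
open Close (HasCycle)

/-- The standing hypotheses of the induction are contradictory for `9 ≤ m`. -/
theorem refute {V : Type*} [Fintype V] [DecidableEq V] {G : SimpleGraph V} [DecidableRel G.Adj]
    {m n : ℕ} (hm : 9 ≤ m) (hn : 3 ≤ n) (hnm : n ≤ m) (h : Ctx G m n) : False :=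
  refute_of_hyps hm hn hnm h
    (fun D hD hk hlt U hU hUn => clique_nbr_indep (m := m) (fun v => h.degree v) h.noC hD hlt
      (by omega) (by omega) hU hUn)
    (fun D D' hD hD' hdis hk hk' hsum =>
      exists_link_cover hm h.noC hD hD' hdis (by omega) (by omega) hsum)

/-- The upper bound on the whole range `n ≤ m`, `9 ≤ m`. -/
theorem upper_of_nine {m : ℕ} (hm : 9 ≤ m) {n : ℕ} (hnm : n ≤ m) (V : Type) [Fintype V]
    [DecidableEq V] (G : SimpleGraph V) [DecidableRel G.Adj]
    (hcard : (m - 1) * (n - 1) + 1 ≤ Fintype.card V) :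
    HasCycle G m ∨ ∃ s, G.IsNIndepSet n s :=
  upper_of_ctx (by omega) (fun _ _ _ _ _ _ hn hnm' _ h => refute hm hn hnm' h) n hnm V G hcard

end Vale.Agent.P048.Full
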