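import Vale.Agent.P048.Full.Step

/-!
P048, full range, second half (sections 4 and 5 of `FULL.md`): given the clique neighbourhood
lemma and the cover of short links between two cliques, the standing hypotheses are contradictory
for `9 ≤ m`.
-/

namespace Vale.Agent.P048.Full

open Finset
open Dirac (StepIn PathIn CycleIn)
open Close (HasCycle Closed)

variable {V : Type*} [Fintype V] [DecidableEq V] {G : SimpleGraph V} {m n q : ℕ}

/-- The clique neighbourhood lemma. -/
def CliqueHyp (G : SimpleGraph V) (m q : ℕ) : Prop :=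
  ∀ D : Finset V, G.IsClique (D : Set V) → q + 1 ≤ #D → #D < m → NbrIndep G D

/-- One vertex on every short link between two cliques. -/
def CoverHyp (G : SimpleGraph V) (m q : ℕ) : Prop :=
  ∀ D D' : Finset V, G.IsClique (D : Set V) → G.IsClique (D' : Set V) → Disjoint D D' →
    q + 1 ≤ #D → q + 1 ≤ #D' → m ≤ #D + #D' →
      ∃ z, ∀ x M y, IsLink G D D' x M y → M.length ≤ 2 → z ∈ x :: (M ++ [y])

theorem clique_lt (h : Ctx G m n) (hm : 3 ≤ m) {D : Finset V} (hD : G.IsClique (D : Set V)) :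
    #D < m := by
  by_contra hc
  obtain ⟨S, hS, hSc⟩ := exists_subset_card_eq (s := D) (n := m) (by omega)
  exact h.not_hasC (Assembly.hasC_of_clique G hm S
    (fun x hx y hy hxy => hD (hS hx) (hS hy) hxy) hSc)

omit [DecidableEq V] in
theorem indep_lt (h : Ctx G m n) {S : Finset V} (hS : G.IsIndepSet (S : Set V)) : #S < n :=
  h.alpha S fun _ hx _ hy hxy => hS hx hy hxy.ne hxy

theorem rlayer_one {R : Finset V} {x w : V} (hx : x ∈ R) (hxw : G.Adj x w) (hw : w ∉ R) :
    w ∈ rlayer G R 1 := mem_sdiff.2 ⟨mem_ball_succ.2 (Or.inr ⟨x, hx, hxw⟩), hw⟩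

/-- The first parity class is at least as large as the root clique. -/
theorem card_par_one {D : Finset V} (M : LayerSets G D) (hN : NbrIndep G D) (hne : D.Nonempty) :
    #D ≤ #(M.par 1) := by
  obtain ⟨I, hI, hIc, hIn⟩ := hN D subset_rfl hne
  have h1 := M.max 1 I (fun w hw => by
    obtain ⟨hwD, x, hx, hxw⟩ := hIn w hw
    exact rlayer_one hx hxw hwD) fun x hx y hy hxy => hI hx hy hxy.ne hxy
  have h2 : M.par 1 = M.sel 1 := by
    unfold LayerSets.par
    rw [show ((range (1 + 1)).filter fun s => s % 2 = 1 % 2) = {1} by decide, singleton_biUnion]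
  rw [h2]
  omega

/-- A clique among the neighbours of a clique: a cycle, or one vertex is joined to all of it. -/
theorem complete_center (h : Ctx G m n) {D D' : Finset V} (hD : G.IsClique (D : Set V))
    (hD' : G.IsClique (D' : Set V)) (hdis : Disjoint D D') (hk : 2 ≤ #D) (hk' : 2 ≤ #D')
    (hm : 4 ≤ m) (hsum : m ≤ #D + #D') (hlab : ∀ y ∈ D', ∃ x ∈ D, G.Adj x y) :
    ∃ x ∈ D, (∀ y ∈ D', G.Adj x y) ∧ ∀ a ∈ D, ∀ y ∈ D', G.Adj a y → a = x := by
  classical
  have hclose : ∀ a ∈ D, ∀ y ∈ D', ∀ a' ∈ D, ∀ y' ∈ D', G.Adj a y → G.Adj a' y' → a ≠ a' →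
      y = y' := by
    intro a ha y hy a' ha' y' hy' e e' hne
    by_contra hyy
    exact h.noC (hasCycle_of_links hD hD' hdis hk hk' hsum (M₁ := []) (M₂ := [])
      ⟨ha, hy, by simp, by simp, by simp [e]⟩ ⟨ha', hy', by simp, by simp, by simp [e']⟩ hne hyy
      (by simp) (by simp; omega))
  obtain ⟨y₀, hy₀⟩ := card_pos.1 (show 0 < #D' by omega)
  obtain ⟨x₀, hx₀, e₀⟩ := hlab y₀ hy₀
  have honly : ∀ a ∈ D, ∀ y ∈ D', G.Adj a y → a = x₀ := by
    intro a ha y hy e
    by_contra hne
    have hyy := hclose a ha y hy x₀ hx₀ y₀ hy₀ e e₀ hne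
    subst hyy
    obtain ⟨y₂, hy₂, hne₂⟩ := exists_mem_ne (show 1 < #D' by omega) y
    obtain ⟨x₂, hx₂, e₂⟩ := hlab y₂ hy₂
    rcases em (x₂ = a) with h2 | h2
    · exact hne₂ (hclose x₂ hx₂ y₂ hy₂ x₀ hx₀ y hy e₂ e₀ (h2 ▸ hne))
    · exact hne₂ (hclose x₂ hx₂ y₂ hy₂ a ha y hy e₂ e h2)
  refine ⟨x₀, hx₀, fun y hy => ?_, honly⟩
  obtain ⟨x, hx, e⟩ := hlab y hy
  exact honly x hx y hy e ▸ e

/-- Two disjoint cliques, one of them inside a layer of the other. -/
theorem two_layer_cliques (h : Ctx G m n) (hm : 9 ≤ m) (hq : 1 ≤ q) (hW : CliqueHyp G m q)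
    {D D' : Finset V} {j : ℕ} (hD : G.IsClique (D : Set V)) (hD' : G.IsClique (D' : Set V))
    (hk : q + 1 ≤ #D) (hk' : q + 1 ≤ #D') (hsum : m ≤ #D + #D') (hj : 1 ≤ j)
    (hsub : D' ⊆ rlayer G D j) :
    #D + #D' ≤ n := by
  classical
  have hdis : Disjoint D D' := disjoint_right.2 fun y hy hyD => by
    have := rlayer_level (hsub hy) (show y ∈ rlayer G D 0 from hyD)
    omega
  have hW1 := hW D hD hk (clique_lt h (by omega) hD)
  have hW2 := hW D' hD' hk' (clique_lt h (by omega) hD')
  rcases hj.eq_or_lt with rfl | hj2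
  · obtain ⟨x, hx, hxc, hxo⟩ := complete_center h hD hD' hdis (by omega) (by omega) (by omega)
      hsum fun y hy => by
        obtain ⟨w, hw, hwy⟩ := exists_rparent (hsub hy)
        exact ⟨w, hw, hwy⟩
    have hins : G.IsClique ((insert x D' : Finset V) : Set V) := by
      rw [coe_insert]
      exact hD'.insert fun y hy _ => hxc y hy
    have hW3 := hW _ hins (by have := card_le_card (subset_insert x D'); omega)
      (clique_lt h (by omega) hins)
    rcases two_cliques_complete hm hD hD' hdis (by omega) (by omega) hsum hx hxc hxo hW1 hW3 with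
      hc | ⟨S, hS, hSc⟩
    · exact absurd hc h.noC
    · have := indep_lt h hS; omega
  · rcases two_cliques_apart hm hD hD' hdis (by omega) (by omega) hsum (fun x hx y hy e => by
      have := (adj_level (show x ∈ rlayer G D 0 from hx) (hsub hy) e).1
      omega) hW1 hW2 with hc | ⟨S, hS, hSc⟩
    · exact absurd hc h.noC
    · have := indep_lt h hS; omega

/-! ### Odd `m` -/

omit [Fintype V] in
/-- In a window of a path next to a clique all ends see one root. -/
theorem hasCycle_window {D : Finset V} (hq : 2 ≤ q) (hD : G.IsClique (D : Set V))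
    (hDc : #D = q + 1) {l : List V} (hl : l.Nodup) (hch : l.IsChain G.Adj)
    (hlen : l.length = 2 * q) (hoff : ∀ v ∈ l, v ∉ D) (hlab : ∀ v ∈ l, ∃ x ∈ D, G.Adj x v) :
    HasCycle G (2 * q + 1) := by
  classical
  by_contra hno
  -- ends of a window have one common root only
  have hwin : ∀ i j (hi : i < l.length) (hj : j < l.length), i + q ≤ j + 1 → j + 2 ≤ i + 2 * q →
      ∀ a ∈ D, ∀ b ∈ D, G.Adj a l[i] → G.Adj b l[j] → a = b := by
    intro i j hi hj h1 h2 a ha b hb ea eb
    by_contra hne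
    obtain ⟨c, hcl, hcD, hcn, hcc⟩ := exists_clique_path hD hb ha (fun e => hne e.symm)
      (j := 2 * q - 2 - (j - i)) (by omega)
    set w := (l.drop i).take (j + 1 - i) with hw
    have hwl : w.length = j + 1 - i := by rw [hw, List.length_take, List.length_drop]; omega
    have hwne : w ≠ [] := by intro hc; simp [hc] at hwl; omega
    have hwh : w.head hwne = l[i] := by rw [List.head_eq_getElem]; simp [hw]
    have hwlast : w.getLast hwne = l[j] := by
      rw [List.getLast_eq_getElem]; simp [hw]; congr 1; omega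
    have hwsub : ∀ v ∈ w, v ∈ l := fun v hv => List.mem_of_mem_drop (List.mem_of_mem_take hv)
    have hwn : w.Nodup := (hl.sublist (List.drop_sublist _ _)).sublist (List.take_sublist _ _)
    have hcmem : ∀ v ∈ b :: (c ++ [a]), v ∈ D := by
      intro v hv
      simp only [List.mem_cons, List.mem_append, List.not_mem_nil, or_false] at hv
      rcases hv with rfl | hv | rfl
      exacts [hb, hcD v hv, ha]
    refine hno ⟨w ++ b :: (c ++ [a]), by simp [hwl, hcl]; omega,
      List.nodup_append'.2 ⟨hwn, hcn, fun v hv hv' => hoff v (hwsub v hv) (hcmem v hv')⟩,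
      List.isChain_append.2 ⟨(hch.drop i).take _, hcc, fun u hu v hv => ?_⟩, fun u hu v hv => ?_⟩
    · rw [List.getLast?_eq_some_getLast hwne, hwlast, Option.mem_def, Option.some.injEq] at hu
      simp only [List.head?_cons, Option.mem_def, Option.some.injEq] at hv
      rw [← hu, ← hv]; exact eb.symm
    · rw [List.getLast?_append_of_ne_nil _ (by simp)] at hu
      rw [List.head?_append_of_ne_nil _ hwne, List.head?_eq_some_head hwne, hwh, Option.mem_def,
        Option.some.injEq] at hv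
      simp [List.getLast?_cons] at hu
      rw [← hu, ← hv]; exact ea
  obtain ⟨x₀, hx₀, e₀⟩ := hlab _ (List.getElem_mem (show 0 < l.length by omega))
  have hmid : ∀ t (ht : t < l.length), q ≤ t + 1 → t + 2 ≤ 2 * q → G.Adj x₀ l[t] := by
    intro t ht h1 h2
    obtain ⟨b, hb, eb⟩ := hlab _ (List.getElem_mem ht)
    exact hwin 0 t (by omega) ht (by omega) (by omega) x₀ hx₀ b hb e₀ eb ▸ eb
  have hall : ∀ t (ht : t < l.length), G.Adj x₀ l[t] := by
    intro t ht
    by_cases h0 : t = 0
    · subst h0; exact e₀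
    by_cases h1 : q ≤ t + 1
    · by_cases h2 : t + 2 ≤ 2 * q
      · exact hmid t ht h1 h2
      · obtain ⟨b, hb, eb⟩ := hlab _ (List.getElem_mem ht)
        exact hwin q t (by omega) ht (by omega) (by omega) x₀ hx₀ b hb
          (hmid q (by omega) (by omega) (by omega)) eb ▸ eb
    · obtain ⟨b, hb, eb⟩ := hlab _ (List.getElem_mem ht)
      exact (hwin t (t + q - 1) ht (by omega) (by omega) (by omega) b hb x₀ hx₀ eb
        (hmid (t + q - 1) (by omega) (by omega) (by omega))) ▸ eb
  have hlne : l ≠ [] := by intro hc; simp [hc] at hlen; omega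
  have hallm : ∀ v ∈ l, G.Adj x₀ v := fun v hv => by
    obtain ⟨t, ht, rfl⟩ := List.getElem_of_mem hv
    exact hall t ht
  refine hno ⟨x₀ :: l, by simp [hlen], List.nodup_cons.2 ⟨fun hc => hoff _ hc hx₀, hl⟩,
    List.isChain_cons.2 ⟨fun v hv => hallm v (List.mem_of_mem_head? hv), hch⟩, fun u hu v hv => ?_⟩
  rw [List.getLast?_eq_some_getLast (by simp), List.getLast_cons hlne, Option.mem_def,
    Option.some.injEq] at hu
  simp only [List.head?_cons, Option.mem_def, Option.some.injEq] at hv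
  rw [← hu, ← hv]
  exact (hallm _ (List.getLast_mem hlne)).symm

/-- Odd `m`: the first layer of a clique is not exact. -/
theorem not_exact (h : Ctx G m n) (hq : 4 ≤ q) (hm : m = 2 * q + 1) (hnm : n ≤ m)
    (hW : CliqueHyp G m q) {D : Finset V} (hD : G.IsClique (D : Set V)) (hDc : #D = q + 1)
    (hgood : Good G (rlayer G D 1) q) (hex : #(rlayer G D 1) = q * aOn G (rlayer G D 1)) :
    False := by
  classical
  set L := rlayer G D 1 with hLdef
  have hnd := noDense_of_good hgood
  have hoff : ∀ v ∈ L, v ∉ D := fun v hv => (mem_sdiff.1 hv).2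
  have hlab : ∀ v ∈ L, ∃ x ∈ D, G.Adj x v := fun v hv => exists_rparent hv
  -- every component is a clique on `q` vertices with one root
  have hcomp : ∀ y ∈ L, #(compIn G L y) = q ∧ G.IsClique (compIn G L y : Set V) ∧
      ∃ x ∈ D, (∀ v ∈ compIn G L y, G.Adj x v) ∧
        ∀ a ∈ D, ∀ v ∈ compIn G L y, G.Adj a v → a = x := by
    intro y hy
    set K := compIn G L y with hKdef
    have hKL : K ⊆ L := compIn_subset
    have hKe := compIn_exact hnd hex y
    have h1 : 1 ≤ aOn G K := aOn_pos ⟨y, mem_compIn_self hy⟩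
    rcases h1.eq_or_lt with h1 | h2
    swap
    · obtain ⟨l, hl, hlen⟩ := exact_path K compIn_connected (hnd.mono hKL) hKe h2
      refine absurd (hasCycle_window (q := q) (l := l.take (2 * q)) (by omega) hD hDc
        (hl.1.sublist (List.take_sublist _ _)) (hl.2.2.take _)
        (by rw [List.length_take]; omega)
        (fun v hv => hoff v (hKL (hl.2.1 v (List.mem_of_mem_take hv))))
        (fun v hv => hlab v (hKL (hl.2.1 v (List.mem_of_mem_take hv))))) (hm ▸ h.noC)
    rw [← hKdef, ← h1, mul_one] at hKe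
    have hKcl : G.IsClique (K : Set V) := fun a ha b hb => clique_of_aOn_le_one h1.ge a ha b hb
    have hdist : ∀ u ∈ K, ∀ w ∈ K, u ≠ w → ∀ a ∈ D, ∀ b ∈ D, G.Adj a u → G.Adj b w → a = b := by
      intro u hu w hw huw a ha b hb ea eb
      by_contra hne
      obtain ⟨c, hcl, hcD, hcn, hcc⟩ := exists_clique_path hKcl hu hw huw (j := q - 2) (by omega)
      obtain ⟨d, hdl, hdD, hdn, hdc⟩ := exists_clique_path hD hb ha (fun e => hne e.symm)
        (j := q - 1) (by omega)
      have hcmem : ∀ v ∈ u :: (c ++ [w]), v ∈ K := by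
        intro v hv
        simp only [List.mem_cons, List.mem_append, List.not_mem_nil, or_false] at hv
        rcases hv with rfl | hv | rfl
        exacts [hu, hcD v hv, hw]
      have hdmem : ∀ v ∈ b :: (d ++ [a]), v ∈ D := by
        intro v hv
        simp only [List.mem_cons, List.mem_append, List.not_mem_nil, or_false] at hv
        rcases hv with rfl | hv | rfl
        exacts [hb, hdD v hv, ha]
      refine h.noC ⟨(u :: (c ++ [w])) ++ b :: (d ++ [a]), by simp [hcl, hdl]; omega,
        List.nodup_append'.2 ⟨hcn, hdn, fun v hv hv' => hoff v (hKL (hcmem v hv)) (hdmem v hv')⟩,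
        List.isChain_append.2 ⟨hcc, hdc, fun p hp r hr => ?_⟩, fun p hp r hr => ?_⟩
      · simp [List.getLast?_cons] at hp hr
        rw [← hp, ← hr]; exact eb.symm
      · rw [List.getLast?_append_of_ne_nil _ (by simp)] at hp
        simp [List.getLast?_cons] at hp hr
        rw [← hp, ← hr]; exact ea
    refine ⟨hKe, hKcl, ?_⟩
    have hyK : y ∈ K := mem_compIn_self hy
    obtain ⟨x, hx, ex⟩ := hlab y hy
    obtain ⟨u, hu, huy⟩ := exists_mem_ne (show 1 < #K by omega) y
    obtain ⟨xu, hxu, exu⟩ := hlab u (hKL hu)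
    have hxx : xu = x := hdist u hu y hyK huy xu hxu x hx exu ex
    have honly : ∀ a ∈ D, ∀ v ∈ K, G.Adj a v → a = x := by
      intro a ha v hv e
      rcases eq_or_ne v y with rfl | hv'
      · exact (hdist v hv u hu huy.symm a ha xu hxu e exu).trans hxx
      · exact hdist v hv y hyK hv' a ha x hx e ex
    refine ⟨x, hx, fun v hv => ?_, honly⟩
    obtain ⟨a, ha, e⟩ := hlab v (hKL hv)
    exact honly a ha v hv e ▸ e
  -- every unit gives a clique meeting `D` in it
  have hunit : ∀ x ∈ D, ∃ K : Finset V, K ⊆ L ∧ #K = q ∧ G.IsClique (K : Set V) ∧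
      (∀ v ∈ K, G.Adj x v) ∧ (∀ a ∈ D, ∀ v ∈ K, G.Adj a v → a = x) ∧
      ∀ v ∈ K, ∀ w ∈ L, G.Adj v w → w ∈ K := by
    intro x hx
    obtain ⟨w, hw, hwD⟩ : ∃ w ∈ G.neighborFinset x, w ∉ D := by
      by_contra hc
      push Not at hc
      have h1 := card_le_card hc
      have h2 := h.degree x
      rw [SimpleGraph.card_neighborFinset_eq_degree] at h1
      omega
    rw [SimpleGraph.mem_neighborFinset] at hw
    have hwL : w ∈ L := rlayer_one hx hw hwD
    obtain ⟨hc, hcl, x', -, hall, honly⟩ := hcomp w hwL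
    obtain rfl := honly x hx w (mem_compIn_self hwL) hw
    exact ⟨_, compIn_subset, hc, hcl, hall, honly, fun v hv u hu e => compIn_closed hv hu e⟩
  obtain ⟨T, hTD, hTc⟩ := exists_subset_card_eq (s := D) (n := 3) (by omega)
  obtain ⟨x, y, z, hxy, hxz, hyz, rfl⟩ := card_eq_three.1 hTc
  simp only [insert_subset_iff, singleton_subset_iff] at hTD
  obtain ⟨hx, hy, hz⟩ := hTD
  -- an independent set behind each unit
  have hI : ∀ a ∈ D, ∃ K I : Finset V, K ⊆ L ∧ G.IsClique ((insert a K : Finset V) : Set V) ∧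
      #K = q ∧ (∀ v ∈ K, G.Adj a v) ∧ (∀ b ∈ D, ∀ v ∈ K, G.Adj b v → b = a) ∧
      (∀ u ∈ I, ∀ v ∈ I, ¬ G.Adj u v) ∧ #I = q ∧
      ∀ w ∈ I, w ∉ D ∧ w ∉ L ∧ ∃ v ∈ K, G.Adj v w := by
    intro a ha
    obtain ⟨K, hKL, hKc, hKcl, hall, honly, hclosed⟩ := hunit a ha
    have hins : G.IsClique ((insert a K : Finset V) : Set V) := by
      rw [coe_insert]
      exact hKcl.insert fun v hv _ => hall v hv
    have haK : a ∉ K := fun hc => hoff a (hKL hc) ha
    obtain ⟨I, hI, hIc, hIn⟩ := hW _ hins (by rw [card_insert_of_notMem haK]; omega)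
      (clique_lt h (by omega) hins) K (subset_insert a K) (card_pos.1 (by omega))
    refine ⟨K, I, hKL, hins, hKc, hall, honly, fun u hu v hv e => hI hu hv e.ne e, by omega,
      fun w hw => ?_⟩
    obtain ⟨hwo, v, hv, e⟩ := hIn w hw
    rw [mem_insert, not_or] at hwo
    exact ⟨fun hwD => hwo.1 (honly w hwD v hv e.symm), fun hwL => hwo.2 (hclosed v hv w hwL e),
      v, hv, e⟩
  obtain ⟨K₁, I₁, hK₁, hC₁, hc₁, hall₁, ho₁, hi₁, hn₁, hw₁⟩ := hI x hx
  obtain ⟨K₂, I₂, hK₂, hC₂, hc₂, hall₂, ho₂, hi₂, hn₂, hw₂⟩ := hI y hy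
  obtain ⟨K₃, I₃, hK₃, hC₃, hc₃, hall₃, ho₃, hi₃, hn₃, hw₃⟩ := hI z hz
  -- a conflict between two of them closes a cycle
  have hpair : ∀ (a b : V) (K K' I I' : Finset V), a ∈ D → b ∈ D → a ≠ b → K ⊆ L → K' ⊆ L →
      G.IsClique ((insert a K : Finset V) : Set V) → G.IsClique ((insert b K' : Finset V) : Set V) →
      #K = q → #K' = q → (∀ v ∈ K, G.Adj a v) → (∀ c ∈ D, ∀ v ∈ K', G.Adj c v → c = b) →
      (∀ w ∈ I, w ∉ D ∧ w ∉ L ∧ ∃ v ∈ K, G.Adj v w) →
      (∀ w ∈ I', w ∉ D ∧ w ∉ L ∧ ∃ v ∈ K', G.Adj v w) →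
      ∀ w ∈ I, ∀ w' ∈ I', w = w' ∨ G.Adj w w' → False := by
    intro a b K K' I I' ha hb hab hKL hK'L hC hC' hKc hK'c hall honly hIw hI'w w hw w' hw' hc
    obtain ⟨hwD, hwL, u, hu, eu⟩ := hIw w hw
    obtain ⟨hw'D, hw'L, u', hu', eu'⟩ := hI'w w' hw'
    have haK : a ∉ K := fun e => hoff a (hKL e) ha
    have hbK : b ∉ K' := fun e => hoff b (hK'L e) hb
    have hdis : Disjoint (insert a K) (insert b K') := by
      refine disjoint_left.2 fun v hv hv' => ?_
      rcases mem_insert.1 hv with rfl | hvK <;> rcases mem_insert.1 hv' with e | hvK'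
      · exact hab e
      · exact hoff v (hK'L hvK') ha
      · exact hoff v (hKL hvK) (e ▸ hb)
      · exact hab (honly a ha v hvK' (hall v hvK))
    have hout : ∀ v, v ∉ D → v ∉ L → v ∉ insert a K ∧ v ∉ insert b K' := fun v hvD hvL => by
      simp only [mem_insert, not_or]
      exact ⟨⟨fun e => hvD (e ▸ ha), fun e => hvL (hKL e)⟩,
        fun e => hvD (e ▸ hb), fun e => hvL (hK'L e)⟩
    refine h.noC (hasCycle_of_links hC hC' hdis (by rw [card_insert_of_notMem haK]; omega)
      (by rw [card_insert_of_notMem hbK]; omega)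
      (by rw [card_insert_of_notMem haK, card_insert_of_notMem hbK]; omega)
      (isLink_mid (mem_insert_of_mem hu) (mem_insert_of_mem hu') (hout w hwD hwL)
        (hout w' hw'D hw'L) eu eu' hc)
      (M₂ := []) ⟨mem_insert_self a K, mem_insert_self b K', by simp, by simp,
        by simp [hD ha hb hab]⟩
      (fun e => haK (e ▸ hu)) (fun e => hbK (e ▸ hu')) (fun v _ => by simp)
      (by have := length_mid_le w w'; simp; omega))
  obtain ⟨J, hJs, hJi, hJc⟩ := exists_union_indep (Z := ∅) hi₁ hi₂ fun w hw w' hw' e =>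
    (hpair x y K₁ K₂ I₁ I₂ hx hy hxy hK₁ hK₂ hC₁ hC₂ hc₁ hc₂ hall₁ ho₂ hw₁ hw₂ w hw w' hw' e).elim
  obtain ⟨J', -, hJ'i, hJ'c⟩ := exists_union_indep (Z := ∅) hJi hi₃ fun w hw w' hw' e => by
    rcases mem_union.1 (hJs hw) with hw0 | hw0
    · exact (hpair x z K₁ K₃ I₁ I₃ hx hz hxz hK₁ hK₃ hC₁ hC₃ hc₁ hc₃ hall₁ ho₃ hw₁ hw₃
        w hw0 w' hw' e).elim
    · exact (hpair y z K₂ K₃ I₂ I₃ hy hz hyz hK₂ hK₃ hC₂ hC₃ hc₂ hc₃ hall₂ ho₃ hw₂ hw₃
        w hw0 w' hw' e).elim
  have := h.alpha J' hJ'i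
  simp only [card_empty] at hJc hJ'c
  omega

/-- Odd `m`. -/
theorem second_odd (h : Ctx G m n) (hq : 4 ≤ q) (hm : m = 2 * q + 1) (hnm : n ≤ m)
    (hW : CliqueHyp G m q) {D : Finset V} (hD : G.IsClique (D : Set V)) (hDc : #D = q + 1) :
    False := by
  classical
  have hne : D.Nonempty := card_pos.1 (by omega)
  have hR : ∀ a ∈ D, ∀ b ∈ D, a ≠ b → G.Adj a b := fun a ha b hb => hD ha hb
  obtain ⟨M⟩ := exists_layerSets G D
  have hA1 := card_par_one M (hW D hD (by omega) (clique_lt h (by omega) hD)) hne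
  rw [hDc] at hA1
  by_cases hgood1 : Good G (rlayer G D 1) q
  swap
  · rcases h.clique_or_deep (show 3 ≤ q by omega) (Or.inl hm) hne hR (i := 1) le_rfl subset_rfl
      hgood1 with ⟨D', hD's, hD'c, hD'cl⟩ | ⟨hd, -, -⟩
    · have := two_layer_cliques h (by omega) (by omega) hW hD hD'cl hDc.ge hD'c.ge (by omega)
        le_rfl hD's
      omega
    · omega
  have hstrict : #(rlayer G D 1) + 1 ≤ q * #(M.sel 1) := by
    by_contra hc
    obtain ⟨I, hIs, hIc, hIi⟩ := exists_aOn G (rlayer G D 1)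
    have h1 := M.max 1 I hIs hIi
    have h2 := card_le_aOn (M.sub 1) (M.ind 1)
    have h3 := noDense_of_good hgood1 _ subset_rfl
    have h4 : #(M.sel 1) = aOn G (rlayer G D 1) := by omega
    rw [h4] at hc
    exact not_exact h hq hm hnm hW hD hDc hgood1 (by omega)
  have hgrow : ∀ t, GoodUpTo G D ∅ q (t + 1) → 1 ≤ #(M.par t) →
      #(M.par t) + 1 ≤ #(M.par (t + 1)) := by
    intro t hg hA
    have h1 := h.expand (card_pos.1 hA) (M.par_ind t) (B := ball G D (t + 1))
      (fun x hx => by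
        obtain ⟨s, hs, -, hxs⟩ := M.mem_par hx
        exact ball_mono (show s ≤ t + 1 by omega) (rlayer_subset_ball s (M.sub s hxs)))
      (fun x hx y hxy => by
        obtain ⟨s, hs, -, hxs⟩ := M.mem_par hx
        exact ball_mono (show s + 1 ≤ t + 1 by omega)
          (adj_mem_ball (rlayer_subset_ball s (M.sub s hxs)) hxy))
    have hcov : ball G D (t + 1) ⊆ D ∪ (Icc 1 (t + 1)).biUnion (rlayer G D) := by
      intro u hu
      obtain ⟨s, hs, hus⟩ := exists_rlayer hu
      simp only [mem_union, mem_biUnion, mem_Icc]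
      rcases Nat.eq_zero_or_pos s with rfl | hpos
      · exact Or.inl hus
      · exact Or.inr ⟨s, ⟨hpos, hs⟩, hus⟩
    have h2 := (card_le_card hcov).trans (card_union_le _ _)
    have h3 := card_biUnion_le (s := Icc 1 (t + 1)) (t := rlayer G D)
    have h4 : ∑ s ∈ Icc 1 (t + 1), #(rlayer G D s) < ∑ s ∈ Icc 1 (t + 1), q * #(M.sel s) := by
      refine sum_lt_sum (fun s hs => ?_) ⟨1, by simp, by omega⟩
      have := hg s (mem_Icc.1 hs).1 (mem_Icc.1 hs).2
      rw [sdiff_empty] at this
      exact this _ subset_rfl _ fun J hJ hJi => M.max s J hJ hJi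
    rw [← mul_sum] at h4
    have h5 := M.card_par_add t
    rw [M.sel_zero hne hR] at h5
    subst hm
    simp only [Nat.add_sub_cancel] at h1
    by_contra hc
    have h6 := Nat.mul_le_mul_left q
      (show 1 + ∑ s ∈ Icc 1 (t + 1), #(M.sel s) ≤ 2 * #(M.par t) by omega)
    nlinarith
  have hchain : ∀ T, GoodUpTo G D ∅ q T → ∀ t, 1 ≤ t → t ≤ T → q + t ≤ #(M.par t) := by
    intro T hT t ht htT
    induction t, ht using Nat.le_induction with
    | base => exact hA1
    | succ t ht ih =>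
      have := ih (by omega)
      have := hgrow t (fun s hs hst => hT s hs (by omega)) (by omega)
      omega
  have hbad : ∃ s, 1 ≤ s ∧ ¬ Good G (rlayer G D s \ ∅) q := by
    by_contra hc
    push Not at hc
    have := hchain n (fun s hs _ => hc s hs) n (by
      have := h.alpha ∅ (by simp); omega) le_rfl
    have := h.alpha _ (M.par_ind n)
    omega
  obtain ⟨hj1, hjbad⟩ := Nat.find_spec hbad
  set j := Nat.find hbad with hjdef
  rw [sdiff_empty] at hjbad
  have hgoodlt : GoodUpTo G D ∅ q (j - 1) := fun s hs hsj => by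
    by_contra hc
    exact Nat.find_min hbad (show s < j by omega) ⟨hs, hc⟩
  rcases h.clique_or_deep (show 3 ≤ q by omega) (Or.inl hm) hne hR hj1 subset_rfl hjbad with
    ⟨D', hD's, hD'c, hD'cl⟩ | ⟨hdeep, -, h3⟩
  · have := two_layer_cliques h (by omega) (by omega) hW hD hD'cl hDc.ge hD'c.ge (by omega)
      hj1 hD's
    omega
  · obtain ⟨I, hIs, hIc, hIi⟩ := exists_aOn G (rlayer G D j)
    obtain ⟨t, ht⟩ : ∃ t, j = t + 2 := ⟨j - 2, by omega⟩
    rw [ht] at hIs hIc h3
    have := hchain _ hgoodlt t (by omega) (by omega)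
    have := M.par_add_lt h hIs hIi
    have := h3 hm
    omega

/-! ### Even `m` -/

omit [Fintype V] in
theorem card_erase_split (D : Finset V) (z : V) :
    #D ≤ #(D.erase z) + #(({z} : Finset V) ∩ D) := by
  by_cases hz : z ∈ D
  · rw [singleton_inter_of_mem hz, card_erase_of_mem hz, card_singleton]
    omega
  · rw [erase_eq_of_notMem hz]
    omega

omit [Fintype V] in
/-- A conflict between neighbours of two cliques passes the covering vertex. -/
theorem conflict_cover {D D' : Finset V} {z : V}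
    (hz : ∀ x M y, IsLink G D D' x M y → M.length ≤ 2 → z ∈ x :: (M ++ [y]))
    {x y w w' : V} (hx : x ∈ D) (hxz : x ≠ z) (hy : y ∈ D') (hyz : y ≠ z) (hw : w ∉ D)
    (hw' : w' ∉ D') (hxw : G.Adj x w) (hyw : G.Adj y w') (hc : w = w' ∨ G.Adj w w') :
    w = z ∨ w' = z := by
  by_cases hwD : w ∈ D'
  · have := hz x [] w ⟨hx, hwD, by simp, by simp, by simp [hxw]⟩ (by simp)
    simp [hxz.symm] at this
    exact Or.inl this.symm
  by_cases hwD' : w' ∈ D
  · have := hz w' [] y ⟨hwD', hy, by simp, by simp, by simp [hyw.symm]⟩ (by simp)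
    simp [hyz.symm] at this
    exact Or.inr this.symm
  have := hz x (mid w w') y (isLink_mid hx hy ⟨hw, hwD⟩ ⟨hwD', hw'⟩ hxw hyw hc) (length_mid_le w w')
  simp only [List.mem_cons, List.mem_append, List.not_mem_nil, or_false, mem_mid] at this
  rcases this with e | (e | e) | e
  exacts [absurd e.symm hxz, Or.inl e.symm, Or.inr e.symm, absurd e.symm hyz]

/-- Without edges between the cliques the covering vertex costs one. -/
theorem conflict_apart {D D' : Finset V} (hno : ∀ x ∈ D, ∀ y ∈ D', ¬ G.Adj x y) {z : V}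
    (hz : ∀ x M y, IsLink G D D' x M y → M.length ≤ 2 → z ∈ x :: (M ++ [y]))
    {x y w w' : V} (hx : x ∈ D) (hxz : x ≠ z) (hy : y ∈ D') (hyz : y ≠ z) (hw : w ∉ D)
    (hw' : w' ∉ D') (hxw : G.Adj x w) (hyw : G.Adj y w') (hc : w = w' ∨ G.Adj w w') :
    w ∈ ({z} : Finset V) \ (D ∪ D') ∨ w' ∈ ({z} : Finset V) \ (D ∪ D') := by
  rcases conflict_cover hz hx hxz hy hyz hw hw' hxw hyw hc with rfl | rfl
  · exact Or.inl (mem_sdiff.2 ⟨mem_singleton_self _, fun hc => by
      rcases mem_union.1 hc with e | e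
      exacts [hw e, hno x hx w e hxw]⟩)
  · exact Or.inr (mem_sdiff.2 ⟨mem_singleton_self _, fun hc => by
      rcases mem_union.1 hc with e | e
      exacts [hno w' e y hy hyw.symm, hw' e]⟩)

omit [Fintype V] in
theorem split_le_one {D D' : Finset V} (hdis : Disjoint D D') (z : V) :
    #(({z} : Finset V) ∩ D) + #(({z} : Finset V) ∩ D') + #(({z} : Finset V) \ (D ∪ D')) ≤ 1 := by
  have h1 := card_sdiff_add_card_inter ({z} : Finset V) (D ∪ D')
  rw [inter_union_distrib_left, card_union_of_disjoint (hdis.mono inter_subset_right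
    inter_subset_right), card_singleton] at h1
  omega

/-- Two cliques without edges: an independent set of `#D + #D' - 1` of their outside neighbours. -/
theorem exists_pair_indep (hW : CliqueHyp G m q) (hC : CoverHyp G m q) (h : Ctx G m n)
    (hm : 3 ≤ m) (hq : 1 ≤ q) {D D' : Finset V} (hD : G.IsClique (D : Set V))
    (hD' : G.IsClique (D' : Set V)) (hdis : Disjoint D D') (hk : q + 1 ≤ #D) (hk' : q + 1 ≤ #D')
    (hsum : m ≤ #D + #D') (hno : ∀ x ∈ D, ∀ y ∈ D', ¬ G.Adj x y) :
    ∃ J : Finset V, (∀ a ∈ J, ∀ b ∈ J, ¬ G.Adj a b) ∧ #D + #D' ≤ #J + 1 ∧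
      ∀ w ∈ J, ∃ x ∈ D ∪ D', G.Adj x w := by
  obtain ⟨z, hz⟩ := hC D D' hD hD' hdis hk hk' hsum
  obtain ⟨I, hI, hIc, hIn⟩ := hW D hD hk (clique_lt h hm hD) (D.erase z) (erase_subset _ _)
    (card_pos.1 (by have := pred_card_le_card_erase (s := D) (a := z); omega))
  obtain ⟨I', hI', hI'c, hI'n⟩ := hW D' hD' hk' (clique_lt h hm hD') (D'.erase z)
    (erase_subset _ _) (card_pos.1 (by have := pred_card_le_card_erase (s := D') (a := z); omega))
  obtain ⟨J, hJs, hJi, hJc⟩ := exists_union_indep (Z := ({z} : Finset V) \ (D ∪ D'))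
    (fun a ha b hb e => hI ha hb e.ne e) (fun a ha b hb e => hI' ha hb e.ne e)
    fun w hw w' hw' hc => by
      obtain ⟨hwD, x, hx, hxw⟩ := hIn w hw
      obtain ⟨hwD', y, hy, hyw⟩ := hI'n w' hw'
      rw [mem_erase] at hx hy
      exact conflict_apart hno hz hx.2 hx.1 hy.2 hy.1 hwD hwD' hxw hyw hc
  refine ⟨J, hJi, ?_, fun w hw => ?_⟩
  · have := split_le_one hdis z
    have := card_erase_split D z
    have := card_erase_split D' z
    omega
  · rcases mem_union.1 (hJs hw) with hw' | hw'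
    · obtain ⟨-, x, hx, hxw⟩ := hIn w hw'
      exact ⟨x, mem_union_left _ (mem_of_mem_erase hx), hxw⟩
    · obtain ⟨-, x, hx, hxw⟩ := hI'n w hw'
      exact ⟨x, mem_union_right _ (mem_of_mem_erase hx), hxw⟩

/-- Three disjoint cliques on `q + 1` vertices, the first without edges to the other two. -/
theorem three_cliques_false (h : Ctx G m n) (hq : 3 ≤ q) (hm : m = 2 * q + 2) (hnm : n ≤ m)
    (hW : CliqueHyp G m q) (hC : CoverHyp G m q) {A B C : Finset V}
    (hA : G.IsClique (A : Set V)) (hB : G.IsClique (B : Set V)) (hCc : G.IsClique (C : Set V))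
    (hAc : #A = q + 1) (hBc : #B = q + 1) (hCd : #C = q + 1) (hAB : Disjoint A B)
    (hAC : Disjoint A C) (hBC : Disjoint B C) (hnoB : ∀ x ∈ A, ∀ y ∈ B, ¬ G.Adj x y)
    (hnoC : ∀ x ∈ A, ∀ y ∈ C, ¬ G.Adj x y) : False := by
  obtain ⟨z₁, hz₁⟩ := hC A B hA hB hAB (by omega) (by omega) (by omega)
  obtain ⟨z₂, hz₂⟩ := hC A C hA hCc hAC (by omega) (by omega) (by omega)
  obtain ⟨z₃, hz₃⟩ := hC B C hB hCc hBC (by omega) (by omega) (by omega)
  have hne : ∀ (D : Finset V) (a b : V), q + 1 ≤ #D → ((D.erase a).erase b).Nonempty :=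
    fun D a b hD => card_pos.1 (by
      have := pred_card_le_card_erase (s := D) (a := a)
      have := pred_card_le_card_erase (s := D.erase a) (a := b)
      omega)
  obtain ⟨I₁, hI₁, hc₁, hn₁⟩ := hW A hA (by omega) (clique_lt h (by omega) hA)
    ((A.erase z₁).erase z₂) ((erase_subset _ _).trans (erase_subset _ _)) (hne _ _ _ (by omega))
  obtain ⟨I₂, hI₂, hc₂, hn₂⟩ := hW B hB (by omega) (clique_lt h (by omega) hB)
    ((B.erase z₁).erase z₃) ((erase_subset _ _).trans (erase_subset _ _)) (hne _ _ _ (by omega))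
  obtain ⟨I₃, hI₃, hc₃, hn₃⟩ := hW C hCc (by omega) (clique_lt h (by omega) hCc)
    ((C.erase z₂).erase z₃) ((erase_subset _ _).trans (erase_subset _ _)) (hne _ _ _ (by omega))
  have hi : ∀ I : Finset V, G.IsIndepSet (I : Set V) → ∀ a ∈ I, ∀ b ∈ I, ¬ G.Adj a b :=
    fun I hI a ha b hb e => hI ha hb e.ne e
  obtain ⟨J, hJs, hJi, hJc⟩ := exists_union_indep (Z := ({z₁} : Finset V) \ (A ∪ B))
    (hi _ hI₁) (hi _ hI₂) fun w hw w' hw' hc => by
      obtain ⟨hwA, x, hx, hxw⟩ := hn₁ w hw
      obtain ⟨hwB, y, hy, hyw⟩ := hn₂ w' hw'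
      simp only [mem_erase] at hx hy
      exact conflict_apart hnoB hz₁ hx.2.2 hx.2.1 hy.2.2 hy.2.1 hwA hwB hxw hyw hc
  obtain ⟨J', -, hJ'i, hJ'c⟩ := exists_union_indep
    (Z := (({z₂} : Finset V) \ (A ∪ C)) ∪ {z₃}) hJi (hi _ hI₃) fun w hw w' hw' hc => by
      obtain ⟨hwC, y, hy, hyw⟩ := hn₃ w' hw'
      simp only [mem_erase] at hy
      rcases mem_union.1 (hJs hw) with hw0 | hw0
      · obtain ⟨hwA, x, hx, hxw⟩ := hn₁ w hw0
        simp only [mem_erase] at hx
        exact (conflict_apart hnoC hz₂ hx.2.2 hx.1 hy.2.2 hy.2.1 hwA hwC hxw hyw hc).imp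
          (mem_union_left _) (mem_union_left _)
      · obtain ⟨hwB, x, hx, hxw⟩ := hn₂ w hw0
        simp only [mem_erase] at hx
        exact (conflict_cover hz₃ hx.2.2 hx.1 hy.2.2 hy.1 hwB hwC hxw hyw hc).imp
          (fun e => mem_union_right _ (mem_singleton.2 e))
          (fun e => mem_union_right _ (mem_singleton.2 e))
  have := h.alpha J' hJ'i
  have := card_union_le (({z₂} : Finset V) \ (A ∪ C)) {z₃}
  have := card_singleton z₃
  have := split_le_one hAB z₁
  have := split_le_one hAC z₂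
  have := split_le_one hBC z₃
  have := card_erase_split A z₁
  have := card_erase_split (A.erase z₁) z₂
  have := card_erase_split B z₁
  have := card_erase_split (B.erase z₁) z₃
  have := card_erase_split C z₂
  have := card_erase_split (C.erase z₂) z₃
  have := card_le_card (inter_subset_inter_left (s := ({z₂} : Finset V)) (erase_subset z₁ A))
  have := card_le_card (inter_subset_inter_left (s := ({z₃} : Finset V)) (erase_subset z₁ B))
  have := card_le_card (inter_subset_inter_left (s := ({z₃} : Finset V)) (erase_subset z₂ C))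
  omega

/-- Even `m`. -/
theorem second_even (h : Ctx G m n) (hq : 4 ≤ q) (hm : m = 2 * q + 2) (hnm : n ≤ m)
    (hW : CliqueHyp G m q) (hC : CoverHyp G m q) {D : Finset V} (hD : G.IsClique (D : Set V))
    (hDc : q + 1 ≤ #D) (hmax : ∀ E : Finset V, G.IsClique (E : Set V) → #E ≤ #D) : False := by
  classical
  have hne : D.Nonempty := card_pos.1 (by omega)
  have hR : ∀ a ∈ D, ∀ b ∈ D, a ≠ b → G.Adj a b := fun a ha b hb => hD ha hb
  have hWD := hW D hD hDc (clique_lt h (by omega) hD)
  obtain ⟨M⟩ := exists_layerSets G D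
  have hA1 := card_par_one M hWD hne
  have hkn : #D < n := lt_of_le_of_lt hA1 (h.alpha _ (M.par_ind 1))
  have hgrow : ∀ t, GoodUpTo G D ∅ q (t + 1) → #D ≤ #(M.par t) →
      #(M.par t) + 2 ≤ #(M.par (t + 1)) := by
    intro t hg hA
    have h1 := growth h hne hR M (show 1 ≤ #(M.par t) by omega) hg
    subst hm
    simp only [card_empty, show 2 * q + 2 - 1 = 2 * q + 1 by omega] at h1
    by_contra hc
    have h2 := Nat.mul_le_mul_left q (show #(M.par (t + 1)) ≤ #(M.par t) + 1 by omega)
    nlinarith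
  have hchain : ∀ T, GoodUpTo G D ∅ q T → ∀ t, 1 ≤ t → t ≤ T →
      #D + 2 * t ≤ #(M.par t) + 2 := by
    intro T hT t ht htT
    induction t, ht using Nat.le_induction with
    | base => omega
    | succ t ht ih =>
      have := ih (by omega)
      have := hgrow t (fun s hs hst => hT s hs (by omega)) (by omega)
      omega
  have hbad : ∃ s, 1 ≤ s ∧ ¬ Good G (rlayer G D s \ ∅) q := by
    by_contra hc
    push Not at hc
    have := hchain n (fun s hs _ => hc s hs) n (by omega) le_rfl
    have := h.alpha _ (M.par_ind n)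
    omega
  obtain ⟨hj1, hjbad⟩ := Nat.find_spec hbad
  set j := Nat.find hbad with hjdef
  rw [sdiff_empty] at hjbad
  have hgoodlt : GoodUpTo G D ∅ q (j - 1) := fun s hs hsj => by
    by_contra hc
    exact Nat.find_min hbad (show s < j by omega) ⟨hs, hc⟩
  rcases h.clique_or_deep (show 3 ≤ q by omega) (Or.inr hm) hne hR hj1 subset_rfl hjbad with
    ⟨D', hD's, hD'c, hD'cl⟩ | ⟨hdeep, -, -⟩
  swap
  · have := hchain _ hgoodlt (j - 1) (by omega) le_rfl
    have := h.alpha _ (M.par_ind (j - 1))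
    omega
  have hsum := two_layer_cliques h (by omega) (by omega) hW hD hD'cl hDc hD'c.ge (by omega) hj1 hD's
  have hk : #D = q + 1 := by omega
  have hn : n = 2 * q + 2 := by omega
  have hdisD : Disjoint D D' := disjoint_right.2 fun y hy hyD => by
    have := rlayer_level (hD's hy) (show y ∈ rlayer G D 0 from hyD)
    omega
  -- no clique on `q + 1` vertices in the first layer
  have hone : ∀ E : Finset V, G.IsClique (E : Set V) → #E = q + 1 → E ⊆ rlayer G D 1 → False := by
    intro E hE hEc hEs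
    have hdis : Disjoint D E := disjoint_right.2 fun y hy hyD => (mem_sdiff.1 (hEs hy)).2 hyD
    obtain ⟨x, hx, hxc, -⟩ := complete_center h hD hE hdis (by omega) (by omega) (by omega)
      (by omega) fun y hy => by
        obtain ⟨w, hw, hwy⟩ := exists_rparent (hEs hy)
        exact ⟨w, hw, hwy⟩
    have := hmax (insert x E) (by rw [coe_insert]; exact hE.insert fun y hy _ => hxc y hy)
    rw [card_insert_of_notMem fun hxE => disjoint_left.1 hdis hx hxE] at this
    omega
  have hj2 : 2 ≤ j := by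
    by_contra hc
    exact hone D' hD'cl hD'c ((show j = 1 by omega) ▸ hD's)
  have hnoD : ∀ x ∈ D, ∀ y ∈ D', ¬ G.Adj x y := fun x hx y hy e => by
    have := (adj_level (show x ∈ rlayer G D 0 from hx) (hD's hy) e).1
    omega
  -- `j` is two or three
  have hj3 : j ≤ 3 := by
    by_contra hc
    obtain ⟨I, hI, hIc, hIn⟩ := hWD D subset_rfl hne
    obtain ⟨I', hI', hI'c, hI'n⟩ := hW D' hD'cl hD'c.ge (clique_lt h (by omega) hD'cl) D'
      subset_rfl (card_pos.1 (by omega))
    obtain ⟨J, -, hJi, hJc⟩ := exists_union_indep (Z := ∅) (fun a ha b hb e => hI ha hb e.ne e)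
      (fun a ha b hb e => hI' ha hb e.ne e) fun w hw w' hw' e => by
        obtain ⟨hwD, x, hx, hxw⟩ := hIn w hw
        obtain ⟨-, y, hy, hyw⟩ := hI'n w' hw'
        have hwl := rlayer_one hx hxw hwD
        have h2 := adj_mem_ball (G := G) (rlayer_subset_ball 1 hwl) (w := w')
        have h3 : w' ∈ ball G D 2 := by
          rcases e with rfl | e
          · exact ball_mono (show 1 ≤ 2 by omega) (rlayer_subset_ball 1 hwl)
          · exact h2 e
        exact absurd (adj_mem_ball h3 hyw.symm) (not_mem_ball_of_lt (by omega) (hD's hy))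
    have := h.alpha J hJi
    simp only [card_empty] at hJc
    omega
  obtain ⟨J, hJi, hJc, hJn⟩ := exists_pair_indep hW hC h (by omega) (by omega) hD hD'cl hdisD
    hDc hD'c.ge (by omega) hnoD
  have hcover : ∀ u, u ∈ ball G D (j + 2) := by
    intro u
    have hJb : ∀ w ∈ J, w ∈ ball G D (j + 1) := fun w hw => by
      obtain ⟨x, hx, e⟩ := hJn w hw
      refine adj_mem_ball ?_ e
      rcases mem_union.1 hx with hx | hx
      · exact ball_mono (Nat.zero_le j) hx
      · exact rlayer_subset_ball j (hD's hx)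
    rcases h.dominates (show n ≤ #J + 1 by omega) hJi u with hu | ⟨w, hw, e⟩
    · exact ball_mono (show j + 1 ≤ j + 2 by omega) (hJb u hu)
    · exact adj_mem_ball (hJb w hw) e
  have hbad2 : ∃ s, 1 ≤ s ∧ s ≤ j + 2 ∧ ¬ Good G (rlayer G D s \ D') q := by
    by_contra hc
    push Not at hc
    have h1 := card_ball_le M (E := D') (q := q) (T := j + 2) fun s hs hs' => hc s hs hs'
    have h2 : Fintype.card V ≤ #(ball G D (j + 2)) := by
      rw [← card_univ]
      exact card_le_card fun u _ => hcover u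
    have h3 := M.card_par_add (j + 1)
    rw [M.sel_zero hne hR, show j + 1 + 1 = j + 2 from rfl] at h3
    have h4 := h.alpha _ (M.par_ind (j + 1))
    have h5 := h.alpha _ (M.par_ind (j + 2))
    have h6 := h.card
    have h7 := Nat.mul_le_mul_left q
      (show ∑ s ∈ Icc 1 (j + 2), #(M.sel s) ≤ 4 * q + 1 by omega)
    subst hm hn
    simp only [show 2 * q + 2 - 1 = 2 * q + 1 by omega] at h6
    nlinarith
  obtain ⟨hi1, hij, hibad⟩ := Nat.find_spec hbad2
  set i := Nat.find hbad2 with hidef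
  rcases h.clique_or_deep (show 3 ≤ q by omega) (Or.inr hm) hne hR hi1
      (L := rlayer G D i \ D') sdiff_subset hibad with ⟨E, hEs, hEc, hEcl⟩ | ⟨hdeep, hα2, -⟩
  · have hEl : E ⊆ rlayer G D i := hEs.trans sdiff_subset
    have hi2 : 2 ≤ i := by
      by_contra hc
      exact hone E hEcl hEc ((show i = 1 by omega) ▸ hEl)
    exact three_cliques_false h (by omega) hm hnm hW hC hD hD'cl hEcl hk hD'c hEc hdisD
      (disjoint_right.2 fun y hy hyD => by
        have := rlayer_level (hEl hy) (show y ∈ rlayer G D 0 from hyD)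
        omega)
      (disjoint_right.2 fun y hy => (mem_sdiff.1 (hEs hy)).2) hnoD fun x hx y hy e => by
        have := (adj_level (show x ∈ rlayer G D 0 from hx) (hEl hy) e).1
        omega
  · -- only `q = 4`, `j = 3`, `i = 5` remains
    obtain ⟨I, hIs, hIc, hIi⟩ := exists_aOn G (rlayer G D i \ D')
    have h1 := M.par_add_lt h (t := 3) (J := I) ((show i = 3 + 2 by omega) ▸
      (hIs.trans sdiff_subset)) hIi
    have hj : j = 3 := by omega
    have hA2 : #(M.par 1) + 2 ≤ #(M.par 2) :=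
      hgrow 1 (fun s hs hs' => hgoodlt s hs (by omega)) hA1
    have hA3 := growth h hne hR M (t := 2) (E := D') (q := q) (show 1 ≤ #(M.par 2) by omega)
      fun s hs hs' => by
        by_contra hc
        exact Nat.find_min hbad2 (show s < i by omega) ⟨hs, by omega, hc⟩
    obtain rfl : q = 4 := by omega
    rw [show 2 + 1 = 3 from rfl, hk, hD'c] at hA3
    subst hm hn
    omega

/-- The standing hypotheses are contradictory for `9 ≤ m`, given the two clique lemmas. -/
theorem refute_of_hyps (hm : 9 ≤ m) (_hn : 3 ≤ n) (hnm : n ≤ m) (h : Ctx G m n)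
    (hW : CliqueHyp G m ((m - 1) / 2)) (hC : CoverHyp G m ((m - 1) / 2)) : False := by
  classical
  set q := (m - 1) / 2 with hqdef
  have hmq : m = 2 * q + 1 ∨ m = 2 * q + 2 := by omega
  obtain ⟨D₀, hD₀c, hD₀⟩ := exists_clique h.connected (show 2 ≤ q by omega) hmq hnm h.not_hasC
    h.alpha h.card (fun x => (h.degree x).trans (le_of_eq (by
      rw [← SimpleGraph.card_neighborFinset_eq_degree]
      congr 1
      ext w
      simp))) h.small
  have hD₀cl : G.IsClique (D₀ : Set V) := fun a ha b hb => hD₀ a ha b hb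
  rcases hmq with hmo | hme
  · exact second_odd h (by omega) hmo hnm hW hD₀cl hD₀c
  · obtain ⟨D, hD, hmax⟩ := ((univ : Finset V).powerset.filter
      fun E : Finset V => G.IsClique (E : Set V)).exists_max_image (fun E => #E) ⟨D₀, by simp [hD₀cl]⟩
    rw [mem_filter] at hD
    have hk := hmax D₀ (by simp [hD₀cl])
    exact second_even h (by omega) hme hnm hW hC hD.2 (by omega) fun E hE => hmax E (by simp [hE])

end Vale.Agent.P048.Full
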