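import Vale.Agent.P048.AssemblyUpper
import Vale.Agent.P048.Small.M4
import Vale.Agent.P048.Small.M5
import Vale.Agent.P048.Small.M6
import Vale.Agent.P048.Small.M7

/-!
The small cases `m = 4, 5, 6, 7` in the vocabulary of `Close.HasCycle`.
-/

namespace Vale.Agent.P048.Full

open Finset
open Assembly (HasC HasI)
open Close (HasCycle)

theorem goal_of_hasC_or_hasI {V : Type} [Fintype V] {G : SimpleGraph V} {m n : ℕ}
    (h : HasC G m ∨ HasI G n) : HasCycle G m ∨ ∃ s, G.IsNIndepSet n s := by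
  rcases h with h | ⟨I, hI, hind⟩
  · exact Or.inl (Assembly.hasCycle_of_hasC h)
  · obtain ⟨J, hJI, hJ⟩ := exists_subset_card_eq hI
    exact Or.inr ⟨J, fun x hx y hy _ => hind x (hJI hx) y (hJI hy), hJ⟩

/-- The upper bound for `m = 4, 5, 6, 7`. -/
theorem upper_small {m : ℕ} (hm : m = 4 ∨ m = 5 ∨ m = 6 ∨ m = 7) {n : ℕ} (hnm : n ≤ m) (V : Type)
    [Fintype V] [DecidableEq V] (G : SimpleGraph V) [DecidableRel G.Adj]
    (hcard : (m - 1) * (n - 1) + 1 ≤ Fintype.card V) :
    HasCycle G m ∨ ∃ s, G.IsNIndepSet n s := by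
  rcases hm with rfl | rfl | rfl | rfl
  · exact goal_of_hasC_or_hasI (Small.upper_four hnm V G (by omega))
  · exact goal_of_hasC_or_hasI (Small.upper_five hnm V G (by omega))
  · exact goal_of_hasC_or_hasI (Small.upper_six hnm V G (by omega))
  · exact goal_of_hasC_or_hasI (Small.upper_seven hnm V G (by omega))

end Vale.Agent.P048.Full
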