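import Vale.Agent.P048.Close.Basic

/-!
Two disjoint cliques `D, D'` with `m ≤ #D + #D'` and large independent sets among their
neighbours: either there are two disjoint short links between them, giving a cycle of length `m`,
or the two independent sets combine to one of size `#D + #D' - 1` (one less when `D, D'` meet by
edges at a single vertex).
-/

namespace Vale.Agent.P048.Full

open Finset
open Close (HasCycle Closed)

variable {V : Type*}

/-- Every nonempty part `U` of `D` has an independent set of `#U` outside neighbours. -/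
def NbrIndep (G : SimpleGraph V) (D : Finset V) : Prop :=
  ∀ U ⊆ D, U.Nonempty → ∃ I : Finset V, G.IsIndepSet I ∧ #I = #U ∧
    ∀ w ∈ I, w ∉ D ∧ ∃ x ∈ U, G.Adj x w

/-- A link from `D` to `D'` through the inner vertices `M`. -/
structure IsLink (G : SimpleGraph V) (D D' : Finset V) (x : V) (M : List V) (y : V) : Prop where
  fst : x ∈ D
  snd : y ∈ D'
  nodup : M.Nodup
  off : ∀ v ∈ M, v ∉ D ∧ v ∉ D'
  chain : (x :: (M ++ [y])).IsChain G.Adj

/-- `u` is the only neighbour of `w` in `D`. -/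
def Sole (G : SimpleGraph V) (D : Finset V) (u w : V) : Prop := ∀ x ∈ D, G.Adj x w → x = u

/-- Paths of every length between two vertices of a clique. -/
theorem exists_clique_path {G : SimpleGraph V} {D : Finset V}
    (hD : G.IsClique (D : Set V)) {x y : V} (hx : x ∈ D) (hy : y ∈ D) (hxy : x ≠ y) {j : ℕ}
    (hj : j + 2 ≤ #D) :
    ∃ a : List V, a.length = j ∧ (∀ v ∈ a, v ∈ D) ∧ (x :: (a ++ [y])).Nodup ∧
      (x :: (a ++ [y])).IsChain G.Adj := by
  classical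
  obtain ⟨S, hS, hSj⟩ := exists_subset_card_eq (s := (D.erase x).erase y) (n := j) (by
    rw [card_erase_of_mem (mem_erase.2 ⟨hxy.symm, hy⟩), card_erase_of_mem hx]; omega)
  have hSD : ∀ v ∈ S.toList, v ∈ D ∧ v ≠ x ∧ v ≠ y := fun v hv => by
    have h := hS (mem_toList.1 hv)
    simp only [mem_erase] at h
    exact ⟨h.2.2, h.2.1, h.1⟩
  have hnd : (x :: (S.toList ++ [y])).Nodup := by
    rw [List.nodup_cons, List.nodup_append']
    refine ⟨?_, nodup_toList S, List.nodup_singleton _, fun v hv hv' => ?_⟩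
    · simp only [List.mem_append, List.mem_singleton, not_or]
      exact ⟨fun h => (hSD x h).2.1 rfl, hxy⟩
    · exact (hSD v hv).2.2 (List.mem_singleton.1 hv')
  have hmem : ∀ v ∈ x :: (S.toList ++ [y]), v ∈ D := by
    intro v hv
    simp only [List.mem_cons, List.mem_append, List.not_mem_nil, or_false] at hv
    rcases hv with rfl | h | rfl
    · exact hx
    · exact (hSD v h).1
    · exact hy
  refine ⟨S.toList, by rw [length_toList, hSj], fun v hv => (hSD v hv).1, hnd, ?_⟩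
  refine List.isChain_iff_getElem.2 fun i hi => ?_
  exact hD (hmem _ (List.getElem_mem _)) (hmem _ (List.getElem_mem _)) fun h => by
    have := hnd.getElem_inj_iff.1 h
    omega

/-- Two disjoint links between two cliques close to every length in their range. -/
theorem hasCycle_of_links {G : SimpleGraph V} {m : ℕ} {D D' : Finset V}
    (hD : G.IsClique (D : Set V)) (hD' : G.IsClique (D' : Set V)) (hdis : Disjoint D D')
    (hk : 2 ≤ #D) (hk' : 2 ≤ #D') (hsum : m ≤ #D + #D') {x₁ x₂ y₁ y₂ : V} {M₁ M₂ : List V}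
    (h₁ : IsLink G D D' x₁ M₁ y₁) (h₂ : IsLink G D D' x₂ M₂ y₂) (hx : x₁ ≠ x₂) (hy : y₁ ≠ y₂)
    (hM : ∀ v ∈ M₁, v ∉ M₂) (hlen : M₁.length + M₂.length + 4 ≤ m) : HasCycle G m := by
  set T := m - (M₁.length + M₂.length) with hT
  obtain ⟨j, j', hj, hj', hjT⟩ : ∃ j j', j + 2 ≤ #D ∧ j' + 2 ≤ #D' ∧ j + j' + 4 = T :=
    ⟨min (#D - 2) (T - 4), T - 4 - min (#D - 2) (T - 4), by omega, by omega, by omega⟩
  obtain ⟨a, hal, haD, hand, hac⟩ := exists_clique_path hD h₂.fst h₁.fst hx.symm hj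
  obtain ⟨b, hbl, hbD, hbnd, hbc⟩ := exists_clique_path hD' h₁.snd h₂.snd hy hj'
  have hrev : (y₂ :: (M₂.reverse ++ [x₂])).IsChain G.Adj := by
    have h : (x₂ :: (M₂ ++ [y₂])).reverse.IsChain G.Adj := by
      rw [List.isChain_reverse]
      exact h₂.chain.imp fun p q h => h.symm
    simpa using h
  have hall : ((x₂ :: a) ++ (x₁ :: (M₁ ++ (y₁ :: (b ++ (y₂ :: (M₂.reverse ++ [x₂])))))))
      |>.IsChain G.Adj := by
    rw [List.isChain_split]
    refine ⟨by simpa using hac, ?_⟩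
    rw [← List.cons_append, List.isChain_split]
    refine ⟨by simpa using h₁.chain, ?_⟩
    rw [← List.cons_append, List.isChain_split]
    exact ⟨by simpa using hbc, hrev⟩
  set L := (x₂ :: (a ++ [x₁])) ++ (M₁ ++ ((y₁ :: (b ++ [y₂])) ++ M₂.reverse)) with hL
  have hL' : (L ++ [x₂]).IsChain G.Adj := by
    simpa [hL, List.append_assoc] using hall
  rw [List.isChain_append] at hL'
  refine ⟨L, by simp [hL, hal, hbl]; omega, ?_, hL'.1, fun p hp q hq => ?_⟩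
  · have hmemA : ∀ v ∈ x₂ :: (a ++ [x₁]), v ∈ D := by
      intro v hv
      simp only [List.mem_cons, List.mem_append, List.not_mem_nil, or_false] at hv
      rcases hv with rfl | h | rfl
      exacts [h₂.fst, haD v h, h₁.fst]
    have hmemB : ∀ v ∈ y₁ :: (b ++ [y₂]), v ∈ D' := by
      intro v hv
      simp only [List.mem_cons, List.mem_append, List.not_mem_nil, or_false] at hv
      rcases hv with rfl | h | rfl
      exacts [h₁.snd, hbD v h, h₂.snd]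
    rw [hL, List.nodup_append', List.nodup_append', List.nodup_append']
    refine ⟨hand, ⟨h₁.nodup, ⟨hbnd, List.nodup_reverse.2 h₂.nodup, fun v hv hv' => ?_⟩,
      fun v hv hv' => ?_⟩, fun v hv hv' => ?_⟩
    · exact (h₂.off v (List.mem_reverse.1 hv')).2 (hmemB v hv)
    · rcases List.mem_append.1 hv' with h | h
      · exact (h₁.off v hv).2 (hmemB v h)
      · exact hM v hv (List.mem_reverse.1 h)
    · rcases List.mem_append.1 hv' with h | h
      · exact (h₁.off v h).1 (hmemA v hv)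
      · rcases List.mem_append.1 h with h | h
        · exact disjoint_left.1 hdis (hmemA v hv) (hmemB v h)
        · exact (h₂.off v (List.mem_reverse.1 h)).1 (hmemA v hv)
  · have : q = x₂ := by
      rw [hL] at hq
      simpa using hq.symm
    subst this
    exact hL'.2.2 p hp q (by simp)

/-- The inner vertices of a conflict between `w` and `w'`. -/
def mid [DecidableEq V] (w w' : V) : List V := if w = w' then [w] else [w, w']

theorem mem_mid [DecidableEq V] {w w' v : V} : v ∈ mid w w' ↔ v = w ∨ v = w' := by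
  unfold mid
  split_ifs with h <;> simp [h]

theorem length_mid_le [DecidableEq V] (w w' : V) : (mid w w').length ≤ 2 := by
  unfold mid
  split_ifs <;> simp

/-- A conflict is a link. -/
theorem isLink_mid [DecidableEq V] {G : SimpleGraph V} {D D' : Finset V} {x y w w' : V}
    (hx : x ∈ D) (hy : y ∈ D') (hw : w ∉ D ∧ w ∉ D') (hw' : w' ∉ D ∧ w' ∉ D')
    (hxw : G.Adj x w) (hyw : G.Adj y w') (hc : w = w' ∨ G.Adj w w') :
    IsLink G D D' x (mid w w') y := by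
  refine ⟨hx, hy, ?_, fun v hv => ?_, ?_⟩
  · unfold mid
    split_ifs with h <;> simp [h]
  · rcases mem_mid.1 hv with rfl | rfl
    exacts [hw, hw']
  · unfold mid
    split_ifs with h
    · subst h
      simp [hxw, hyw.symm]
    · simp [hxw, hc.resolve_left h, hyw.symm]

/-- The bipartite conflict graph of two independent sets has a one-vertex cover or two disjoint
conflicts. -/
theorem union_or_two_conflicts [DecidableEq V] {G : SimpleGraph V} {I I' : Finset V}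
    (hI : G.IsIndepSet I) (hI' : G.IsIndepSet I') (hne : I.Nonempty) :
    (∃ S : Finset V, G.IsIndepSet S ∧ #I + #I' ≤ #S + 1) ∨
    ∃ w₁ w₁' w₂ w₂', (w₁ ∈ I ∧ w₁' ∈ I' ∧ (w₁ = w₁' ∨ G.Adj w₁ w₁')) ∧
      (w₂ ∈ I ∧ w₂' ∈ I' ∧ (w₂ = w₂' ∨ G.Adj w₂ w₂')) ∧
      w₁ ≠ w₂ ∧ w₁' ≠ w₂' ∧ w₁ ≠ w₂' ∧ w₂ ≠ w₁' := by
  classical
  -- a vertex covering every conflict
  have cover : ∀ z, (∀ w ∈ I, ∀ w' ∈ I', (w = w' ∨ G.Adj w w') → w = z ∨ w' = z) →
      ∃ S : Finset V, G.IsIndepSet S ∧ #I + #I' ≤ #S + 1 := by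
    intro z hz
    have hint : #(I ∩ I') ≤ 1 := by
      refine le_trans (card_le_card (t := {z}) fun v hv => ?_) (card_singleton z).le
      rw [mem_inter] at hv
      simpa using hz v hv.1 v hv.2 (Or.inl rfl)
    by_cases hcross : ∃ w ∈ I, ∃ w' ∈ I', G.Adj w w'
    · -- then the two sets are disjoint and `z` is an end of every edge between them
      obtain ⟨w, hw, w', hw', hadj⟩ := hcross
      have h0 : I ∩ I' = ∅ := by
        refine eq_empty_of_forall_notMem fun v hv => ?_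
        rw [mem_inter] at hv
        have h1 : v = z := (hz v hv.1 v hv.2 (Or.inl rfl)).elim id id
        rcases hz w hw w' hw' (Or.inr hadj) with h | h
        · exact hI' (show w ∈ I' by rw [h, ← h1]; exact hv.2) hw' hadj.ne hadj
        · exact hI hw (show w' ∈ I by rw [h, ← h1]; exact hv.1) hadj.ne hadj
      refine ⟨(I ∪ I').erase z, fun p hp q hq hpq hadj' => ?_, ?_⟩
      · simp only [coe_erase, coe_union, Set.mem_sdiff, Set.mem_union, mem_coe,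
          Set.mem_singleton_iff] at hp hq
        rcases hp.1 with hp1 | hp1 <;> rcases hq.1 with hq1 | hq1
        · exact hI hp1 hq1 hpq hadj'
        · exact (hz p hp1 q hq1 (Or.inr hadj')).elim hp.2 hq.2
        · exact (hz q hq1 p hp1 (Or.inr hadj'.symm)).elim hq.2 hp.2
        · exact hI' hp1 hq1 hpq hadj'
      · have h1 := pred_card_le_card_erase (s := I ∪ I') (a := z)
        have h2 := card_union_add_card_inter I I'
        rw [h0, card_empty] at h2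
        omega
    · push Not at hcross
      refine ⟨I ∪ I', fun p hp q hq hpq hadj' => ?_, by have := card_union_add_card_inter I I'; omega⟩
      simp only [coe_union, Set.mem_union, mem_coe] at hp hq
      rcases hp with hp | hp <;> rcases hq with hq | hq
      · exact hI hp hq hpq hadj'
      · exact hcross p hp q hq hadj'
      · exact hcross q hq p hp hadj'.symm
      · exact hI' hp hq hpq hadj'
  by_cases h0 : ∀ z, ¬ ∀ w ∈ I, ∀ w' ∈ I', (w = w' ∨ G.Adj w w') → w = z ∨ w' = z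
  swap
  · push Not at h0
    obtain ⟨z, hz⟩ := h0
    exact Or.inl (cover z hz)
  right
  push Not at h0
  obtain ⟨w₀, -⟩ := hne
  obtain ⟨a, ha, a', ha', hca, -, -⟩ := h0 w₀
  obtain ⟨b, hb, b', hb', hcb, hba, hb'a⟩ := h0 a
  -- `b, b'` avoid `a`
  have fix : ∀ {p p' : V}, p ∈ I → p' ∈ I' → (p = p' ∨ G.Adj p p') → p ∈ I' → p = p' :=
    fun hp hp' hc h => hc.elim id fun hh => absurd hh (hI' h hp' hh.ne)
  have fix' : ∀ {p p' : V}, p ∈ I → p' ∈ I' → (p = p' ∨ G.Adj p p') → p' ∈ I → p = p' :=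
    fun hp hp' hc h => hc.elim id fun hh => absurd hh (hI hp h hh.ne)
  by_cases hab : a' = b'
  · obtain ⟨c, hc, c', hc', hcc, hca', hc'a'⟩ := h0 a'
    -- pair `c` with `a` or with `b`
    by_cases hac : c = a
    · subst hac
      refine ⟨b, b', c, c', ⟨hb, hb', hcb⟩, ⟨hc, hc', hcc⟩, hba, ?_, ?_, ?_⟩
      · exact fun h => hc'a' (h.symm.trans hab.symm)
      · intro h
        have h1 := fix hb hb' hcb (h ▸ hc')
        exact hc'a' (by rw [← h, h1, hab])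
      · intro h
        exact hca' (h.trans hab.symm)
    · refine ⟨a, a', c, c', ⟨ha, ha', hca⟩, ⟨hc, hc', hcc⟩, fun h => hac h.symm,
        fun h => hc'a' h.symm, ?_, hca'⟩
      intro h
      have h1 := fix ha ha' hca (h ▸ hc')
      exact hc'a' (h.symm.trans h1)
  · refine ⟨a, a', b, b', ⟨ha, ha', hca⟩, ⟨hb, hb', hcb⟩, fun h => hba h.symm, hab,
      fun h => hb'a h.symm, ?_⟩
    intro h
    have h1 := fix' ha ha' hca (h ▸ hb)
    exact hba (h.trans h1.symm)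

/-- Two one-sided conflicts crossing at a base link `u — u'`. -/
theorem hasCycle_cross [DecidableEq V] {G : SimpleGraph V} {m : ℕ} (hm : 9 ≤ m) {D D' : Finset V}
    (hD : G.IsClique (D : Set V)) (hD' : G.IsClique (D' : Set V)) (hdis : Disjoint D D')
    (hk : 2 ≤ #D) (hk' : 2 ≤ #D') (hsum : m ≤ #D + #D') {I I' : Finset V}
    (hI : G.IsIndepSet I) (hI' : G.IsIndepSet I') {u u' : V}
    (hbase : ∀ w, ∃ M : List V, IsLink G D D' u M u' ∧ M.length ≤ 2 ∧ w ∉ M ∧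
      ∀ v ∈ M, (v ∈ I ∧ Sole G D u v) ∨ (v ∈ I' ∧ Sole G D' u' v))
    {x y w₃ w₃' w₄ w₄' : V} (hxu : x ≠ u) (hyu : y ≠ u')
    (h₃ : IsLink G D D' x (mid w₃ w₃') u') (hx : G.Adj x w₃) (h₃m : w₃' ∈ I')
    (h₃s : Sole G D' u' w₃') (hc₃ : w₃ = w₃' ∨ G.Adj w₃ w₃')
    (h₄ : IsLink G D D' u (mid w₄ w₄') y) (hy : G.Adj y w₄') (h₄m : w₄ ∈ I)
    (h₄s : Sole G D u w₄) (hc₄ : w₄ = w₄' ∨ G.Adj w₄ w₄') :
    HasCycle G m := by
  have hn34 : w₃ ≠ w₄ := fun h => hxu (h₄s x h₃.fst (h ▸ hx))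
  have hn34' : w₃' ≠ w₄' := fun h => hyu (h₃s y h₄.snd (by rw [h]; exact hy))
  have o3 := h₃.off w₃ (mem_mid.2 (Or.inl rfl))
  have o4 := h₄.off w₄' (mem_mid.2 (Or.inr rfl))
  have o34 := h₃.off w₃' (mem_mid.2 (Or.inr rfl))
  have l3 := length_mid_le w₃ w₃'
  have l4 := length_mid_le w₄ w₄'
  by_cases h1 : w₃ = w₄'
  · -- one common vertex joins `x` and `y`
    obtain ⟨M, hM, hMl, hMw, -⟩ := hbase w₃
    have hl : IsLink G D D' x [w₃] y := by
      refine ⟨h₃.fst, h₄.snd, by simp, by simpa using o3, ?_⟩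
      simp [hx, h1 ▸ hy.symm]
    refine hasCycle_of_links hD hD' hdis hk hk' hsum hl hM hxu hyu (fun v hv => ?_)
      (by simp; omega)
    rw [List.mem_singleton] at hv
    exact hv ▸ hMw
  by_cases h2 : w₃' = w₄
  · -- a vertex with one neighbour on each side sits between `w₃` and `w₄'`
    have hne3 : w₃ ≠ w₃' := fun h => hn34 (h.trans h2)
    have hne4 : w₃' ≠ w₄' := hn34'
    obtain ⟨M, hM, hMl, hMw, hMp⟩ := hbase w₃'
    have hl : IsLink G D D' x [w₃, w₃', w₄'] y := by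
      refine ⟨h₃.fst, h₄.snd, by simp [hne3, hne4, h1], fun v hv => ?_, ?_⟩
      · simp only [List.mem_cons, List.not_mem_nil, or_false] at hv
        rcases hv with rfl | rfl | rfl
        exacts [o3, o34, o4]
      · simp [hx, hc₃.resolve_left hne3, hy.symm,
          (show G.Adj w₃' w₄' from h2 ▸ hc₄.resolve_left (h2 ▸ hne4))]
    refine hasCycle_of_links hD hD' hdis hk hk' hsum hl hM hxu hyu (fun v hv hvM => ?_)
      (by simp; omega)
    simp only [List.mem_cons, List.not_mem_nil, or_false] at hv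
    rcases hv with rfl | rfl | rfl
    · rcases hMp v hvM with ⟨-, hs⟩ | ⟨hv', -⟩
      · exact hxu (hs x h₃.fst hx)
      · exact hI' hv' h₃m hne3 (hc₃.resolve_left hne3)
    · exact hMw hvM
    · have hadj := hc₄.resolve_left (h2 ▸ hne4)
      rcases hMp v hvM with ⟨hv', -⟩ | ⟨-, hs⟩
      · exact hI h₄m hv' hadj.ne hadj
      · exact hyu (hs y h₄.snd hy)
  refine hasCycle_of_links hD hD' hdis hk hk' hsum h₃ h₄ hxu hyu.symm (fun v hv hv' => ?_) (by omega)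
  rcases mem_mid.1 hv with rfl | rfl <;> rcases mem_mid.1 hv' with h | h
  exacts [hn34 h, h1 h, h2 h, hn34' h]

/-- An end at `D'` other than `u'`, or `u'` is the only one. -/
theorem sole_or_other {G : SimpleGraph V} (D' : Finset V) (u' w : V) :
    Sole G D' u' w ∨ ∃ y ∈ D', G.Adj y w ∧ y ≠ u' := by
  by_cases h : Sole G D' u' w
  · exact Or.inl h
  · simp only [Sole, not_forall] at h
    obtain ⟨y, hy, hyw, hne⟩ := h
    exact Or.inr ⟨y, hy, hyw, hne⟩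

/-- Two anticomplete disjoint independent sets. -/
theorem union_or_conflict [DecidableEq V] {G : SimpleGraph V} {J I' : Finset V}
    (hJ : G.IsIndepSet J) (hI' : G.IsIndepSet I') :
    (∃ S : Finset V, G.IsIndepSet S ∧ #J + #I' ≤ #S) ∨
      ∃ w ∈ J, ∃ w' ∈ I', w = w' ∨ G.Adj w w' := by
  by_cases h : ∃ w ∈ J, ∃ w' ∈ I', w = w' ∨ G.Adj w w'
  · exact Or.inr h
  push Not at h
  refine Or.inl ⟨J ∪ I', fun p hp q hq hpq hadj => ?_,
    (card_union_of_disjoint (disjoint_left.2 fun v hv hv' => (h v hv v hv').1 rfl)).ge⟩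
  simp only [coe_union, Set.mem_union, mem_coe] at hp hq
  rcases hp with hp | hp <;> rcases hq with hq | hq
  · exact hJ hp hq hpq hadj
  · exact (h p hp q hq).2 hadj
  · exact (h q hq p hp).2 hadj.symm
  · exact hI' hp hq hpq hadj

/-- Both ends of two disjoint conflicts can be told apart on the side of `D`, up to one vertex. -/
theorem sole_pair_or_distinct {G : SimpleGraph V} {D : Finset V} {w₁ w₂ : V}
    (h₁ : ∃ x ∈ D, G.Adj x w₁) (h₂ : ∃ x ∈ D, G.Adj x w₂) :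
    (∃ u ∈ D, G.Adj u w₁ ∧ G.Adj u w₂ ∧ Sole G D u w₁ ∧ Sole G D u w₂) ∨
      ∃ x₁ ∈ D, ∃ x₂ ∈ D, G.Adj x₁ w₁ ∧ G.Adj x₂ w₂ ∧ x₁ ≠ x₂ := by
  obtain ⟨a, ha, haw⟩ := h₁
  obtain ⟨b, hb, hbw⟩ := h₂
  by_cases hab : a = b
  · subst hab
    rcases sole_or_other (G := G) D a w₁ with hs₁ | ⟨c, hc, hcw, hca⟩
    · rcases sole_or_other (G := G) D a w₂ with hs₂ | ⟨c, hc, hcw, hca⟩
      · exact Or.inl ⟨a, ha, haw, hbw, hs₁, hs₂⟩
      · exact Or.inr ⟨a, ha, c, hc, haw, hcw, hca.symm⟩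
    · exact Or.inr ⟨c, hc, a, ha, hcw, hbw, hca⟩
  · exact Or.inr ⟨a, ha, b, hb, haw, hbw, hab⟩

section Apart

variable [DecidableEq V] {G : SimpleGraph V} {m : ℕ} {D D' : Finset V} {I I' : Finset V}

omit [DecidableEq V] in
theorem off_left (hno : ∀ x ∈ D, ∀ y ∈ D', ¬ G.Adj x y) {U I : Finset V} (hU : U ⊆ D)
    (hI : ∀ w ∈ I, w ∉ D ∧ ∃ x ∈ U, G.Adj x w) : ∀ w ∈ I, w ∉ D ∧ w ∉ D' := fun w hw => by
  obtain ⟨h1, x, hx, hxw⟩ := hI w hw
  exact ⟨h1, fun h => hno x (hU hx) w h hxw⟩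

/-- Two conflicts meeting at one vertex of `D` but not of `D'`. -/
theorem one_sided (hm : 9 ≤ m) (hD : G.IsClique (D : Set V)) (hD' : G.IsClique (D' : Set V))
    (hdis : Disjoint D D') (hk : 2 ≤ #D) (hk' : 2 ≤ #D') (hsum : m ≤ #D + #D')
    (hno : ∀ x ∈ D, ∀ y ∈ D', ¬ G.Adj x y) (hnbr : NbrIndep G D) (hI' : G.IsIndepSet I')
    (hI'c : #I' = #D') (hI'n : ∀ w ∈ I', (w ∉ D ∧ w ∉ D') ∧ ∃ y ∈ D', G.Adj y w)
    {u w₁ w₁' w₂ w₂' y₁ y₂ : V} (hu : u ∈ D) (hu₁ : G.Adj u w₁) (hu₂ : G.Adj u w₂)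
    (hs₁ : Sole G D u w₁) (hs₂ : Sole G D u w₂) (ho₁ : w₁ ∉ D ∧ w₁ ∉ D')
    (ho₂ : w₂ ∉ D ∧ w₂ ∉ D') (h₁' : w₁' ∈ I') (h₂' : w₂' ∈ I')
    (hc₁ : w₁ = w₁' ∨ G.Adj w₁ w₁') (hc₂ : w₂ = w₂' ∨ G.Adj w₂ w₂')
    (hn' : w₁' ≠ w₂') (hn₁₂ : w₁ ≠ w₂') (hn₂₁ : w₂ ≠ w₁')
    (hy₁ : y₁ ∈ D') (hy₂ : y₂ ∈ D') (hyw₁ : G.Adj y₁ w₁') (hyw₂ : G.Adj y₂ w₂')
    (hyne : y₁ ≠ y₂) :
    HasCycle G m ∨ ∃ S : Finset V, G.IsIndepSet S ∧ #D + #D' ≤ #S + 1 := by
  have hUne : (D.erase u).Nonempty := by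
    rw [← card_pos, card_erase_of_mem hu]; omega
  obtain ⟨J, hJ, hJc, hJn⟩ := hnbr _ (erase_subset u D) hUne
  rcases union_or_conflict hJ hI' with ⟨S, hS, hSc⟩ | ⟨w, hw, w', hw', hc⟩
  · refine Or.inr ⟨S, hS, ?_⟩
    rw [hJc, card_erase_of_mem hu, hI'c] at hSc
    omega
  left
  obtain ⟨hwD, x, hx, hxw⟩ := hJn w hw
  rw [mem_erase] at hx
  have how : w ∉ D ∧ w ∉ D' := ⟨hwD, fun h => hno x hx.2 w h hxw⟩
  obtain ⟨how', y, hy, hyw⟩ := hI'n w' hw'
  have l₁ : IsLink G D D' u (mid w₁ w₁') y₁ :=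
    isLink_mid hu hy₁ ho₁ (hI'n _ h₁').1 hu₁ hyw₁ hc₁
  have l₂ : IsLink G D D' u (mid w₂ w₂') y₂ :=
    isLink_mid hu hy₂ ho₂ (hI'n _ h₂').1 hu₂ hyw₂ hc₂
  have hw1 : w ≠ w₁ := fun h => hx.1 (hs₁ x hx.2 (h ▸ hxw))
  have hw2 : w ≠ w₂ := fun h => hx.1 (hs₂ x hx.2 (h ▸ hxw))
  have fin : ∀ {a a' ya : V}, IsLink G D D' u (mid a a') ya → ∀ {v v' yv : V},
      IsLink G D D' x (mid v v') yv → yv ≠ ya → v ≠ a → v ≠ a' → v' ≠ a → v' ≠ a' →
      HasCycle G m := by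
    intro a a' ya la v v' yv lv hyv h1 h2 h3 h4
    refine hasCycle_of_links hD hD' hdis hk hk' hsum lv la hx.1 hyv (fun z hz hz' => ?_) ?_
    · rcases mem_mid.1 hz with rfl | rfl <;> rcases mem_mid.1 hz' with h | h
      exacts [h1 h, h2 h, h3 h, h4 h]
    · have := length_mid_le a a'
      have := length_mid_le v v'
      omega
  by_cases e1 : w = w₁'
  · subst e1
    exact fin l₂ (isLink_mid hx.2 hy₁ how how hxw hyw₁ (Or.inl rfl)) hyne hw2 hn' hw2 hn'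
  by_cases e2 : w = w₂'
  · subst e2
    exact fin l₁ (isLink_mid hx.2 hy₂ how how hxw hyw₂ (Or.inl rfl)) hyne.symm hw1 hn'.symm
      hw1 hn'.symm
  by_cases e3 : w' = w₁'
  · subst e3
    exact fin l₂ (isLink_mid hx.2 hy₁ how how' hxw hyw₁ hc) hyne hw2 e2 (fun h => hn₂₁ h.symm) hn'
  by_cases e4 : w' = w₂'
  · subst e4
    exact fin l₁ (isLink_mid hx.2 hy₂ how how' hxw hyw₂ hc) hyne.symm hw1 e1
      (fun h => hn₁₂ h.symm) hn'.symm
  have e5 : ∀ {a a' : V}, a' ∈ I' → (a = a' ∨ G.Adj a a') → w' ≠ a' → w' ≠ a := by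
    intro a a' ha' hca hne h
    rcases hca with rfl | hca
    · exact hne h
    · exact hI' (h ▸ hw') ha' hca.ne hca
  by_cases ey : y = y₁
  · exact fin l₂ (isLink_mid hx.2 hy how how' hxw hyw hc) (ey ▸ hyne) hw2 e2 (e5 h₂' hc₂ e4) e4
  · exact fin l₁ (isLink_mid hx.2 hy how how' hxw hyw hc) ey hw1 e1 (e5 h₁' hc₁ e3) e3

end Apart

/-- Two disjoint cliques without edges between them. -/
theorem two_cliques_apart {G : SimpleGraph V} {m : ℕ} (hm : 9 ≤ m) {D D' : Finset V}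
    (hD : G.IsClique (D : Set V)) (hD' : G.IsClique (D' : Set V)) (hdis : Disjoint D D')
    (hk : 2 ≤ #D) (hk' : 2 ≤ #D') (hsum : m ≤ #D + #D')
    (hno : ∀ x ∈ D, ∀ y ∈ D', ¬ G.Adj x y) (hnbr : NbrIndep G D) (hnbr' : NbrIndep G D') :
    HasCycle G m ∨ ∃ S : Finset V, G.IsIndepSet S ∧ #D + #D' ≤ #S + 1 := by
  classical
  have hno' : ∀ y ∈ D', ∀ x ∈ D, ¬ G.Adj y x := fun y hy x hx h => hno x hx y hy h.symm
  obtain ⟨I, hI, hIc, hIn⟩ := hnbr D subset_rfl (card_pos.1 (by omega))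
  obtain ⟨I', hI', hI'c, hI'n⟩ := hnbr' D' subset_rfl (card_pos.1 (by omega))
  have hIo := off_left hno subset_rfl hIn
  have hI'o : ∀ w ∈ I', w ∉ D ∧ w ∉ D' := fun w hw => (off_left hno' subset_rfl hI'n w hw).symm
  rcases union_or_two_conflicts hI hI' (card_pos.1 (by omega)) with ⟨S, hS, hSc⟩ |
    ⟨w₁, w₁', w₂, w₂', ⟨hm₁, hm₁', hc₁⟩, ⟨hm₂, hm₂', hc₂⟩, hn, hn', hn12, hn21⟩
  · exact Or.inr ⟨S, hS, by omega⟩
  rcases sole_pair_or_distinct (hIn w₁ hm₁).2 (hIn w₂ hm₂).2 with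
      ⟨u, hu, hu₁, hu₂, hs₁, hs₂⟩ | ⟨x₁, hx₁, x₂, hx₂, hxw₁, hxw₂, hxne⟩ <;>
    rcases sole_pair_or_distinct (hI'n w₁' hm₁').2 (hI'n w₂' hm₂').2 with
      ⟨u', hu', hu₁', hu₂', hs₁', hs₂'⟩ | ⟨y₁, hy₁, y₂, hy₂, hyw₁, hyw₂, hyne⟩
  · -- both sides meet at one vertex
    have l₁ : IsLink G D D' u (mid w₁ w₁') u' :=
      isLink_mid hu hu' (hIo _ hm₁) (hI'o _ hm₁') hu₁ hu₁' hc₁
    have l₂ : IsLink G D D' u (mid w₂ w₂') u' :=
      isLink_mid hu hu' (hIo _ hm₂) (hI'o _ hm₂') hu₂ hu₂' hc₂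
    have hbase : ∀ z, ∃ M : List V, IsLink G D D' u M u' ∧ M.length ≤ 2 ∧ z ∉ M ∧
        ∀ v ∈ M, (v ∈ I ∧ Sole G D u v) ∨ (v ∈ I' ∧ Sole G D' u' v) := by
      intro z
      by_cases hz : z ∈ mid w₁ w₁'
      · refine ⟨_, l₂, length_mid_le _ _, fun h => ?_, fun v hv => ?_⟩
        · rcases mem_mid.1 hz with rfl | rfl <;> rcases mem_mid.1 h with h | h
          exacts [hn h, hn12 h, hn21 h.symm, hn' h]
        · rcases mem_mid.1 hv with rfl | rfl
          exacts [Or.inl ⟨hm₂, hs₂⟩, Or.inr ⟨hm₂', hs₂'⟩]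
      · refine ⟨_, l₁, length_mid_le _ _, hz, fun v hv => ?_⟩
        rcases mem_mid.1 hv with rfl | rfl
        exacts [Or.inl ⟨hm₁, hs₁⟩, Or.inr ⟨hm₁', hs₁'⟩]
    obtain ⟨J, hJ, hJc, hJn⟩ := hnbr _ (erase_subset u D)
      (by rw [← card_pos, card_erase_of_mem hu]; omega)
    obtain ⟨J', hJ', hJ'c, hJ'n⟩ := hnbr' _ (erase_subset u' D')
      (by rw [← card_pos, card_erase_of_mem hu']; omega)
    rcases union_or_conflict hJ hI' with ⟨S, hS, hSc⟩ | ⟨w₃, hw₃, w₃', hw₃', hc₃⟩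
    · refine Or.inr ⟨S, hS, ?_⟩
      rw [hJc, card_erase_of_mem hu, hI'c] at hSc
      omega
    rcases union_or_conflict hI hJ' with ⟨S, hS, hSc⟩ | ⟨w₄, hw₄, w₄', hw₄', hc₄⟩
    · refine Or.inr ⟨S, hS, ?_⟩
      rw [hJ'c, card_erase_of_mem hu', hIc] at hSc
      omega
    left
    obtain ⟨-, x, hx, hxw⟩ := hJn w₃ hw₃
    obtain ⟨-, y, hy, hyw⟩ := hJ'n w₄' hw₄'
    rw [mem_erase] at hx hy
    have ho3 := off_left hno (erase_subset u D) hJn _ hw₃
    have ho4 := (off_left hno' (erase_subset u' D') hJ'n _ hw₄').symm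
    rcases sole_or_other (G := G) D' u' w₃' with hs3 | ⟨y3, hy3, hy3w, hy3u⟩
    · rcases sole_or_other (G := G) D u w₄ with hs4 | ⟨x4, hx4, hx4w, hx4u⟩
      · obtain ⟨-, y', hy', hy'w⟩ := hI'n w₃' hw₃'
        obtain ⟨-, x', hx', hx'w⟩ := hIn w₄ hw₄
        have e := hs3 y' hy' hy'w
        have e' := hs4 x' hx' hx'w
        exact hasCycle_cross hm hD hD' hdis hk hk' hsum hI hI' hbase hx.1 hy.1
          (isLink_mid hx.2 hu' ho3 (hI'o _ hw₃') hxw (e ▸ hy'w) hc₃) hxw hw₃' hs3 hc₃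
          (isLink_mid hu hy.2 (hIo _ hw₄) ho4 (e' ▸ hx'w) hyw hc₄) hyw hw₄ hs4 hc₄
      · refine hasCycle_of_links hD hD' hdis hk hk' hsum
          (isLink_mid hx4 hy.2 (hIo _ hw₄) ho4 hx4w hyw hc₄) l₁ hx4u hy.1 (fun v hv hv' => ?_)
          (by have := length_mid_le w₄ w₄'; have := length_mid_le w₁ w₁'; omega)
        have d1 : w₄ ≠ w₁ := fun h => hx4u (hs₁ x4 hx4 (h ▸ hx4w))
        have d2 : w₄' ≠ w₁' := fun h => hy.1 (hs₁' y hy.2 (h ▸ hyw))
        have d3 : w₄ ≠ w₁' := by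
          intro h
          rcases hc₁ with e | e
          · exact d1 (h.trans e.symm)
          · exact hI hm₁ (h ▸ hw₄) e.ne e
        have d4 : w₄' ≠ w₁ := by
          intro h
          rcases hc₄ with e | e
          · exact d1 (e.trans h)
          · exact hI hw₄ (h.symm ▸ hm₁) e.ne e
        rcases mem_mid.1 hv with rfl | rfl <;> rcases mem_mid.1 hv' with h | h
        exacts [d1 h, d3 h, d4 h, d2 h]
    · refine hasCycle_of_links hD hD' hdis hk hk' hsum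
        (isLink_mid hx.2 hy3 ho3 (hI'o _ hw₃') hxw hy3w hc₃) l₁ hx.1 hy3u (fun v hv hv' => ?_)
        (by have := length_mid_le w₃ w₃'; have := length_mid_le w₁ w₁'; omega)
      have d1 : w₃ ≠ w₁ := fun h => hx.1 (hs₁ x hx.2 (h ▸ hxw))
      have d2 : w₃' ≠ w₁' := fun h => hy3u (hs₁' y3 hy3 (h ▸ hy3w))
      have d4 : w₃' ≠ w₁ := by
        intro h
        rcases hc₁ with e | e
        · exact d2 (h.trans e)
        · exact hI' (h ▸ hw₃') hm₁' e.ne e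
      have d3 : w₃ ≠ w₁' := by
        intro h
        rcases hc₃ with e | e
        · exact d2 (e.symm.trans h)
        · exact hI' (h.symm ▸ hm₁') hw₃' e.ne e
      rcases mem_mid.1 hv with rfl | rfl <;> rcases mem_mid.1 hv' with h | h
      exacts [d1 h, d3 h, d4 h, d2 h]
  · exact one_sided hm hD hD' hdis hk hk' hsum hno hnbr hI' hI'c
      (fun w hw => ⟨hI'o w hw, (hI'n w hw).2⟩) hu hu₁ hu₂ hs₁ hs₂ (hIo _ hm₁) (hIo _ hm₂) hm₁'
      hm₂' hc₁ hc₂ hn' hn12 hn21 hy₁ hy₂ hyw₁ hyw₂ hyne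
  · rcases one_sided hm hD' hD hdis.symm hk' hk (by omega) hno' hnbr' hI hIc
        (fun w hw => ⟨(hIo w hw).symm, (hIn w hw).2⟩) hu' hu₁' hu₂' hs₁' hs₂'
        (hI'o _ hm₁').symm (hI'o _ hm₂').symm hm₁ hm₂
        (hc₁.imp Eq.symm SimpleGraph.Adj.symm) (hc₂.imp Eq.symm SimpleGraph.Adj.symm) hn
        hn21.symm hn12.symm hx₁ hx₂ hxw₁ hxw₂ hxne with h | ⟨S, hS, hSc⟩
    · exact Or.inl h
    · exact Or.inr ⟨S, hS, by omega⟩
  · left
    refine hasCycle_of_links hD hD' hdis hk hk' hsum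
      (isLink_mid hx₁ hy₁ (hIo _ hm₁) (hI'o _ hm₁') hxw₁ hyw₁ hc₁)
      (isLink_mid hx₂ hy₂ (hIo _ hm₂) (hI'o _ hm₂') hxw₂ hyw₂ hc₂) hxne hyne (fun v hv hv' => ?_)
      (by have := length_mid_le w₁ w₁'; have := length_mid_le w₂ w₂'; omega)
    rcases mem_mid.1 hv with rfl | rfl <;> rcases mem_mid.1 hv' with h | h
    exacts [hn h, hn12 h, hn21 h.symm, hn' h]

/-- All edges between the cliques leave one vertex `u` of `D`. -/
theorem two_cliques_star {G : SimpleGraph V} {m : ℕ} (hm : 9 ≤ m) {D D' : Finset V}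
    (hD : G.IsClique (D : Set V)) (hD' : G.IsClique (D' : Set V)) (hdis : Disjoint D D')
    (hk : 2 ≤ #D) (hk' : 2 ≤ #D') (hsum : m ≤ #D + #D') {u u' : V} (hu : u ∈ D) (hu' : u' ∈ D')
    (huu : G.Adj u u') (hat : ∀ x ∈ D, ∀ y ∈ D', G.Adj x y → x = u)
    (hnbr : NbrIndep G D) (hnbr' : NbrIndep G D') :
    HasCycle G m ∨ ∃ S : Finset V, G.IsIndepSet S ∧ #D + #D' ≤ #S + 2 := by
  classical
  obtain ⟨I₀, hI₀, hI₀c, hI₀n⟩ := hnbr' D' subset_rfl (card_pos.1 (by omega))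
  set I' := I₀.erase u with hI'def
  have hI' : G.IsIndepSet (I' : Set V) := fun p hp q hq hpq =>
    hI₀ (mem_coe.2 (mem_of_mem_erase hp)) (mem_coe.2 (mem_of_mem_erase hq)) hpq
  have hI'c : #D' ≤ #I' + 1 := by
    have := pred_card_le_card_erase (s := I₀) (a := u)
    rw [← hI'def] at this
    omega
  have hI'o : ∀ w ∈ I', (w ∉ D ∧ w ∉ D') ∧ ∃ y ∈ D', G.Adj y w := by
    intro w hw
    rw [hI'def, mem_erase] at hw
    obtain ⟨h1, y, hy, hyw⟩ := hI₀n w hw.2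
    exact ⟨⟨fun h => hw.1 (hat w h y hy hyw.symm), h1⟩, y, hy, hyw⟩
  obtain ⟨J, hJ, hJc, hJn⟩ := hnbr _ (erase_subset u D)
    (by rw [← card_pos, card_erase_of_mem hu]; omega)
  rcases union_or_conflict hJ hI' with ⟨S, hS, hSc⟩ | ⟨w₃, hw₃, w₃', hw₃', hc₃⟩
  · refine Or.inr ⟨S, hS, ?_⟩
    rw [hJc, card_erase_of_mem hu] at hSc
    omega
  obtain ⟨hw₃D, x, hx, hxw⟩ := hJn w₃ hw₃
  rw [mem_erase] at hx
  have ho3 : w₃ ∉ D ∧ w₃ ∉ D' := ⟨hw₃D, fun h => hx.1 (hat x hx.2 w₃ h hxw)⟩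
  obtain ⟨ho3', y', hy', hy'w⟩ := hI'o w₃' hw₃'
  by_cases hfree : ∃ b ∈ D', G.Adj u b ∧ ∃ y ∈ D', G.Adj y w₃' ∧ y ≠ b
  · obtain ⟨b, hb, hub, y, hy, hyw, hyb⟩ := hfree
    left
    have hedge : IsLink G D D' u [] b := ⟨hu, hb, by simp, by simp, by simp [hub]⟩
    exact hasCycle_of_links hD hD' hdis hk hk' hsum
      (isLink_mid hx.2 hy ho3 ho3' hxw hyw hc₃) hedge hx.1 hyb (fun v _ => by simp)
      (by have := length_mid_le w₃ w₃'; simp; omega)
  push Not at hfree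
  have hs3 : Sole G D' u' w₃' := fun y hy hyw => hfree u' hu' huu y hy hyw
  have honly : ∀ b ∈ D', G.Adj u b → b = u' := fun b hb hub =>
    (hfree b hb hub y' hy' hy'w).symm.trans (hs3 y' hy' hy'w)
  -- now `u u'` is the only edge between the cliques
  obtain ⟨I₁, hI₁, hI₁c, hI₁n⟩ := hnbr D subset_rfl (card_pos.1 (by omega))
  set I := I₁.erase u' with hIdef
  have hI : G.IsIndepSet (I : Set V) := fun p hp q hq hpq =>
    hI₁ (mem_coe.2 (mem_of_mem_erase hp)) (mem_coe.2 (mem_of_mem_erase hq)) hpq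
  have hIc : #D ≤ #I + 1 := by
    have := pred_card_le_card_erase (s := I₁) (a := u')
    rw [← hIdef] at this
    omega
  have hIo : ∀ w ∈ I, (w ∉ D ∧ w ∉ D') ∧ ∃ x ∈ D, G.Adj x w := by
    intro w hw
    rw [hIdef, mem_erase] at hw
    obtain ⟨h1, x, hx, hxw⟩ := hI₁n w hw.2
    refine ⟨⟨h1, fun h => hw.1 ?_⟩, x, hx, hxw⟩
    exact honly w h (hat x hx w h hxw ▸ hxw)
  obtain ⟨J', hJ', hJ'c, hJ'n⟩ := hnbr' _ (erase_subset u' D')
    (by rw [← card_pos, card_erase_of_mem hu']; omega)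
  rcases union_or_conflict hI hJ' with ⟨S, hS, hSc⟩ | ⟨w₄, hw₄, w₄', hw₄', hc₄⟩
  · refine Or.inr ⟨S, hS, ?_⟩
    rw [hJ'c, card_erase_of_mem hu'] at hSc
    omega
  left
  obtain ⟨hw₄D, y, hy, hyw⟩ := hJ'n w₄' hw₄'
  rw [mem_erase] at hy
  have ho4 : w₄' ∉ D ∧ w₄' ∉ D' := by
    refine ⟨fun h => hy.1 ?_, hw₄D⟩
    exact honly y hy.2 (hat w₄' h y hy.2 hyw.symm ▸ hyw.symm)
  obtain ⟨ho4', x', hx', hx'w⟩ := hIo w₄ hw₄
  have hedge : IsLink G D D' u [] u' := ⟨hu, hu', by simp, by simp, by simp [huu]⟩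
  rcases sole_or_other (G := G) D u w₄ with hs4 | ⟨x4, hx4, hx4w, hx4u⟩
  · exact hasCycle_cross hm hD hD' hdis hk hk' hsum hI hI'
      (fun z => ⟨[], hedge, by simp, by simp, by simp⟩) hx.1 hy.1
      (isLink_mid hx.2 hu' ho3 ho3' hxw (hs3 y' hy' hy'w ▸ hy'w) hc₃) hxw hw₃' hs3 hc₃
      (isLink_mid hu hy.2 ho4' ho4 (hs4 x' hx' hx'w ▸ hx'w) hyw hc₄) hyw hw₄ hs4 hc₄
  · exact hasCycle_of_links hD hD' hdis hk hk' hsum
      (isLink_mid hx4 hy.2 ho4' ho4 hx4w hyw hc₄) hedge hx4u hy.1 (fun v _ => by simp)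
      (by have := length_mid_le w₄ w₄'; simp; omega)

/-- A vertex of `D` complete to `D'` extends `D'`; then nothing is lost. -/
theorem two_cliques_complete {G : SimpleGraph V} [DecidableEq V] {m : ℕ} (hm : 9 ≤ m)
    {D D' : Finset V} (hD : G.IsClique (D : Set V)) (hD' : G.IsClique (D' : Set V))
    (hdis : Disjoint D D') (hk : 2 ≤ #D) (hk' : 2 ≤ #D') (hsum : m ≤ #D + #D') {u : V}
    (hu : u ∈ D) (hcom : ∀ y ∈ D', G.Adj u y) (hat : ∀ x ∈ D, ∀ y ∈ D', G.Adj x y → x = u)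
    (hnbr : NbrIndep G D) (hnbr' : NbrIndep G (insert u D')) :
    HasCycle G m ∨ ∃ S : Finset V, G.IsIndepSet S ∧ #D + #D' ≤ #S + 1 := by
  classical
  obtain ⟨I', hI', hI'c, hI'n⟩ := hnbr' D' (subset_insert u D') (card_pos.1 (by omega))
  obtain ⟨J, hJ, hJc, hJn⟩ := hnbr _ (erase_subset u D)
    (by rw [← card_pos, card_erase_of_mem hu]; omega)
  rcases union_or_conflict hJ hI' with ⟨S, hS, hSc⟩ | ⟨w, hw, w', hw', hc⟩
  · refine Or.inr ⟨S, hS, ?_⟩
    rw [hJc, card_erase_of_mem hu, hI'c] at hSc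
    omega
  left
  obtain ⟨hwD, x, hx, hxw⟩ := hJn w hw
  rw [mem_erase] at hx
  obtain ⟨hw'D, y, hy, hyw⟩ := hI'n w' hw'
  rw [mem_insert, not_or] at hw'D
  obtain ⟨b, hb, hby⟩ := exists_mem_ne (show 1 < #D' by omega) y
  have hedge : IsLink G D D' u [] b := ⟨hu, hb, by simp, by simp, by simp [hcom b hb]⟩
  exact hasCycle_of_links hD hD' hdis hk hk' hsum
    (isLink_mid hx.2 hy ⟨hwD, fun h => hx.1 (hat x hx.2 w h hxw)⟩
      ⟨fun h => hw'D.1 (hat w' h y hy hyw.symm), hw'D.2⟩ hxw hyw hc)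
    hedge hx.1 hby.symm (fun v _ => by simp) (by have := length_mid_le w w'; simp; omega)

/-- Two disjoint cliques in general: two disjoint edges, no edge, or all edges at one vertex. -/
theorem two_cliques {G : SimpleGraph V} {m : ℕ} (hm : 9 ≤ m) {D D' : Finset V}
    (hD : G.IsClique (D : Set V)) (hD' : G.IsClique (D' : Set V)) (hdis : Disjoint D D')
    (hk : 2 ≤ #D) (hk' : 2 ≤ #D') (hsum : m ≤ #D + #D')
    (hnbr : NbrIndep G D) (hnbr' : NbrIndep G D') :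
    HasCycle G m ∨ ∃ S : Finset V, G.IsIndepSet S ∧ #D + #D' ≤ #S + 2 ∧
      ((∀ x ∈ D, ∀ y ∈ D', ¬ G.Adj x y) → #D + #D' ≤ #S + 1) := by
  by_cases hno : ∀ x ∈ D, ∀ y ∈ D', ¬ G.Adj x y
  · rcases two_cliques_apart hm hD hD' hdis hk hk' hsum hno hnbr hnbr' with h | ⟨S, hS, hc⟩
    · exact Or.inl h
    · exact Or.inr ⟨S, hS, by omega, fun _ => hc⟩
  have hno2 := hno
  push Not at hno2
  obtain ⟨a, ha, a', ha', haa⟩ := hno2
  by_cases hA : ∀ x ∈ D, ∀ y ∈ D', G.Adj x y → x = a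
  · rcases two_cliques_star hm hD hD' hdis hk hk' hsum ha ha' haa hA hnbr hnbr' with h | ⟨S, hS, hc⟩
    · exact Or.inl h
    · exact Or.inr ⟨S, hS, hc, fun h => absurd h hno⟩
  by_cases hB : ∀ y ∈ D', ∀ x ∈ D, G.Adj y x → y = a'
  · rcases two_cliques_star hm hD' hD hdis.symm hk' hk (by omega) ha' ha haa.symm hB hnbr' hnbr
      with h | ⟨S, hS, hc⟩
    · exact Or.inl h
    · exact Or.inr ⟨S, hS, by omega, fun h => absurd h hno⟩
  left
  push Not at hA hB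
  obtain ⟨b, hb, b', hb', hbb, hba⟩ := hA
  obtain ⟨c', hc', c, hc, hcc, hca⟩ := hB
  -- two disjoint edges
  obtain ⟨p, hp, p', hp', q, hq, q', hq', hpp, hqq, hpq, hpq'⟩ :
      ∃ p ∈ D, ∃ p' ∈ D', ∃ q ∈ D, ∃ q' ∈ D', G.Adj p p' ∧ G.Adj q q' ∧ p ≠ q ∧ p' ≠ q' := by
    by_cases h1 : b' = a'
    · by_cases h2 : c = a
      · subst h2
        exact ⟨c, hc, c', hc', b, hb, b', hb', hcc.symm, hbb, hba.symm, fun h => hca (h.trans h1)⟩
      · exact ⟨a, ha, a', ha', c, hc, c', hc', haa, hcc.symm, fun h => h2 h.symm,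
          fun h => hca h.symm⟩
    · exact ⟨a, ha, a', ha', b, hb, b', hb', haa, hbb, hba.symm, fun h => h1 h.symm⟩
  exact hasCycle_of_links hD hD' hdis hk hk' hsum (M₁ := []) (M₂ := [])
    ⟨hp, hp', by simp, by simp, by simp [hpp]⟩ ⟨hq, hq', by simp, by simp, by simp [hqq]⟩
    hpq hpq' (by simp) (by simp; omega)

end Vale.Agent.P048.Full
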