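import Vale.Agent.P048.Full.Root
import Vale.Agent.P048.Full.Core
import Vale.Agent.P048.Full.TwoCliques
import Vale.Agent.P048.AssemblyUpper

/-!
P048, full range: the step used in the second half.  A layer that is not good contains a clique on
`q + 1` vertices, unless it is deep.
-/

namespace Vale.Agent.P048.Full

open Finset
open Dirac (StepIn PathIn CycleIn)
open Close (HasCycle Closed)

variable {V : Type*} [Fintype V] [DecidableEq V] {G : SimpleGraph V} {m n q : ℕ}

omit [DecidableEq V] in
theorem Ctx.not_hasC (h : Ctx G m n) : ¬ Assembly.HasC G m := fun hc =>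
  h.noC (Assembly.hasCycle_of_hasC hc)

/-- Every vertex is reached from every nonempty root set. -/
theorem Ctx.exists_ball (h : Ctx G m n) {R : Finset V} (hR : R.Nonempty) (u : V) :
    ∃ t, u ∈ ball G R t := by
  classical
  by_contra hu
  set S := univ.filter fun v => ∃ t, v ∈ ball G R t with hS
  have hRS : R ⊆ S := fun r hr => mem_filter.2 ⟨mem_univ _, 0, hr⟩
  have hclosed : ∀ x ∈ S, ∀ y, G.Adj x y → y ∈ S := fun x hx y hxy => by
    obtain ⟨t, ht⟩ := (mem_filter.1 hx).2
    exact mem_filter.2 ⟨mem_univ _, t + 1, adj_mem_ball ht hxy⟩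
  obtain ⟨X, hXS, hXc, hXi⟩ := exists_aOn G S
  have hpos : 0 < #X := hXc ▸ aOn_pos (hR.mono hRS)
  have huS : u ∉ S := fun hc => hu (mem_filter.1 hc).2
  have hlt := h.alpha (insert u X) (indep_insert hXi fun a ha hua =>
    huS (hclosed a (hXS ha) u hua.symm))
  rw [card_insert_of_notMem fun hc => huS (hXS hc)] at hlt
  have h1 := h.small S _ (show #X + 1 < n by omega) fun I hI hind => hXc ▸ card_le_aOn hI hind
  have h2 := h.expand (card_pos.1 hpos) hXi hXS fun x hx => hclosed x (hXS hx)
  omega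

theorem Ctx.connected (h : Ctx G m n) : G.Connected := by
  obtain ⟨v⟩ : Nonempty V := Fintype.card_pos_iff.1 (by have := h.card; omega)
  refine (SimpleGraph.connected_iff_exists_forall_reachable G).2 ⟨v, fun u => ?_⟩
  obtain ⟨t, ht⟩ := h.exists_ball (singleton_nonempty v) u
  induction t generalizing u with
  | zero => rw [show u = v from mem_singleton.1 ht]
  | succ t ih =>
    rcases mem_ball_succ.1 ht with h' | ⟨w, hw, hwu⟩
    · exact ih u h'
    · exact (ih w hw).trans hwu.reachable

/-- Levels and parents from a root set. -/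
theorem Ctx.exists_tree (h : Ctx G m n) {R : Finset V} (hR : R.Nonempty) :
    ∃ (lev : V → ℕ) (par : V → V),
      (∀ u, lev u ≠ 0 → G.Adj u (par u) ∧ lev (par u) + 1 = lev u) ∧
      (∀ u, u ∈ R ↔ lev u = 0) ∧ ∀ s u, u ∈ rlayer G R s → lev u = s := by
  have hex : ∀ u, ∃ s, u ∈ rlayer G R s := fun u => by
    obtain ⟨t, ht⟩ := h.exists_ball hR u
    obtain ⟨s, -, hs⟩ := exists_rlayer ht
    exact ⟨s, hs⟩
  choose lev hlev using hex
  have hpex : ∀ u, ∃ p, lev u ≠ 0 → G.Adj u p ∧ lev p + 1 = lev u := fun u => by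
    rcases Nat.eq_zero_or_pos (lev u) with h0 | h0
    · exact ⟨u, fun hne => absurd h0 hne⟩
    · obtain ⟨w, hw, hwu⟩ := exists_rparent (G := G) (R := R) (s := lev u - 1) (u := u)
        (by rw [Nat.sub_add_cancel h0]; exact hlev u)
      have := rlayer_level (hlev w) hw
      exact ⟨w, fun _ => ⟨hwu.symm, by omega⟩⟩
  choose par hpar using hpex
  exact ⟨lev, par, hpar, fun u => ⟨fun hu => rlayer_level (hlev u) (t := 0) hu,
    fun h0 => by have := hlev u; rw [h0] at this; exact this⟩,
    fun s u hu => rlayer_level (hlev u) hu⟩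

omit [Fintype V] in
/-- `2q + 1` vertices of minimum degree `q`, no cut vertex and `α ≤ 2` span a cycle. -/
theorem hasCycle_of_two [DecidableRel G.Adj] {B : Finset V} (hq : 2 ≤ q) (hB : #B = 2 * q + 1)
    (hdeg : ∀ x ∈ B, q ≤ #(B.filter (G.Adj x)))
    (hconn : ∀ x ∈ B, ∀ y ∈ B, Relation.ReflTransGen (StepIn G B ∅) x y)
    (hcut : ∀ t ∈ B, ∀ x ∈ B, ∀ y ∈ B, x ≠ t → y ≠ t →
      Relation.ReflTransGen (StepIn G B {t}) x y)
    (hα : aOn G B ≤ 2) : HasCycle G (2 * q + 1) := by
  obtain ⟨l, ⟨⟨hnd, hmem, hch⟩, hne, hclose⟩, hlen⟩ :=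
    Dirac.exists_cycle (card_pos.1 (show 0 < #B by omega)) hconn hcut hq hdeg
  have hcl : Closed G.Adj l := ⟨hch, fun a ha b hb => by
    rw [Option.mem_def, List.getLast?_eq_some_getLast hne, Option.some.injEq] at ha
    rw [Option.mem_def, List.head?_eq_some_head hne, Option.some.injEq] at hb
    rw [← ha, ← hb]; exact hclose⟩
  have hsub : l.toFinset ⊆ B := fun v hv => hmem v (List.mem_toFinset.1 hv)
  have hle : l.length ≤ #B := (List.toFinset_card_of_nodup hnd) ▸ card_le_card hsub
  rw [show min (2 * q) #B = 2 * q by omega] at hlen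
  rcases hle.eq_or_lt with heq | hlt
  · exact ⟨l, by omega, hnd, hcl⟩
  have hL : l.length = 2 * q := by omega
  obtain ⟨x, hx⟩ : ∃ x, B \ l.toFinset = {x} := card_eq_one.1 (by
    rw [card_sdiff_of_subset hsub, List.toFinset_card_of_nodup hnd]; omega)
  have hxB : x ∈ B := (mem_sdiff.1 (hx ▸ mem_singleton_self x)).1
  have hxl : x ∉ l := fun hc => (mem_sdiff.1 (hx ▸ mem_singleton_self x)).2 (List.mem_toFinset.2 hc)
  have hpos : 0 < l.length := by omega
  set nx : Fin l.length → Fin l.length :=
    fun i => ⟨(i.1 + 1) % l.length, Nat.mod_lt _ hpos⟩ with hnx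
  set N := univ.filter fun i : Fin l.length => G.Adj x l[i.1] with hN
  have hNq : q ≤ #N := by
    refine (hdeg x hxB).trans ((card_le_card fun v hv => ?_).trans
      (card_image_le (f := fun i : Fin l.length => l[i.1])))
    rw [mem_filter] at hv
    have hvl : v ∈ l := by
      by_contra hvl
      have : v ∈ B \ l.toFinset := mem_sdiff.2 ⟨hv.1, fun hc => hvl (List.mem_toFinset.1 hc)⟩
      rw [hx, mem_singleton] at this
      exact hv.2.ne this.symm
    obtain ⟨i, hi, rfl⟩ := List.getElem_of_mem hvl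
    exact mem_image.2 ⟨⟨i, hi⟩, mem_filter.2 ⟨mem_univ _, hv.2⟩, rfl⟩
  have hnxinj : Function.Injective nx := fun a b hab => by
    have e : (a.1 + 1) % l.length = (b.1 + 1) % l.length := congrArg Fin.val hab
    ext
    have e2 : a.1 % l.length = b.1 % l.length := Nat.ModEq.add_right_cancel' 1 e
    rwa [Nat.mod_eq_of_lt a.2, Nat.mod_eq_of_lt b.2] at e2
  -- the successors of the neighbours of `x`, with `x`
  set S := N.image fun i => l[(nx i).1] with hS
  have hSc : #S = #N := card_image_of_injective _ fun a b hab =>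
    hnxinj (Fin.ext (hnd.getElem_inj_iff.1 hab))
  have hxS : x ∉ S := fun hc => by
    obtain ⟨i, -, hi⟩ := mem_image.1 hc
    exact hxl (hi ▸ List.getElem_mem _)
  -- the rotation starting after `i`
  have hrot : ∀ i : Fin l.length, ∃ d : List V, d.length = l.length ∧ d.Nodup ∧
      Closed G.Adj d ∧ x ∉ d ∧ ∀ j (hj : j < d.length),
        d[j] = l[(j + (i.1 + 1)) % l.length]'(Nat.mod_lt _ hpos) := fun i =>
    ⟨l.rotate (i.1 + 1), List.length_rotate l _, List.nodup_rotate.2 hnd, hcl.rotate _,
      by simpa using hxl, fun j hj => List.getElem_rotate l _ j hj⟩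
  by_cases hins : ∃ i ∈ N, G.Adj x l[(nx i).1]
  · obtain ⟨i, hi, hadj⟩ := hins
    obtain ⟨d, hdl, hdn, hdc, hdx, hdg⟩ := hrot i
    have hdne : d ≠ [] := by intro hc; simp [hc] at hdl; omega
    have hh : d.head hdne = l[(nx i).1] := by
      rw [List.head_eq_getElem, hdg 0]; simp [hnx]
    have hlast : d.getLast hdne = l[i.1] := by
      rw [List.getLast_eq_getElem, hdg (d.length - 1)]
      congr 1
      rw [hdl, show l.length - 1 + (i.1 + 1) = i.1 + l.length by omega, Nat.add_mod_right,
        Nat.mod_eq_of_lt i.2]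
    refine ⟨x :: d, by simp; omega, List.nodup_cons.2 ⟨hdx, hdn⟩,
      List.isChain_cons.2 ⟨fun y hy => ?_, hdc.1⟩, fun a ha b hb => ?_⟩
    · rw [List.head?_eq_some_head hdne, Option.mem_def, Option.some.injEq] at hy
      rw [← hy, hh]; exact hadj
    · rw [List.getLast?_eq_some_getLast (by simp), List.getLast_cons hdne, hlast, Option.mem_def,
        Option.some.injEq] at ha
      simp only [List.head?_cons, Option.mem_def, Option.some.injEq] at hb
      rw [← ha, ← hb]
      exact (mem_filter.1 hi).2.symm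
  push Not at hins
  obtain ⟨a, ha, b, hb, hab⟩ : ∃ a ∈ S, ∃ b ∈ S, G.Adj a b := by
    by_contra hcon
    push Not at hcon
    have := card_le_aOn (G := G) (S := B) (I := insert x S) (insert_subset hxB fun v hv => by
      obtain ⟨i, -, rfl⟩ := mem_image.1 hv
      exact hmem _ (List.getElem_mem _)) (indep_insert hcon fun v hv => by
      obtain ⟨i, hi, rfl⟩ := mem_image.1 hv
      exact hins i hi)
    rw [card_insert_of_notMem hxS] at this
    omega
  obtain ⟨i, hi, rfl⟩ := mem_image.1 ha
  obtain ⟨k, hk, rfl⟩ := mem_image.1 hb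
  obtain ⟨d, hdl, hdn, hdc, hdx, hdg⟩ := hrot i
  set p := (k.1 + l.length - (i.1 + 1)) % l.length with hp
  have hik : i.1 ≠ k.1 := fun e => by
    rw [show i = k from Fin.ext e] at hab
    exact hab.ne rfl
  have hpL : p + 1 < l.length := by
    have h1 := i.2
    have h2 := k.2
    rcases Nat.lt_or_gt_of_ne hik with hlt' | hlt'
    · rw [hp, show k.1 + l.length - (i.1 + 1) = (k.1 - i.1 - 1) + l.length by omega,
        Nat.add_mod_right, Nat.mod_eq_of_lt (by omega)]
      omega
    · rw [hp, Nat.mod_eq_of_lt (by omega)]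
      omega
  have hpk : (p + (i.1 + 1)) % l.length = k.1 := by
    rw [hp, Nat.mod_add_mod, Nat.sub_add_cancel (by omega), Nat.add_mod_right, Nat.mod_eq_of_lt k.2]
  have hdne : d ≠ [] := by intro hc; simp [hc] at hdl; omega
  have e0 : d[0]'(by omega) = l[(nx i).1] := by rw [hdg 0]; simp [hnx]
  have ep : d[p]'(by omega) = l[k.1] := by rw [hdg p]; simp only [hpk]
  have ep1 : d[p + 1]'(by omega) = l[(nx k).1] := by
    rw [hdg (p + 1)]
    congr 1
    simp only [hnx]
    rw [← hpk, Nat.mod_add_mod]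
    congr 1; omega
  have elast : d.getLast hdne = l[i.1] := by
    rw [List.getLast_eq_getElem, hdg (d.length - 1)]
    congr 1
    rw [hdl, show l.length - 1 + (i.1 + 1) = i.1 + l.length by omega, Nat.add_mod_right,
      Nat.mod_eq_of_lt i.2]
  set A := d.take (p + 1) with hA
  set C := d.drop (p + 1) with hC
  have hAl : A.length = p + 1 := by rw [hA, List.length_take]; omega
  have hAne : A ≠ [] := by intro hc; simp [hc] at hAl
  have hCne : C ≠ [] := by rw [hC]; intro hc; rw [List.drop_eq_nil_iff] at hc; omega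
  have hAC : A ++ C = d := List.take_append_drop _ _
  have hch' := hdc.1
  rw [← hAC, List.isChain_append] at hch'
  have hAhead : A.head hAne = d[0]'(by omega) := by
    rw [List.head_eq_getElem]; simp [hA]
  have hAlast : A.getLast hAne = d[p]'(by omega) := by
    rw [List.getLast_eq_getElem]; simp [hA]; congr 1; omega
  have hChead : C.head hCne = d[p + 1]'(by omega) := by
    rw [List.head_eq_getElem]; simp [hC]
  have hnd' : (x :: (A.reverse ++ C)).Nodup := by
    refine List.nodup_cons.2 ⟨fun hc => hdx (hAC ▸ by simpa using hc), ?_⟩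
    exact ((A.reverse_perm.append_right C).nodup_iff).2 (hAC.symm ▸ hdn)
  refine ⟨x :: (A.reverse ++ C), ?_, hnd', ?_, fun u hu v hv => ?_⟩
  · have := congrArg List.length hAC
    simp at this ⊢
    omega
  · rw [List.isChain_cons, List.isChain_append, List.isChain_reverse]
    refine ⟨fun y hy => ?_, hch'.1.imp fun _ _ e => e.symm, hch'.2.1, fun u hu v hv => ?_⟩
    · rw [List.head?_eq_some_head (by simp [hAne]), Option.mem_def, Option.some.injEq] at hy
      rw [← hy, List.head_append_of_ne_nil (by simpa using hAne), List.head_reverse, hAlast, ep]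
      exact (mem_filter.1 hk).2
    · rw [List.getLast?_eq_some_getLast (by simpa using hAne), List.getLast_reverse, hAhead, e0,
        Option.mem_def, Option.some.injEq] at hu
      rw [List.head?_eq_some_head hCne, hChead, ep1, Option.mem_def, Option.some.injEq] at hv
      rw [← hu, ← hv]
      exact hab
  · rw [List.getLast?_eq_some_getLast (by simp), List.getLast_cons (by simp [hAne]),
      List.getLast_append_of_ne_nil _ hCne, Option.mem_def, Option.some.injEq] at hu
    simp only [List.head?_cons, Option.mem_def, Option.some.injEq] at hv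
    have e : C.getLast hCne = d.getLast hdne := by
      simp only [hC, List.getLast_drop]
    rw [← hu, ← hv, e, elast]
    exact (mem_filter.1 hi).2.symm

/-- A layer part that is not good has a clique on `q + 1` vertices or is deep. -/
theorem Ctx.clique_or_deep (h : Ctx G m n) (hq : 3 ≤ q) (hmq : m = 2 * q + 1 ∨ m = 2 * q + 2)
    {R : Finset V} (hne : R.Nonempty) (hR : ∀ a ∈ R, ∀ b ∈ R, a ≠ b → G.Adj a b) {i : ℕ}
    (hi : 1 ≤ i) {L : Finset V} (hL : L ⊆ rlayer G R i) (hbad : ¬ Good G L q) :
    (∃ D ⊆ L, #D = q + 1 ∧ G.IsClique (D : Set V)) ∨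
      (m < 2 * i + 2 ∧ 2 ≤ aOn G L ∧ (m = 2 * q + 1 → 3 ≤ aOn G L)) := by
  classical
  simp only [Good, not_forall, not_le] at hbad
  obtain ⟨S₀, hS₀, k, hk, hlt⟩ := hbad
  obtain ⟨I₀, hI₀, hI₀c, hI₀i⟩ := exists_aOn G S₀
  have hb₀ : Bad G S₀ q 0 := ⟨card_pos.1 (by omega), by
    have := Nat.mul_le_mul_left q (show aOn G S₀ ≤ k from hI₀c ▸ hk I₀ hI₀ hI₀i)
    omega⟩
  obtain ⟨S, hS, hmin⟩ := (L.powerset.filter fun S => Bad G S q 0).exists_min_image
    (fun S => #S) ⟨S₀, by simp [hS₀, hb₀]⟩
  rw [mem_filter, mem_powerset] at hS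
  obtain ⟨hSL, hSb⟩ := hS
  rcases exists_minimal_bad (c := 0) (show 2 ≤ q by omega) (by omega) (by omega) hSb with
    ⟨D, hDS, hDc, hDcl⟩ | ⟨B, hBS, hα2, hbb, hdeg, hconn, hcut, hbip⟩
  · exact Or.inl ⟨D, hDS.trans hSL, by simpa using hDc, fun a ha b hb => hDcl a ha b hb⟩
  right
  have hBL := hBS.trans hSL
  have h2q : 2 * q + 1 ≤ #B := by
    have := Nat.mul_le_mul_left q hα2
    omega
  have hexact : #B ≤ q * aOn G B + 1 := by
    by_contra hc
    obtain ⟨x, hx⟩ := card_pos.1 (show 0 < #B by omega)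
    have hc1 := card_erase_of_mem hx
    have hmono := Nat.mul_le_mul_left q (aOn_mono (G := G) (erase_subset x B))
    have := hmin (B.erase x) (mem_filter.2 ⟨mem_powerset.2 ((erase_subset x B).trans hBL),
      card_pos.1 (by omega), by omega⟩)
    have := card_le_card hBS
    omega
  have hdeep : m < 2 * i + 2 := by
    by_contra hd
    obtain ⟨lev, par, hpar, hlR, hlev⟩ := h.exists_tree hne
    exact h.not_hasC (hasC_of_block lev par hpar R hlR hR (show 2 ≤ q by omega) (by omega) (by omega)
      (fun x hx => hlev i x (hL (hBL hx))) hi (by omega) (Or.inr ⟨by omega, Or.inl hq⟩)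
      (by omega) hdeg hconn hcut hbip)
  refine ⟨hdeep, hα2.trans (aOn_mono hBL), fun hm => ?_⟩
  rcases hα2.eq_or_lt with h2 | h3
  · exfalso
    rw [← h2] at hexact
    exact h.noC (hm ▸ hasCycle_of_two (show 2 ≤ q by omega) (by omega) hdeg hconn hcut h2.ge)
  · exact Nat.le_trans h3 (aOn_mono hBL)

end Vale.Agent.P048.Full
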